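import Vale.Agent.P335.MathlibUsed
import Vale.Agent.P335.Defs

set_option linter.all false

section

section

namespace Vale.Agent.P335.RA

open Finset

section Avg

variable {Ω : Type*} [Fintype Ω]

open Classical in
/-- The class of `x` for the setoid `r`. -/
noncomputable def cls (r : Setoid Ω) (x : Ω) : Finset Ω := univ.filter (fun y => r x y)

open Classical in
/-- The average of `f` over the class of `x`. -/
noncomputable def cavg (r : Setoid Ω) (f : Ω → ℝ) (x : Ω) : ℝ :=
  (∑ y ∈ cls r x, f y) / ((cls r x).card : ℝ)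

/-- The inner product for the counting measure. -/
def ip (f g : Ω → ℝ) : ℝ := ∑ x, f x * g x

@[simp] lemma mem_cls {r : Setoid Ω} {x y : Ω} : y ∈ cls r x ↔ r x y := by
  classical
  simp only [cls, mem_filter, mem_univ, true_and]

lemma self_mem_cls (r : Setoid Ω) (x : Ω) : x ∈ cls r x := by
  simp

lemma cls_card_pos (r : Setoid Ω) (x : Ω) : 0 < (cls r x).card :=
  Finset.card_pos.mpr ⟨x, self_mem_cls r x⟩

lemma cls_card_ne (r : Setoid Ω) (x : Ω) : ((cls r x).card : ℝ) ≠ 0 := by
  have := cls_card_pos r x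
  (clear * - this; positivity)

lemma cls_eq {r : Setoid Ω} {x y : Ω} (h : r x y) : cls r x = cls r y := by
  ext z
  simp only [mem_cls]
  exact ⟨fun hz => r.trans (r.symm h) hz, fun hz => r.trans h hz⟩

lemma cavg_congr {r : Setoid Ω} {x y : Ω} (h : r x y) (f : Ω → ℝ) :
    cavg r f x = cavg r f y := by
  unfold cavg; rw [cls_eq h]

lemma cavg_of_const {r : Setoid Ω} {f : Ω → ℝ} {x : Ω} (h : ∀ y, r x y → f y = f x) :
    cavg r f x = f x := by
  unfold cavg
  rw [Finset.sum_congr rfl (fun y hy => h y (mem_cls.mp hy)), Finset.sum_const, nsmul_eq_mul,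
    mul_comm, mul_div_assoc, div_self (cls_card_ne r x), mul_one]

lemma cavg_of_const' {r : Setoid Ω} {f : Ω → ℝ} (h : ∀ x y, r x y → f y = f x) :
    cavg r f = f := by
  funext x; exact cavg_of_const (h x)

lemma cavg_idem (r : Setoid Ω) (f : Ω → ℝ) : cavg r (cavg r f) = cavg r f :=
  cavg_of_const' (fun _ _ h => (cavg_congr h f).symm)

lemma cavg_add (r : Setoid Ω) (f g : Ω → ℝ) : cavg r (f + g) = cavg r f + cavg r g := by
  funext x
  simp only [cavg, Pi.add_apply, Finset.sum_add_distrib, add_div]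

lemma cavg_smul (r : Setoid Ω) (c : ℝ) (f : Ω → ℝ) : cavg r (c • f) = c • cavg r f := by
  funext x
  simp only [cavg, Pi.smul_apply, smul_eq_mul, ← Finset.mul_sum, mul_div_assoc]

lemma cavg_sub (r : Setoid Ω) (f g : Ω → ℝ) : cavg r (f - g) = cavg r f - cavg r g := by
  funext x
  simp only [cavg, Pi.sub_apply, Finset.sum_sub_distrib, sub_div]

/-- `cavg` as a linear map. -/
noncomputable def cavgL (r : Setoid Ω) : (Ω → ℝ) →ₗ[ℝ] (Ω → ℝ) where
  toFun := cavg r
  map_add' := cavg_add r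
  map_smul' c f := cavg_smul r c f

@[simp] lemma cavgL_apply (r : Setoid Ω) (f : Ω → ℝ) : cavgL r f = cavg r f := rfl

lemma cavg_const (r : Setoid Ω) (c : ℝ) : cavg r (fun _ => c) = fun _ => c :=
  cavg_of_const' (fun _ _ _ => rfl)

open Classical in
lemma ip_cavg (r : Setoid Ω) (f g : Ω → ℝ) : ip (cavg r f) g = ip f (cavg r g) := by
  unfold ip cavg
  have h1 : ∀ x, (∑ y ∈ cls r x, f y) / ((cls r x).card : ℝ) * g x
      = ∑ y, if r x y then f y * g x / ((cls r x).card : ℝ) else 0 := by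
    intro x
    rw [← Finset.sum_filter]
    rw [div_mul_eq_mul_div, Finset.sum_mul, Finset.sum_div]
    rfl
  have h2 : ∀ x, f x * ((∑ y ∈ cls r x, g y) / ((cls r x).card : ℝ))
      = ∑ y, if r x y then f x * g y / ((cls r x).card : ℝ) else 0 := by
    intro x
    rw [← Finset.sum_filter, ← mul_div_assoc, Finset.mul_sum, Finset.sum_div]
    rfl
  rw [Finset.sum_congr rfl (fun x _ => h1 x), Finset.sum_congr rfl (fun x _ => h2 x),
    Finset.sum_comm]
  refine Finset.sum_congr rfl (fun y _ => Finset.sum_congr rfl (fun x _ => ?_))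
  by_cases h : r x y
  · rw [if_pos h, if_pos (r.symm h), cls_eq h]
  · rw [if_neg h, if_neg (fun h' => h (r.symm h'))]

lemma ip_comm (f g : Ω → ℝ) : ip f g = ip g f := by
  unfold ip; exact Finset.sum_congr rfl (fun x _ => mul_comm _ _)

lemma ip_add_left (f g h : Ω → ℝ) : ip (f + g) h = ip f h + ip g h := by
  simp only [ip, Pi.add_apply, add_mul, Finset.sum_add_distrib]

lemma ip_add_right (f g h : Ω → ℝ) : ip f (g + h) = ip f g + ip f h := by
  simp only [ip, Pi.add_apply, mul_add, Finset.sum_add_distrib]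

lemma ip_sub_left (f g h : Ω → ℝ) : ip (f - g) h = ip f h - ip g h := by
  simp only [ip, Pi.sub_apply, sub_mul, Finset.sum_sub_distrib]

lemma ip_sub_right (f g h : Ω → ℝ) : ip f (g - h) = ip f g - ip f h := by
  simp only [ip, Pi.sub_apply, mul_sub, Finset.sum_sub_distrib]

lemma ip_smul_left (c : ℝ) (f g : Ω → ℝ) : ip (c • f) g = c * ip f g := by
  simp only [ip, Pi.smul_apply, smul_eq_mul, mul_assoc, ← Finset.mul_sum]

lemma ip_smul_right (c : ℝ) (f g : Ω → ℝ) : ip f (c • g) = c * ip f g := by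
  rw [ip_comm, ip_smul_left, ip_comm]

lemma ip_self_nonneg (f : Ω → ℝ) : 0 ≤ ip f f :=
  Finset.sum_nonneg (fun x _ => mul_self_nonneg _)

lemma ip_self_eq_sum_sq (f : Ω → ℝ) : ip f f = ∑ x, f x ^ 2 := by
  unfold ip; exact Finset.sum_congr rfl (fun x _ => (sq _).symm)

/-- Nested classes, inner first. -/
lemma cavg_cavg_of_le {r s : Setoid Ω} (h : ∀ x y, r x y → s x y) (f : Ω → ℝ) :
    cavg r (cavg s f) = cavg s f :=
  cavg_of_const' (fun x y hxy => (cavg_congr (h x y hxy) f).symm)

/-- Testing against all functions. -/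
lemma ext_ip {f g : Ω → ℝ} (h : ∀ k, ip f k = ip g k) : f = g := by
  have h1 : ip (f - g) (f - g) = 0 := by
    rw [ip_sub_left, h, sub_self]
  rw [ip_self_eq_sum_sq] at h1
  funext x
  have := (Finset.sum_eq_zero_iff_of_nonneg (fun x _ => sq_nonneg _)).mp h1 x (mem_univ x)
  have h2 : (f - g) x = 0 := by simpa only [Pi.sub_apply, ne_eq, OfNat.ofNat_ne_zero, not_false_eq_true, pow_eq_zero_iff] using this
  simpa [sub_eq_zero] using h2

lemma cavg_cavg_of_ge {r s : Setoid Ω} (h : ∀ x y, r x y → s x y) (f : Ω → ℝ) :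
    cavg s (cavg r f) = cavg s f := by
  apply ext_ip
  intro k
  rw [ip_cavg, ip_cavg, cavg_cavg_of_le h, ← ip_cavg]

/-- The complementary projection. -/
noncomputable def cdev (r : Setoid Ω) (f : Ω → ℝ) : Ω → ℝ := f - cavg r f

lemma cdev_apply (r : Setoid Ω) (f : Ω → ℝ) (x : Ω) : cdev r f x = f x - cavg r f x := rfl

lemma ip_cdev (r : Setoid Ω) (f g : Ω → ℝ) : ip (cdev r f) g = ip f (cdev r g) := by
  unfold cdev; rw [ip_sub_left, ip_sub_right, ip_cavg]

lemma cavg_cdev (r : Setoid Ω) (f : Ω → ℝ) : cavg r (cdev r f) = 0 := by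
  unfold cdev; rw [cavg_sub, cavg_idem, sub_self]

lemma cdev_cdev (r : Setoid Ω) (f : Ω → ℝ) : cdev r (cdev r f) = cdev r f := by
  conv_lhs => unfold cdev
  rw [show f - cavg r f = cdev r f from rfl, cavg_cdev, sub_zero]

lemma ip_cdev_self (r : Setoid Ω) (f : Ω → ℝ) : ip f (cdev r f) = ip (cdev r f) (cdev r f) := by
  rw [ip_cdev, cdev_cdev]

lemma cdev_add (r : Setoid Ω) (f g : Ω → ℝ) : cdev r (f + g) = cdev r f + cdev r g := by
  unfold cdev; rw [cavg_add]; ring

lemma cdev_sub (r : Setoid Ω) (f g : Ω → ℝ) : cdev r (f - g) = cdev r f - cdev r g := by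
  unfold cdev; rw [cavg_sub]; ring

lemma cdev_smul (r : Setoid Ω) (c : ℝ) (f : Ω → ℝ) : cdev r (c • f) = c • cdev r f := by
  unfold cdev; rw [cavg_smul, smul_sub]

/-- `cdev` as a linear map. -/
noncomputable def cdevL (r : Setoid Ω) : (Ω → ℝ) →ₗ[ℝ] (Ω → ℝ) where
  toFun := cdev r
  map_add' := cdev_add r
  map_smul' c f := cdev_smul r c f

@[simp] lemma cdevL_apply (r : Setoid Ω) (f : Ω → ℝ) : cdevL r f = cdev r f := rfl

/-- Two commuting averages: positive correlation of the deviations. -/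
lemma ip_cdev_cdev_nonneg_of_comm {r s : Setoid Ω} {f : Ω → ℝ}
    (h : cavg r (cavg s f) = cavg s (cavg r f)) : 0 ≤ ip (cdev r f) (cdev s f) := by
  have hc : cdev r (cdev s f) = cdev s (cdev r f) := by
    unfold cdev; rw [cavg_sub, cavg_sub, h]; ring
  have : ip (cdev s (cdev r f)) (cdev s (cdev r f)) = ip (cdev r f) (cdev s f) := by
    rw [ip_cdev, cdev_cdev, ← hc, ← ip_cdev, cdev_cdev]
  rw [← this]
  exact ip_self_nonneg _

/-- Rectangle property at a point. -/
def Rect (r s : Setoid Ω) (x : Ω) : Prop :=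
  ∀ y z, r x y → s x z → ∃! w, s y w ∧ r z w

lemma Rect.swap {r s : Setoid Ω} {x : Ω} (h : Rect r s x) : Rect s r x := by
  intro y z hy hz
  obtain ⟨w, hw, hu⟩ := h z y hz hy
  exact ⟨w, ⟨hw.2, hw.1⟩, fun w' hw' => hu w' ⟨hw'.2, hw'.1⟩⟩

/-- The rectangle property at `x` and at `y` (in the same `r` class) gives equal sizes of the
`s` classes, and the double sum formula. -/
lemma Rect.exists_equiv {r s : Setoid Ω} {x y : Ω} (hx : Rect r s x) (hy : Rect r s y)
    (hxy : r x y) : ∃ e : {z // s x z} ≃ {w // s y w}, ∀ z, r z.1 (e z).1 := by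
  classical
  have h1 : ∀ z : {z // s x z}, ∃ w : {w // s y w}, r z.1 w.1 := by
    intro z
    obtain ⟨w, hw, -⟩ := hx y z.1 hxy z.2
    exact ⟨⟨w, hw.1⟩, hw.2⟩
  have h2 : ∀ w : {w // s y w}, ∃ z : {z // s x z}, r w.1 z.1 := by
    intro w
    obtain ⟨z, hz, -⟩ := hy x w.1 (r.symm hxy) w.2
    exact ⟨⟨z, hz.1⟩, hz.2⟩
  choose F hF using h1
  choose G hG using h2
  refine ⟨⟨F, G, ?_, ?_⟩, hF⟩
  · intro z
    obtain ⟨v, -, hv⟩ := hy x (F z).1 (r.symm hxy) (F z).2
    have e1 := hv (G (F z)).1 ⟨(G (F z)).2, hG _⟩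
    have e2 := hv z.1 ⟨z.2, r.symm (hF z)⟩
    exact Subtype.ext (e1.trans e2.symm)
  · intro w
    obtain ⟨v, -, hv⟩ := hx y (G w).1 hxy (G w).2
    have e1 := hv (F (G w)).1 ⟨(F (G w)).2, hF _⟩
    have e2 := hv w.1 ⟨w.2, r.symm (hG w)⟩
    exact Subtype.ext (e1.trans e2.symm)

lemma Rect.card_eq {r s : Setoid Ω} {x y : Ω} (hx : Rect r s x) (hy : Rect r s y)
    (hxy : r x y) : (cls s x).card = (cls s y).card := by
  classical
  obtain ⟨e, -⟩ := hx.exists_equiv hy hxy
  have := Fintype.card_congr e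
  simpa only [cls, Fintype.card_subtype] using this

/-- Commutation of the two averages at a point whose whole neighbourhood has the rectangle
property. -/
lemma cavg_comm_at {r s : Setoid Ω} {A : Ω → Prop} (hA : ∀ x, A x → Rect r s x)
    (hr : ∀ x y, r x y → A x → A y) (hs : ∀ x y, s x y → A x → A y) (f : Ω → ℝ) {x : Ω}
    (hx : A x) : cavg r (cavg s f) x = cavg s (cavg r f) x := by
  classical
  -- both sides equal the normalised sum over the rectangle
  have key : ∀ {r s : Setoid Ω}, (∀ x, A x → Rect r s x) → (∀ x y, r x y → A x → A y) →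
      (∀ x y, s x y → A x → A y) →
      cavg r (cavg s f) x = (∑ y ∈ cls r x, ∑ w ∈ cls s y, f w) /
        (((cls r x).card : ℝ) * ((cls s x).card : ℝ)) := by
    intro r s hA hr hs
    unfold cavg
    rw [← div_div, div_right_comm]
    congr 1
    rw [Finset.sum_div]
    refine Finset.sum_congr rfl (fun y hy => ?_)
    rw [(hA x hx).card_eq (hA y (hr x y (mem_cls.mp hy) hx)) (mem_cls.mp hy)]
  rw [key hA hr hs, key (fun x hx => (hA x hx).swap) hs hr, mul_comm ((cls r x).card : ℝ)]
  congr 1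
  -- reindex
  rw [Finset.sum_sigma', Finset.sum_sigma']
  have hex : ∀ p : (_ : Ω) × Ω, p ∈ (cls r x).sigma (fun y => cls s y) →
      ∃ z, s x z ∧ r z p.2 := by
    rintro ⟨y, w⟩ hp
    simp only [Finset.mem_sigma, mem_cls] at hp
    obtain ⟨z, hz, -⟩ := hA y (hr x y hp.1 hx) x w (r.symm hp.1) hp.2
    exact ⟨z, hz.1, r.symm hz.2⟩
  have hex' : ∀ p : (_ : Ω) × Ω, p ∈ (cls s x).sigma (fun y => cls r y) →
      ∃ z, r x z ∧ s z p.2 := by
    rintro ⟨z, w⟩ hp
    simp only [Finset.mem_sigma, mem_cls] at hp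
    obtain ⟨y, hy, -⟩ := hA z (hs x z hp.1 hx) w x hp.2 (s.symm hp.1)
    exact ⟨y, hy.2, s.symm hy.1⟩
  have uniq : ∀ w z z', s x z → r z w → s x z' → r z' w → z = z' := by
    intro w z z' h1 h2 h3 h4
    -- rectangle at z : r z w, s z x and z', both complete
    have hz : A z := hs x z h1 hx
    have hw : A w := hr z w h2 hz
    -- y completing: r x y, s y w
    obtain ⟨y, hy, -⟩ := hA z hz w x h2 (s.symm h1)
    -- at y : r y x, s y w
    have hyA : A y := hr x y hy.2 hx
    obtain ⟨v, -, hv⟩ := hA y hyA x w (r.symm hy.2) (s.symm hy.1)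
    exact (hv z ⟨h1, r.symm h2⟩).trans (hv z' ⟨h3, r.symm h4⟩).symm
  have uniq' : ∀ w z z', r x z → s z w → r x z' → s z' w → z = z' := by
    intro w z z' h1 h2 h3 h4
    have hz : A z := hr x z h1 hx
    obtain ⟨y, hy, -⟩ := hA z hz x w (r.symm h1) h2
    -- s x y, r w y
    have hyA : A y := hs x y hy.1 hx
    obtain ⟨v, -, hv⟩ := hA y hyA w x (r.symm hy.2) (s.symm hy.1)
    exact (hv z ⟨s.symm h2, h1⟩).trans (hv z' ⟨s.symm h4, h3⟩).symm
  refine Finset.sum_bij' (fun p hp => (⟨Classical.choose (hex p hp), p.2⟩ : (_ : Ω) × Ω))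
    (fun p hp => (⟨Classical.choose (hex' p hp), p.2⟩ : (_ : Ω) × Ω)) ?_ ?_ ?_ ?_ ?_
  · intro p hp
    have := Classical.choose_spec (hex p hp)
    simp only [Finset.mem_sigma, mem_cls]
    exact this
  · intro p hp
    have := Classical.choose_spec (hex' p hp)
    simp only [Finset.mem_sigma, mem_cls]
    exact this
  · rintro ⟨y, w⟩ hp
    have h0 := hp
    simp only [Finset.mem_sigma, mem_cls] at h0
    generalize_proofs h1 h2
    have hs1 := Classical.choose_spec h2
    have := uniq' w (Classical.choose h2) y hs1.1 hs1.2 h0.1 h0.2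
    simp only [Sigma.mk.injEq]
    exact ⟨this, HEq.rfl⟩
  · rintro ⟨y, w⟩ hp
    have h0 := hp
    simp only [Finset.mem_sigma, mem_cls] at h0
    generalize_proofs h1 h2
    have hs1 := Classical.choose_spec h2
    have := uniq w (Classical.choose h2) y hs1.1 hs1.2 h0.1 h0.2
    simp only [Sigma.mk.injEq]
    exact ⟨this, HEq.rfl⟩
  · intro p hp
    rfl

lemma cavg_comm {r s : Setoid Ω} (h : ∀ x, Rect r s x) (f : Ω → ℝ) :
    cavg r (cavg s f) = cavg s (cavg r f) := by
  funext x
  exact cavg_comm_at (A := fun _ => True) (fun x _ => h x) (fun _ _ _ _ => trivial)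
    (fun _ _ _ _ => trivial) f trivial

lemma cavg_comp_perm {r : Setoid Ω} (τ : Equiv.Perm Ω) (h : ∀ x y, r (τ x) (τ y) ↔ r x y)
    (f : Ω → ℝ) : cavg r (f ∘ τ) = cavg r f ∘ τ := by
  classical
  funext x
  have hmap : cls r (τ x) = (cls r x).map τ.toEmbedding := by
    ext y
    simp only [mem_cls, Finset.mem_map, Equiv.coe_toEmbedding]
    constructor
    · intro hy
      refine ⟨τ.symm y, ?_, τ.apply_symm_apply y⟩
      rw [← h, τ.apply_symm_apply]; exact hy
    · rintro ⟨z, hz, rfl⟩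
      exact (h x z).mpr hz
  simp only [cavg, Function.comp_apply]
  rw [hmap, Finset.sum_map, Finset.card_map]
  rfl

lemma ip_comp_perm (τ : Equiv.Perm Ω) (f g : Ω → ℝ) : ip (f ∘ τ) (g ∘ τ) = ip f g := by
  unfold ip
  exact Equiv.sum_comp τ (fun x => f x * g x)

lemma cdev_comp_perm {r : Setoid Ω} (τ : Equiv.Perm Ω) (h : ∀ x y, r (τ x) (τ y) ↔ r x y)
    (f : Ω → ℝ) : cdev r (f ∘ τ) = cdev r f ∘ τ := by
  unfold cdev; rw [cavg_comp_perm τ h]; rfl

/-- Pythagoras. -/
lemma ip_self_eq (r : Setoid Ω) (f : Ω → ℝ) :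
    ip f f = ip (cavg r f) (cavg r f) + ip (cdev r f) (cdev r f) := by
  have h1 : ip (cavg r f) (cavg r f) = ip f (cavg r f) := by
    rw [ip_cavg, cavg_idem]
  rw [h1, ← ip_cdev_self, ← ip_add_right]
  unfold cdev
  congr 1
  ring

lemma ip_cavg_self_le (r : Setoid Ω) (f : Ω → ℝ) : ip (cavg r f) (cavg r f) ≤ ip f f := by
  rw [ip_self_eq r f]
  have := ip_self_nonneg (cdev r f)
  linarith

lemma ip_cdev_self_le (r : Setoid Ω) (f : Ω → ℝ) : ip (cdev r f) (cdev r f) ≤ ip f f := by
  rw [ip_self_eq r f]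
  have := ip_self_nonneg (cavg r f)
  linarith

open Classical in
/-- Multiplication by the indicator of a set. -/
noncomputable def res (A : Ω → Prop) (f : Ω → ℝ) : Ω → ℝ := fun x => if A x then f x else 0

lemma cavg_res {r : Setoid Ω} {A : Ω → Prop} (hA : ∀ x y, r x y → A x → A y) (f : Ω → ℝ) :
    cavg r (res A f) = res A (cavg r f) := by
  classical
  funext x
  unfold cavg res
  by_cases hx : A x
  · rw [if_pos hx, Finset.sum_congr rfl (fun y hy => if_pos (hA x y (mem_cls.mp hy) hx))]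
  · rw [if_neg hx, Finset.sum_congr rfl
      (fun y hy => if_neg (fun hy' => hx (hA y x (r.symm (mem_cls.mp hy)) hy'))),
      Finset.sum_const_zero, zero_div]

lemma cdev_res {r : Setoid Ω} {A : Ω → Prop} (hA : ∀ x y, r x y → A x → A y) (f : Ω → ℝ) :
    cdev r (res A f) = res A (cdev r f) := by
  classical
  funext x
  unfold cdev
  rw [cavg_res hA]
  simp only [Pi.sub_apply, res]
  by_cases hx : A x
  · simp [hx]
  · simp [hx]

/-- Jensen inequality on an invariant set. -/
lemma sum_cavg_sq_le {r : Setoid Ω} {A : Ω → Prop} (hA : ∀ x y, r x y → A x → A y)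
    (f : Ω → ℝ) : ip (res A (cavg r f)) (res A (cavg r f)) ≤ ip (res A f) (res A f) := by
  rw [← cavg_res hA]
  exact ip_cavg_self_le r _

lemma ip_res_left (A : Ω → Prop) (f g : Ω → ℝ) : ip (res A f) g = ip f (res A g) := by
  classical
  unfold ip res
  refine Finset.sum_congr rfl (fun x _ => ?_)
  by_cases hx : A x <;> simp [hx]

lemma res_res (A : Ω → Prop) (f : Ω → ℝ) : res A (res A f) = res A f := by
  classical
  funext x
  unfold res
  by_cases hx : A x <;> simp [hx]

lemma ip_res_res (A : Ω → Prop) (f g : Ω → ℝ) : ip (res A f) (res A g) = ip (res A f) g := by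
  rw [ip_comm, ip_res_left, res_res, ip_comm]

lemma ip_split (A : Ω → Prop) (f g : Ω → ℝ) :
    ip f g = ip (res A f) (res A g) + ip (res (fun x => ¬ A x) f) (res (fun x => ¬ A x) g) := by
  classical
  unfold ip res
  rw [← Finset.sum_add_distrib]
  refine Finset.sum_congr rfl (fun x _ => ?_)
  by_cases hx : A x <;> simp [hx]

end Avg

end Vale.Agent.P335.RA
end
end

section

section

/-! Lemma B on Johnson orbits (Route A, piece A3). -/

namespace Vale.Agent.P335.Johnson

open Finset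

variable {α : Type*} [DecidableEq α]

/-- the set `S` with the elements `b` and `d` exchanged -/
def sw (b d : α) (S : Finset α) : Finset α := S.map (Equiv.swap b d).toEmbedding

/-- indicator of membership, as a real number -/
noncomputable def ind (b : α) (S : Finset α) : ℝ := if b ∈ S then 1 else 0

lemma mem_sw {b d x : α} {S : Finset α} : x ∈ sw b d S ↔ Equiv.swap b d x ∈ S := by
  unfold sw
  rw [Finset.mem_map_equiv]
  simp

lemma sw_insert {b c d : α} (hc : b ≠ c) (hd : b ≠ d) (S : Finset α) :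
    sw c d (insert b S) = insert b (sw c d S) := by
  ext x
  simp only [mem_sw, mem_insert]
  constructor
  · rintro (h | h)
    · left
      have h2 : Equiv.swap c d (Equiv.swap c d x) = Equiv.swap c d b := by rw [h]
      rw [Equiv.swap_apply_self, Equiv.swap_apply_of_ne_of_ne hc hd] at h2
      exact h2
    · right; exact h
  · rintro (h | h)
    · left; rw [h, Equiv.swap_apply_of_ne_of_ne hc hd]
    · right; exact h

lemma sum_split {U : Finset α} {b : α} (hb : b ∈ U) (k : ℕ) (G : Finset α → ℝ) :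
    ∑ S ∈ U.powersetCard (k + 1), G S =
      ∑ S ∈ (U.erase b).powersetCard (k + 1), G S +
        ∑ S ∈ (U.erase b).powersetCard k, G (insert b S) := by
  conv_lhs => rw [← insert_erase hb]
  rw [powersetCard_succ_insert (notMem_erase b U), sum_union, sum_image]
  · intro S hS T hT hST
    have hS' : S ⊆ U.erase b := (mem_powersetCard.mp hS).1
    have hT' : T ⊆ U.erase b := (mem_powersetCard.mp hT).1
    have h1 : b ∉ S := fun h => notMem_erase b U (hS' h)
    have h2 : b ∉ T := fun h => notMem_erase b U (hT' h)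
    have := congrArg (fun X => erase X b) hST
    simpa [erase_insert h1, erase_insert h2] using this
  · rw [disjoint_left]
    intro S hS hS2
    obtain ⟨T, hT, rfl⟩ := mem_image.mp hS2
    have hS' : insert b T ⊆ U.erase b := (mem_powersetCard.mp hS).1
    exact notMem_erase b U (hS' (mem_insert_self b T))

lemma ind_insert_self (b : α) (S : Finset α) : ind b (insert b S) = 1 := by
  simp [ind]

lemma ind_insert_of_ne {b d : α} (h : b ≠ d) (S : Finset α) :
    ind b (insert d S) = ind b S := by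
  simp [ind, h]

lemma ind_of_not_mem {b : α} {S : Finset α} (h : b ∉ S) : ind b S = 0 := by
  simp [ind, h]

lemma ind_sq (b : α) (S : Finset α) : ind b S ^ 2 = ind b S := by
  unfold ind; split_ifs <;> norm_num

lemma not_mem_of_erase {U S : Finset α} {b : α} {k : ℕ}
    (h : S ∈ (U.erase b).powersetCard k) : b ∉ S :=
  fun hb => notMem_erase b U ((mem_powersetCard.mp h).1 hb)

/-- the number of `k+1`-subsets containing `d`, among sets in `W` -/
lemma sum_ind {W : Finset α} {d : α} (hd : d ∈ W) {m : ℕ} (hW : W.card = m + 1) (k : ℕ) :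
    ∑ S ∈ W.powersetCard (k + 1), ind d S = (m.choose k : ℝ) := by
  have hc : (W.erase d).card = m := by rw [card_erase_of_mem hd, hW]; rfl
  rw [sum_split hd]
  have h1 : ∑ S ∈ (W.erase d).powersetCard (k + 1), ind d S = 0 :=
    sum_eq_zero fun S hS => ind_of_not_mem (not_mem_of_erase hS)
  rw [h1]
  simp only [ind_insert_self, sum_const, card_powersetCard, hc, nsmul_eq_mul, mul_one, zero_add]

lemma sum_one_sub_ind {W : Finset α} {d : α} (hd : d ∈ W) {m : ℕ} (hW : W.card = m + 1)
    (k : ℕ) : ∑ S ∈ W.powersetCard k, (1 - ind d S) = (m.choose k : ℝ) := by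
  cases k with
  | zero => simp only [powersetCard_zero, ind, sum_sub_distrib, sum_const, card_singleton, one_smul, sum_boole, Nat.choose_zero_right, Nat.cast_one, sub_eq_self, Nat.cast_eq_zero, card_eq_zero, filter_eq_empty_iff, mem_singleton, forall_eq, notMem_empty, not_false_eq_true]
  | succ k =>
    rw [sum_sub_distrib, sum_ind hd hW]
    simp only [sum_const, card_powersetCard, hW, Nat.choose_succ_succ, Nat.succ_eq_add_one, nsmul_eq_mul, Nat.cast_add, mul_one, add_sub_cancel_left]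

/-- the size of `X_bd` -/
lemma sum_sq_diff {U : Finset α} {b d : α} (hb : b ∈ U) (hd : d ∈ U) (hbd : b ≠ d)
    {m : ℕ} (hU : U.card = m + 2) (k : ℕ) :
    ∑ S ∈ U.powersetCard (k + 1), (ind b S - ind d S) ^ 2 = 2 * (m.choose k : ℝ) := by
  have hc : (U.erase b).card = m + 1 := by rw [card_erase_of_mem hb, hU]; rfl
  have hd' : d ∈ U.erase b := mem_erase.mpr ⟨hbd.symm, hd⟩
  rw [sum_split hb]
  have h1 : ∑ S ∈ (U.erase b).powersetCard (k + 1), (ind b S - ind d S) ^ 2 =
      ∑ S ∈ (U.erase b).powersetCard (k + 1), ind d S := by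
    refine sum_congr rfl fun S hS => ?_
    rw [ind_of_not_mem (not_mem_of_erase hS)]
    have := ind_sq d S
    linarith only [this]
  have h2 : ∑ S ∈ (U.erase b).powersetCard k, (ind b (insert b S) - ind d (insert b S)) ^ 2 =
      ∑ S ∈ (U.erase b).powersetCard k, (1 - ind d S) := by
    refine sum_congr rfl fun S hS => ?_
    rw [ind_insert_self, ind_insert_of_ne hbd.symm]
    have := ind_sq d S
    nlinarith only [this]
  rw [h1, h2, sum_ind hd' hc, sum_one_sub_ind hd' hc]
  ring

/-- Gram identity -/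
lemma gram {U W : Finset α} (hWU : W ⊆ U) {m : ℕ} (hU : U.card = m + 2) (k : ℕ)
    (y : α → ℝ) (hy : ∑ b ∈ W, y b = 0) :
    ∑ S ∈ U.powersetCard (k + 1), (∑ b ∈ W, y b * ind b S) ^ 2 =
      (m.choose k : ℝ) * ∑ b ∈ W, y b ^ 2 := by
  have hpt : ∀ S : Finset α, (∑ b ∈ W, y b * ind b S) ^ 2 =
      ∑ b ∈ W, ∑ d ∈ W, (-(1 / 2) * (y b * y d)) * (ind b S - ind d S) ^ 2 := by
    intro S
    have e1 : ∑ b ∈ W, ∑ d ∈ W, (-(1 / 2) * (y b * y d)) * (ind b S - ind d S) ^ 2 =
        ∑ b ∈ W, ∑ d ∈ W, (-(1 / 2) * ((y b * ind b S ^ 2) * y d) +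
          -(1 / 2) * (y b * (y d * ind d S ^ 2)) + (y b * ind b S) * (y d * ind d S)) := by
      refine sum_congr rfl fun b _ => sum_congr rfl fun d _ => ?_
      ring
    rw [e1]
    simp only [sum_add_distrib]
    have e2 : ∑ b ∈ W, ∑ d ∈ W, (y b * ind b S) * (y d * ind d S) =
        (∑ b ∈ W, y b * ind b S) ^ 2 := by
      rw [sq, sum_mul_sum]
    have e3 : ∑ b ∈ W, ∑ d ∈ W, -(1 / 2) * ((y b * ind b S ^ 2) * y d) = 0 := by
      refine sum_eq_zero fun b _ => ?_
      rw [← mul_sum, ← mul_sum, hy]; ring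
    have e4 : ∑ b ∈ W, ∑ d ∈ W, -(1 / 2) * (y b * (y d * ind d S ^ 2)) = 0 := by
      rw [sum_comm]
      refine sum_eq_zero fun d _ => ?_
      rw [← mul_sum, ← sum_mul, hy]; ring
    rw [e2, e3, e4]; ring
  calc ∑ S ∈ U.powersetCard (k + 1), (∑ b ∈ W, y b * ind b S) ^ 2
      = ∑ S ∈ U.powersetCard (k + 1),
          ∑ b ∈ W, ∑ d ∈ W, (-(1 / 2) * (y b * y d)) * (ind b S - ind d S) ^ 2 :=
        sum_congr rfl fun S _ => hpt S
    _ = ∑ b ∈ W, ∑ d ∈ W, (-(1 / 2) * (y b * y d)) *
          ∑ S ∈ U.powersetCard (k + 1), (ind b S - ind d S) ^ 2 := by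
        rw [sum_comm]
        refine sum_congr rfl fun b _ => ?_
        rw [sum_comm]
        refine sum_congr rfl fun d _ => ?_
        rw [mul_sum]
    _ = ∑ b ∈ W, ∑ d ∈ W, ((-(m.choose k : ℝ)) * (y b * y d) +
          (if b = d then (m.choose k : ℝ) * (y b * y d) else 0)) := by
        refine sum_congr rfl fun b hb => sum_congr rfl fun d hd => ?_
        by_cases hbd : b = d
        · subst hbd
          simp only [one_div, neg_mul, sub_self, ne_eq, OfNat.ofNat_ne_zero, not_false_eq_true, zero_pow, sum_const_zero, mul_zero, ↓reduceIte, neg_add_cancel]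
        · rw [sum_sq_diff (hWU hb) (hWU hd) hbd hU, if_neg hbd]
          ring
    _ = (m.choose k : ℝ) * ∑ b ∈ W, y b ^ 2 := by
        simp only [sum_add_distrib]
        have e5 : ∑ b ∈ W, ∑ d ∈ W, (-(m.choose k : ℝ)) * (y b * y d) = 0 := by
          refine sum_eq_zero fun b _ => ?_
          rw [← mul_sum, ← mul_sum, hy]; ring
        rw [e5, zero_add, mul_sum]
        refine sum_congr rfl fun b hb => ?_
        rw [sum_ite_eq]
        simp [hb, sq]

lemma sum_ind_eq_card {U S : Finset α} (h : S ⊆ U) : ∑ b ∈ U, ind b S = (S.card : ℝ) := by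
  unfold ind
  rw [sum_ite_mem, inter_eq_right.mpr h]
  simp

/-- from `Y = <F, v>` and `|v|^2 ≤ h Y` deduce `Y ≤ h |F|^2`. -/
lemma cs_bound {ι : Type*} (P : Finset ι) (F v : ι → ℝ) (h Y : ℝ) (hh : 0 ≤ h) (hY : 0 ≤ Y)
    (h1 : Y = ∑ S ∈ P, F S * v S) (h2 : ∑ S ∈ P, v S ^ 2 = h * Y) :
    Y ≤ h * ∑ S ∈ P, F S ^ 2 := by
  have cs := sum_mul_sq_le_sq_mul_sq P F v
  rw [← h1, h2] at cs
  by_cases hY0 : Y = 0
  · rw [hY0]
    exact mul_nonneg hh (sum_nonneg fun _ _ => sq_nonneg _)
  · have hYpos : 0 < Y := lt_of_le_of_ne hY (Ne.symm hY0)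
    have : Y * Y ≤ (h * ∑ S ∈ P, F S ^ 2) * Y := by linarith
    exact le_of_mul_le_mul_right this hYpos

/-- first Gram bound -/
lemma G1 {U : Finset α} {m : ℕ} (hU : U.card = m + 2) (k : ℕ) (F : Finset α → ℝ)
    (h0 : ∑ S ∈ U.powersetCard (k + 1), F S = 0) :
    ∑ b ∈ U, (∑ S ∈ U.powersetCard (k + 1), F S * ind b S) ^ 2 ≤
      (m.choose k : ℝ) * ∑ S ∈ U.powersetCard (k + 1), F S ^ 2 := by
  set B : α → ℝ := fun b => ∑ S ∈ U.powersetCard (k + 1), F S * ind b S with hB
  have hsum : ∑ b ∈ U, B b = 0 := by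
    simp only [hB]
    rw [sum_comm]
    have : ∀ S ∈ U.powersetCard (k + 1), ∑ b ∈ U, F S * ind b S = (k + 1 : ℝ) * F S := by
      intro S hS
      have hS' := mem_powersetCard.mp hS
      rw [← mul_sum, sum_ind_eq_card hS'.1, hS'.2]
      push_cast; ring
    rw [sum_congr rfl this, ← mul_sum, h0, mul_zero]
  have hG := gram (subset_refl U) hU k B hsum
  refine cs_bound _ F (fun S => ∑ b ∈ U, B b * ind b S) _ _ (Nat.cast_nonneg _)
    (sum_nonneg fun _ _ => sq_nonneg _) ?_ hG
  calc ∑ b ∈ U, B b ^ 2 = ∑ b ∈ U, ∑ S ∈ U.powersetCard (k + 1), F S * (B b * ind b S) := by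
        refine sum_congr rfl fun b _ => ?_
        rw [sq]
        nth_rewrite 2 [hB]
        simp only
        rw [mul_sum]
        refine sum_congr rfl fun S _ => ?_
        ring
    _ = ∑ S ∈ U.powersetCard (k + 1), F S * ∑ b ∈ U, B b * ind b S := by
        rw [sum_comm]
        refine sum_congr rfl fun S _ => ?_
        rw [mul_sum]

/-- second Gram bound, for a fixed `b` -/
lemma G2 {U : Finset α} {m : ℕ} (hU : U.card = m + 2) (k : ℕ) (F : Finset α → ℝ)
    (h0 : ∑ S ∈ U.powersetCard (k + 1), F S = 0) {b : α} (hb : b ∈ U) :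
    ∑ d ∈ U.erase b, (∑ S ∈ U.powersetCard (k + 1), F S * (ind b S - ind d S) ^ 2) ^ 2 ≤
      (m.choose k : ℝ) * ∑ S ∈ U.powersetCard (k + 1), F S ^ 2 +
      ((m : ℝ) - 2 * k) ^ 2 / (m + 1) *
        (∑ S ∈ U.powersetCard (k + 1), F S * ind b S) ^ 2 := by
  set P := U.powersetCard (k + 1) with hP
  set W := U.erase b with hW
  have hWc : (W.card : ℝ) = m + 1 := by
    rw [hW, card_erase_of_mem hb, hU]; push_cast; ring
  have hm1 : (0 : ℝ) < m + 1 := by (clear * -; positivity)
  set y : α → ℝ := fun d => ∑ S ∈ P, F S * (ind b S - ind d S) ^ 2 with hy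
  set w : α → ℝ := fun d => y d - (∑ d ∈ W, y d) / (m + 1) with hw
  have hw0 : ∑ d ∈ W, w d = 0 := by
    simp only [hw]
    rw [sum_sub_distrib, sum_const, nsmul_eq_mul, hWc]
    field_simp
    ring
  -- sum of squares decomposition
  have hdec : ∑ d ∈ W, y d ^ 2 = ∑ d ∈ W, w d ^ 2 + (∑ d ∈ W, y d) ^ 2 / (m + 1) := by
    have e : ∀ d, y d ^ 2 = w d ^ 2 + 2 * ((∑ d ∈ W, y d) / (m + 1)) * w d +
        ((∑ d ∈ W, y d) / (m + 1)) ^ 2 := by
      intro d; simp only [hw]; ring
    rw [sum_congr rfl fun d _ => e d, sum_add_distrib, sum_add_distrib, ← mul_sum, hw0, sum_const,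
      nsmul_eq_mul, hWc]
    field_simp
    ring
  -- sum of y
  have hsumy : ∑ d ∈ W, y d = ((m : ℝ) - 2 * k) * ∑ S ∈ P, F S * ind b S := by
    have e1 : ∑ d ∈ W, y d = ∑ S ∈ P, ∑ d ∈ W, F S * (ind b S - ind d S) ^ 2 := by
      simp only [hy]; rw [sum_comm]
    have e2 : ∀ S ∈ P, ∑ d ∈ W, F S * (ind b S - ind d S) ^ 2 =
        ((m : ℝ) - 2 * k) * (F S * ind b S) + (k + 1) * F S := by
      intro S hS
      have hS' := mem_powersetCard.mp hS
      have e3 : ∑ d ∈ W, F S * (ind b S - ind d S) ^ 2 =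
          ∑ d ∈ U, F S * (ind b S - ind d S) ^ 2 := by
        rw [hW, ← sum_erase_add U _ hb]; simp
      rw [e3, ← mul_sum]
      have e4 : ∀ d, (ind b S - ind d S) ^ 2 = ind b S + (1 - 2 * ind b S) * ind d S := by
        intro d
        nlinarith only [ind_sq b S, ind_sq d S]
      rw [sum_congr rfl fun d _ => e4 d, sum_add_distrib, ← mul_sum, sum_ind_eq_card hS'.1,
        hS'.2, sum_const, nsmul_eq_mul, hU]
      push_cast; ring
    rw [e1, sum_congr rfl e2, sum_add_distrib, ← mul_sum, ← mul_sum, h0]; ring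
  -- the orthogonal part
  have hY2 : ∑ d ∈ W, w d ^ 2 ≤ (m.choose k : ℝ) * ∑ S ∈ P, F S ^ 2 := by
    refine cs_bound P F (fun S => ∑ d ∈ W, w d * (ind b S - ind d S) ^ 2) _ _
      (Nat.cast_nonneg _) (sum_nonneg fun _ _ => sq_nonneg _) ?_ ?_
    · calc ∑ d ∈ W, w d ^ 2 = ∑ d ∈ W, w d * y d := by
            have e : ∀ d, w d ^ 2 = w d * y d - ((∑ d ∈ W, y d) / (m + 1)) * w d := by
              intro d; simp only [hw]; ring
            rw [sum_congr rfl fun d _ => e d, sum_sub_distrib, ← mul_sum, hw0]; ring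
        _ = ∑ d ∈ W, ∑ S ∈ P, F S * (w d * (ind b S - ind d S) ^ 2) := by
            refine sum_congr rfl fun d _ => ?_
            rw [hy]; simp only
            rw [mul_sum]
            refine sum_congr rfl fun S _ => ?_
            ring
        _ = ∑ S ∈ P, F S * ∑ d ∈ W, w d * (ind b S - ind d S) ^ 2 := by
            rw [sum_comm]
            refine sum_congr rfl fun S _ => ?_
            rw [mul_sum]
    · rw [← gram (erase_subset b U) hU k w hw0]
      refine sum_congr rfl fun S _ => ?_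
      have e1 : ∑ d ∈ W, w d * (ind b S - ind d S) ^ 2 =
          (1 - 2 * ind b S) * ∑ d ∈ W, w d * ind d S := by
        have e4 : ∀ d, w d * (ind b S - ind d S) ^ 2 =
            ind b S * w d + (1 - 2 * ind b S) * (w d * ind d S) := by
          intro d
          have h1 := ind_sq b S
          have h2 := ind_sq d S
          linear_combination (w d) * h1 + (w d) * h2
        rw [sum_congr rfl fun d _ => e4 d, sum_add_distrib, ← mul_sum, ← mul_sum, hw0]; ring
      rw [e1]
      have h1 := ind_sq b S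
      linear_combination 4 * (∑ d ∈ W, w d * ind d S) ^ 2 * h1
  rw [hdec, hsumy]
  have : (((m : ℝ) - 2 * k) * ∑ S ∈ P, F S * ind b S) ^ 2 / (m + 1) =
      ((m : ℝ) - 2 * k) ^ 2 / (m + 1) * (∑ S ∈ P, F S * ind b S) ^ 2 := by
    ring
  linarith only [this, hY2]

/-- Combination: the sum of the squares of all `X_bd` averages. -/
lemma sum_sq_all {U : Finset α} {m : ℕ} (hU : U.card = m + 2) (k : ℕ) (F : Finset α → ℝ)
    (h0 : ∑ S ∈ U.powersetCard (k + 1), F S = 0) :
    ∑ b ∈ U, ∑ d ∈ U.erase b,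
        (∑ S ∈ U.powersetCard (k + 1), F S * (ind b S - ind d S) ^ 2) ^ 2 ≤
      (m.choose k : ℝ) * ((m + 2) + ((m : ℝ) - 2 * k) ^ 2 / (m + 1)) *
        ∑ S ∈ U.powersetCard (k + 1), F S ^ 2 := by
  have h1 := sum_le_sum fun b hb => G2 hU k F h0 (b := b) hb
  rw [sum_add_distrib, sum_const, nsmul_eq_mul, hU, ← mul_sum] at h1
  have h2 := G1 hU k F h0
  have h3 : 0 ≤ ((m : ℝ) - 2 * k) ^ 2 / (m + 1) := by (clear * -; positivity)
  have h4 := mul_le_mul_of_nonneg_left h2 h3
  push_cast at h1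
  calc _ ≤ _ := h1
    _ ≤ _ := by nlinarith only [h4]

/-- the extreme cases `s = 1` and `s = u - 1`, where the states are the points of `U` -/
lemma special {U : Finset α} {m : ℕ} (hU : U.card = m + 2) (P : Finset (Finset α))
    (F : Finset α → ℝ) (h0 : ∑ S ∈ P, F S = 0) (e : α → Finset α)
    (hsum : ∀ G : Finset α → ℝ, ∑ S ∈ P, G S = ∑ c ∈ U, G (e c))
    (hX : ∀ c ∈ U, ∀ b ∈ U, ∀ d ∈ U, b ≠ d → (ind b (e c) - ind d (e c)) ^ 2 =
      (if c = b then 1 else 0) + (if c = d then 1 else 0)) :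
    ∑ b ∈ U, ∑ d ∈ U.erase b, (∑ S ∈ P, F S * (ind b S - ind d S) ^ 2) ^ 2 =
      2 * m * ∑ S ∈ P, F S ^ 2 := by
  have hF0 : ∑ c ∈ U, F (e c) = 0 := by rw [← hsum F, h0]
  have h1 : ∀ b ∈ U, ∀ d ∈ U.erase b,
      (∑ S ∈ P, F S * (ind b S - ind d S) ^ 2) ^ 2 = (F (e b) + F (e d)) ^ 2 := by
    intro b hb d hd
    have hd' := mem_erase.mp hd
    rw [hsum (fun S => F S * (ind b S - ind d S) ^ 2)]
    congr 1
    have : ∀ c ∈ U, F (e c) * (ind b (e c) - ind d (e c)) ^ 2 =
        (if c = b then F (e c) else 0) + (if c = d then F (e c) else 0) := by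
      intro c hc
      rw [hX c hc b hb d hd'.2 (Ne.symm hd'.1)]
      split_ifs <;> ring
    rw [sum_congr rfl this, sum_add_distrib, sum_ite_eq' U b, sum_ite_eq' U d]
    simp [hb, hd'.2]
  rw [sum_congr rfl fun b hb => sum_congr rfl fun d hd => h1 b hb d hd]
  have h2 : ∀ b ∈ U, ∑ d ∈ U.erase b, (F (e b) + F (e d)) ^ 2 =
      ∑ d ∈ U, (F (e b) + F (e d)) ^ 2 - 4 * F (e b) ^ 2 := by
    intro b hb
    rw [← sum_erase_add U _ hb]; ring
  rw [sum_congr rfl h2, sum_sub_distrib]
  have h3 : ∀ b ∈ U, ∑ d ∈ U, (F (e b) + F (e d)) ^ 2 =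
      (m + 2) * F (e b) ^ 2 + ∑ d ∈ U, F (e d) ^ 2 := by
    intro b _
    have : ∀ d, (F (e b) + F (e d)) ^ 2 = F (e b) ^ 2 + 2 * F (e b) * F (e d) + F (e d) ^ 2 := by
      intro d; ring
    rw [sum_congr rfl fun d _ => this d, sum_add_distrib, sum_add_distrib, ← mul_sum, hF0,
      sum_const, nsmul_eq_mul, hU]
    push_cast; ring
  rw [sum_congr rfl h3, sum_add_distrib, ← mul_sum, ← mul_sum, sum_const, nsmul_eq_mul, hU,
    hsum (fun S => F S ^ 2)]
  push_cast
  ring

/-- part (ii): the averages over the sets `X_bd` -/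
lemma part_ii {U : Finset α} {m : ℕ} (hU : U.card = m + 2) {k : ℕ} (hk : k ≤ m)
    (F : Finset α → ℝ) (h0 : ∑ S ∈ U.powersetCard (k + 1), F S = 0) :
    ∑ b ∈ U, ∑ d ∈ U.erase b,
        (∑ S ∈ U.powersetCard (k + 1), F S * (ind b S - ind d S) ^ 2) ^ 2 ≤
      2 * (m.choose k : ℝ) * m * ∑ S ∈ U.powersetCard (k + 1), F S ^ 2 := by
  by_cases hk0 : k = 0
  · subst hk0
    have := special hU (U.powersetCard (0 + 1)) F h0 (fun c => {c})
      (by intro G; rw [zero_add, powersetCard_one, sum_map]; rfl)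
      (by
        intro c _ b _ d _ hbd
        unfold ind
        simp only [mem_singleton]
        by_cases h1 : b = c
        · subst h1
          simp [Ne.symm hbd, hbd]
        · by_cases h2 : d = c
          · subst h2
            simp only [h1, ↓reduceIte, zero_sub, even_two, Even.neg_pow, one_pow, Ne.symm hbd, zero_add]
          · simp [h1, h2, Ne.symm h1, Ne.symm h2])
    rw [this]
    simp only [zero_add, Nat.choose_zero_right, Nat.cast_one, mul_one, Std.le_refl]
  · by_cases hkm : k = m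
    · subst hkm
      have := special hU (U.powersetCard (k + 1)) F h0 (fun c => U.erase c)
        (by
          intro G
          symm
          refine sum_bij (fun c _ => U.erase c) ?_ ?_ ?_ ?_
          · intro c hc
            rw [mem_powersetCard]
            refine ⟨erase_subset _ _, ?_⟩
            rw [card_erase_of_mem hc, hU]; rfl
          · intro c hc c' hc' h
            by_contra hne
            have : c ∈ U.erase c' := mem_erase.mpr ⟨hne, hc⟩
            have h' : U.erase c = U.erase c' := h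
            rw [← h'] at this
            exact notMem_erase c U this
          · intro S hS
            have hS' := mem_powersetCard.mp hS
            have hcard : (U \ S).card = 1 := by
              rw [card_sdiff_of_subset hS'.1, hU, hS'.2]; omega
            obtain ⟨c, hc⟩ := card_eq_one.mp hcard
            have hcU : c ∈ U \ S := by rw [hc]; exact mem_singleton_self c
            refine ⟨c, (mem_sdiff.mp hcU).1, ?_⟩
            show U.erase c = S
            rw [← sdiff_singleton_eq_erase, ← hc, Finset.sdiff_sdiff_eq_self hS'.1]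
          · intro c _; rfl)
        (by
          intro c hc b hb d hd hbd
          unfold ind
          simp only [mem_erase, hb, hd, and_true]
          by_cases h1 : b = c
          · subst h1
            simp only [ne_eq, not_true_eq_false, ↓reduceIte, Ne.symm hbd, not_false_eq_true, zero_sub, even_two, Even.neg_pow, one_pow, hbd, add_zero]
          · by_cases h2 : d = c
            · subst h2
              simp [h1, hbd.symm]
            · simp [h1, h2, Ne.symm h1, Ne.symm h2])
      rw [this]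
      simp
    · have h := sum_sq_all hU k F h0
      refine h.trans ?_
      have hpos : (0 : ℝ) ≤ ∑ S ∈ U.powersetCard (k + 1), F S ^ 2 :=
        sum_nonneg fun _ _ => sq_nonneg _
      refine mul_le_mul_of_nonneg_right ?_ hpos
      have hc : (0 : ℝ) ≤ (m.choose k : ℝ) := Nat.cast_nonneg _
      have key : ((m : ℝ) + 2) + ((m : ℝ) - 2 * k) ^ 2 / (m + 1) ≤ 2 * m := by
        have h1 : 1 ≤ k := Nat.one_le_iff_ne_zero.mpr hk0
        have h2 : k + 1 ≤ m := by omega
        have h1' : (1 : ℝ) ≤ k := by exact_mod_cast h1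
        have h2' : (k : ℝ) + 1 ≤ m := by exact_mod_cast h2
        have hm : (0 : ℝ) < m + 1 := by (clear * -; positivity)
        rw [← sub_nonneg]
        have : 2 * (m : ℝ) - ((m + 2) + ((m : ℝ) - 2 * k) ^ 2 / (m + 1)) =
            ((m - 2) * (m + 1) - ((m : ℝ) - 2 * k) ^ 2) / (m + 1) := by
          field_simp; ring
        rw [this]
        apply div_nonneg _ hm.le
        nlinarith only [h1', h2']
      nlinarith only [key]

/-- the Dirichlet form of the Johnson graph, over ordered pairs -/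
noncomputable def Dir (U : Finset α) (s : ℕ) (F : Finset α → ℝ) : ℝ :=
  ∑ p ∈ U.offDiag, ∑ S ∈ U.powersetCard s, (F S - F (sw p.1 p.2 S)) ^ 2

lemma Dir_nonneg (U : Finset α) (s : ℕ) (F : Finset α → ℝ) : 0 ≤ Dir U s F :=
  sum_nonneg fun _ _ => sum_nonneg fun _ _ => sq_nonneg _

/-- the variance -/
noncomputable def Vr (U : Finset α) (s : ℕ) (F : Finset α → ℝ) : ℝ :=
  ∑ S ∈ U.powersetCard s, F S ^ 2 -
    (∑ S ∈ U.powersetCard s, F S) ^ 2 / ((U.card.choose s : ℕ) : ℝ)

lemma sum_erase_offDiag (U : Finset α) {m : ℕ} (hU : U.card = m + 2) (g : α × α → ℝ) :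
    ∑ b ∈ U, ∑ p ∈ (U.erase b).offDiag, g p = m * ∑ p ∈ U.offDiag, g p := by
  have h1 : ∀ b ∈ U, ∑ p ∈ (U.erase b).offDiag, g p =
      ∑ p ∈ U.offDiag, if p.1 ≠ b ∧ p.2 ≠ b then g p else 0 := by
    intro b _
    rw [← sum_filter]
    refine sum_congr ?_ fun _ _ => rfl
    ext p
    simp only [mem_offDiag, mem_erase, mem_filter]
    (clear * -; tauto)
  rw [sum_congr rfl h1, sum_comm, mul_sum]
  refine sum_congr rfl fun p hp => ?_
  obtain ⟨hp1, hp2, hp3⟩ := mem_offDiag.mp hp
  rw [← sum_filter, sum_const, nsmul_eq_mul]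
  congr 1
  have : U.filter (fun b => p.1 ≠ b ∧ p.2 ≠ b) = (U.erase p.1).erase p.2 := by
    ext b
    simp only [mem_filter, mem_erase]
    constructor
    · rintro ⟨h, h1, h2⟩; exact ⟨Ne.symm h2, Ne.symm h1, h⟩
    · rintro ⟨h1, h2, h⟩; exact ⟨h, Ne.symm h2, Ne.symm h1⟩
  rw [this, card_erase_of_mem (mem_erase.mpr ⟨Ne.symm hp3, hp2⟩), card_erase_of_mem hp1, hU]
  simp only [Nat.add_one_sub_one, add_tsub_cancel_right]

lemma Dir_split {U : Finset α} {b : α} (hb : b ∈ U) (k : ℕ) (F : Finset α → ℝ) :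
    ∑ p ∈ (U.erase b).offDiag, ∑ S ∈ U.powersetCard (k + 1), (F S - F (sw p.1 p.2 S)) ^ 2 =
      Dir (U.erase b) (k + 1) F + Dir (U.erase b) k (fun S => F (insert b S)) := by
  unfold Dir
  rw [← sum_add_distrib]
  refine sum_congr rfl fun p hp => ?_
  obtain ⟨hp1, hp2, hp3⟩ := mem_offDiag.mp hp
  rw [sum_split hb]
  congr 1
  refine sum_congr rfl fun S _ => ?_
  rw [sw_insert (Ne.symm (mem_erase.mp hp1).1) (Ne.symm (mem_erase.mp hp2).1)]

lemma centered {U : Finset α} {m : ℕ} (hU : U.card = m + 2) {k : ℕ} (hk : k ≤ m)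
    (ih : ∀ W : Finset α, W.card = m + 1 → ∀ s F, 4 * ((m : ℝ) + 1) * Vr W s F ≤ Dir W s F)
    (F : Finset α → ℝ) (h0 : ∑ S ∈ U.powersetCard (k + 1), F S = 0) :
    4 * ((m : ℝ) + 2) * ∑ S ∈ U.powersetCard (k + 1), F S ^ 2 ≤ Dir U (k + 1) F := by
  by_cases hm0 : m = 0
  · subst hm0
    have hk0 : k = 0 := by omega
    subst hk0
    obtain ⟨a, b, hab, rfl⟩ := card_eq_two.mp hU
    have hPa : ({a, b} : Finset α).powersetCard (0 + 1) = {{a}, {b}} := by
      rw [zero_add, powersetCard_one]; simp [map_insert]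
    have hne : ({a} : Finset α) ≠ {b} := by simpa using hab
    have hoff : ({a, b} : Finset α).offDiag = {(a, b), (b, a)} := by
      ext ⟨x, y⟩
      simp only [mem_offDiag, mem_insert, mem_singleton, Prod.mk.injEq]
      constructor
      · rintro ⟨h1 | h1, h2 | h2, h3⟩ <;> subst h1 <;> subst h2 <;> simp_all
      · rintro (⟨h1, h2⟩ | ⟨h1, h2⟩) <;> subst h1 <;> subst h2
        · exact ⟨Or.inl rfl, Or.inr rfl, hab⟩
        · exact ⟨Or.inr rfl, Or.inl rfl, hab.symm⟩
    have hs1 : sw a b {a} = {b} := by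
      ext x; rw [mem_sw, mem_singleton, mem_singleton, Equiv.swap_apply_eq_iff,
        Equiv.swap_apply_left]
    have hs2 : sw a b {b} = {a} := by
      ext x; rw [mem_sw, mem_singleton, mem_singleton, Equiv.swap_apply_eq_iff,
        Equiv.swap_apply_right]
    have hs3 : sw b a {a} = {b} := by
      ext x; rw [mem_sw, mem_singleton, mem_singleton, Equiv.swap_apply_eq_iff,
        Equiv.swap_apply_right]
    have hs4 : sw b a {b} = {a} := by
      ext x; rw [mem_sw, mem_singleton, mem_singleton, Equiv.swap_apply_eq_iff,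
        Equiv.swap_apply_left]
    unfold Dir
    rw [hPa] at h0 ⊢
    rw [hoff]
    rw [sum_pair hne] at h0 ⊢
    have hne2 : (a, b) ≠ (b, a) := by
      intro h; exact hab (Prod.mk.inj h).1
    rw [sum_pair hne2, sum_pair hne, sum_pair hne]
    simp only [hs1, hs2, hs3, hs4]
    have : F {b} = - F {a} := by linarith only [h0]
    rw [this]
    push_cast
    nlinarith only []
  · have hmpos : (0 : ℝ) < m := by exact_mod_cast Nat.pos_of_ne_zero hm0
    set Q := ∑ S ∈ U.powersetCard (k + 1), F S ^ 2 with hQ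
    set h : ℝ := (m.choose k : ℝ) with hh
    have hpos : (0 : ℝ) < h := by
      rw [hh]; exact_mod_cast Nat.choose_pos hk
    have hA := sum_erase_offDiag U hU
      (fun p => ∑ S ∈ U.powersetCard (k + 1), (F S - F (sw p.1 p.2 S)) ^ 2)
    have hlow : ∀ b ∈ U, 4 * ((m : ℝ) + 1) * (Q -
        ((m : ℝ) + 2) / ((m + 1) * h) * (∑ S ∈ U.powersetCard (k + 1), F S * ind b S) ^ 2) ≤
        ∑ p ∈ (U.erase b).offDiag, ∑ S ∈ U.powersetCard (k + 1), (F S - F (sw p.1 p.2 S)) ^ 2 := by
      intro b hb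
      rw [Dir_split hb]
      have hc : (U.erase b).card = m + 1 := by rw [card_erase_of_mem hb, hU]; rfl
      have i1 := ih (U.erase b) hc (k + 1) F
      have i2 := ih (U.erase b) hc k (fun S => F (insert b S))
      refine le_trans ?_ (add_le_add i1 i2)
      rw [← mul_add]
      refine mul_le_mul_of_nonneg_left ?_ (by positivity)
      unfold Vr
      rw [hc]
      have eB : ∑ S ∈ U.powersetCard (k + 1), F S * ind b S =
          ∑ S ∈ (U.erase b).powersetCard k, F (insert b S) := by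
        rw [sum_split hb]
        have z : ∑ S ∈ (U.erase b).powersetCard (k + 1), F S * ind b S = 0 :=
          sum_eq_zero fun S hS => by rw [ind_of_not_mem (not_mem_of_erase hS), mul_zero]
        rw [z, zero_add]
        refine sum_congr rfl fun S _ => ?_
        rw [ind_insert_self, mul_one]
      have eA : ∑ S ∈ (U.erase b).powersetCard (k + 1), F S =
          - ∑ S ∈ (U.erase b).powersetCard k, F (insert b S) := by
        have := sum_split hb k F
        linarith only [this, h0]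
      have eQ : Q = ∑ S ∈ (U.erase b).powersetCard (k + 1), F S ^ 2 +
          ∑ S ∈ (U.erase b).powersetCard k, F (insert b S) ^ 2 := by
        rw [hQ, sum_split hb]
      rw [eB, eA, eQ]
      set B := ∑ S ∈ (U.erase b).powersetCard k, F (insert b S) with hB
      have c1 : (((m + 1).choose (k + 1) : ℕ) : ℝ) * (k + 1) = (m + 1) * h := by
        rw [hh]
        have := Nat.add_one_mul_choose_eq m k
        exact_mod_cast this.symm
      have c2 : (((m + 1).choose k : ℕ) : ℝ) * (m + 1 - k) = (m + 1) * h := by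
        rw [hh]
        have := Nat.choose_mul_succ_eq m k
        have hk' : k ≤ m + 1 := by omega
        have h2 : ((m.choose k * (m + 1) : ℕ) : ℝ) = (((m + 1).choose k * (m + 1 - k) : ℕ) : ℝ) := by
          exact_mod_cast this
        rw [Nat.cast_mul, Nat.cast_mul, Nat.cast_sub hk'] at h2
        push_cast at h2
        linarith only [h2]
      have p1 : (0 : ℝ) < (((m + 1).choose (k + 1) : ℕ) : ℝ) := by
        exact_mod_cast Nat.choose_pos (by omega)
      have p2 : (0 : ℝ) < (((m + 1).choose k : ℕ) : ℝ) := by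
        exact_mod_cast Nat.choose_pos (by omega)
      have hmh : (0 : ℝ) < (m + 1) * h := by (clear * - hm0 hpos; positivity)
      have d1 : (-B) ^ 2 / (((m + 1).choose (k + 1) : ℕ) : ℝ) = B ^ 2 * ((k + 1) / ((m + 1) * h)) := by
        rw [← c1]; (clear * - p1; field_simp)
      have hkm : (0 : ℝ) < (m : ℝ) + 1 - k := by
        have : (k : ℝ) ≤ m := by exact_mod_cast hk
        linarith only [this]
      have d2 : B ^ 2 / (((m + 1).choose k : ℕ) : ℝ) = B ^ 2 * (((m : ℝ) + 1 - k) / ((m + 1) * h)) := by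
        rw [← c2]; (clear * - hkm p2; field_simp)
      rw [d1, d2]
      have e : B ^ 2 * (((k : ℝ) + 1) / ((m + 1) * h)) + B ^ 2 * (((m : ℝ) + 1 - k) / ((m + 1) * h)) =
          ((m : ℝ) + 2) / ((m + 1) * h) * B ^ 2 := by
        field_simp; ring
      linarith only [e]
    have hsum := sum_le_sum hlow
    rw [hA, ← mul_sum, sum_sub_distrib, sum_const, nsmul_eq_mul, hU, ← mul_sum] at hsum
    have hG := G1 hU k F h0
    have hcoef : (0 : ℝ) ≤ ((m : ℝ) + 2) / ((m + 1) * h) := by (clear * - hm0 hpos; positivity)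
    have hG' := mul_le_mul_of_nonneg_left hG hcoef
    have hsimp : ((m : ℝ) + 2) / ((m + 1) * h) * ((m.choose k : ℝ) * Q) =
        ((m : ℝ) + 2) / (m + 1) * Q := by
      rw [← hh]; field_simp
    rw [hsimp] at hG'
    have hfin : 4 * ((m : ℝ) + 1) * (((m + 2 : ℕ) : ℝ) * Q - ((m : ℝ) + 2) / (m + 1) * Q) =
        (m : ℝ) * (4 * ((m : ℝ) + 2) * Q) := by
      push_cast; field_simp; ring
    have hge : 4 * ((m : ℝ) + 1) * (((m + 2 : ℕ) : ℝ) * Q - ((m : ℝ) + 2) / (m + 1) * Q) ≤
        (m : ℝ) * Dir U (k + 1) F := by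
      refine le_trans ?_ hsum
      refine mul_le_mul_of_nonneg_left ?_ (by positivity)
      linarith only [hG']
    rw [hfin] at hge
    exact le_of_mul_le_mul_left hge hmpos

omit [DecidableEq α] in
lemma Vr_card_le {U : Finset α} {s : ℕ} (h : U.card.choose s ≤ 1) (F : Finset α → ℝ) :
    Vr U s F = 0 := by
  unfold Vr
  have hc : (U.powersetCard s).card = U.card.choose s := card_powersetCard s U
  rcases Nat.le_one_iff_eq_zero_or_eq_one.mp h with h1 | h1
  · rw [h1] at hc
    rw [card_eq_zero.mp hc]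
    simp
  · rw [h1] at hc
    obtain ⟨T, hT⟩ := card_eq_one.mp hc
    rw [hT, h1]
    simp

/-- part (i): the spectral gap of the Johnson graph -/
lemma part_i (u : ℕ) : ∀ U : Finset α, U.card = u → ∀ (s : ℕ) (F : Finset α → ℝ),
    4 * (u : ℝ) * Vr U s F ≤ Dir U s F := by
  induction u with
  | zero =>
    intro U _ s F
    simpa only [CharP.cast_eq_zero, mul_zero, zero_mul] using Dir_nonneg U s F
  | succ n ih =>
    intro U hU s F
    by_cases hsmall : U.card.choose s ≤ 1
    · rw [Vr_card_le hsmall, mul_zero]; exact Dir_nonneg U s F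
    · push Not at hsmall
      -- s = k+1, n = m+1, k ≤ m
      have hs0 : s ≠ 0 := by
        rintro rfl; simp at hsmall
      have hsn : s < n + 1 := by
        by_contra hge
        push Not at hge
        rcases Nat.lt_or_ge (n + 1) s with h | h
        · rw [hU, Nat.choose_eq_zero_of_lt h] at hsmall; omega
        · have : s = n + 1 := le_antisymm h hge
          rw [hU, this, Nat.choose_self] at hsmall; omega
      obtain ⟨k, rfl⟩ := Nat.exists_eq_succ_of_ne_zero hs0
      obtain ⟨m, rfl⟩ : ∃ m, n = m + 1 := ⟨n - 1, by omega⟩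
      have hk : k ≤ m := by omega
      have hU2 : U.card = m + 2 := hU
      set P := U.powersetCard (k + 1) with hP
      set N : ℝ := ((U.card.choose (k + 1) : ℕ) : ℝ) with hN
      have hNpos : (0 : ℝ) < N := by
        rw [hN]; exact_mod_cast (lt_trans Nat.zero_lt_one hsmall)
      set T := ∑ S ∈ P, F S with hT
      have hcardP : (P.card : ℝ) = N := by
        rw [hP, card_powersetCard]
      have hc0 : ∑ S ∈ P, (F S - T / N) = 0 := by
        rw [sum_sub_distrib, sum_const, nsmul_eq_mul, hcardP]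
        field_simp
        rw [← hT]; ring
      have hmain := centered hU2 hk (fun W hW s F => by
        have := ih W hW s F; push_cast at this; exact this) (fun S => F S - T / N) hc0
      have hDir : Dir U (k + 1) (fun S => F S - T / N) = Dir U (k + 1) F := by
        unfold Dir
        refine sum_congr rfl fun p _ => sum_congr rfl fun S _ => ?_
        ring
      rw [hDir] at hmain
      have hV : ∑ S ∈ P, (F S - T / N) ^ 2 = Vr U (k + 1) F := by
        unfold Vr
        have e : ∀ S, (F S - T / N) ^ 2 = F S ^ 2 - 2 * (T / N) * F S + (T / N) ^ 2 := by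
          intro S; ring
        rw [sum_congr rfl fun S _ => e S, sum_add_distrib, sum_sub_distrib, ← mul_sum, sum_const,
          nsmul_eq_mul, hcardP]
        rw [← hP, ← hT, ← hN]
        field_simp
        ring
      rw [hV] at hmain
      have : (4 * ((m + 1 + 1 : ℕ) : ℝ)) = 4 * ((m : ℝ) + 2) := by push_cast; ring
      rw [this]
      exact hmain

/-- the sets of size `s` in `U` containing exactly one of `b`, `d` -/
def XX (U : Finset α) (s : ℕ) (b d : α) : Finset (Finset α) :=
  (U.powersetCard s).filter (fun S => ¬ (b ∈ S ↔ d ∈ S))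

lemma mem_XX {U : Finset α} {s : ℕ} {b d : α} {S : Finset α} :
    S ∈ XX U s b d ↔ (S ⊆ U ∧ S.card = s) ∧ ¬ (b ∈ S ↔ d ∈ S) := by
  unfold XX
  rw [mem_filter, mem_powersetCard]

lemma ind_diff_sq (b d : α) (S : Finset α) :
    (ind b S - ind d S) ^ 2 = if ¬ (b ∈ S ↔ d ∈ S) then 1 else 0 := by
  unfold ind
  by_cases h1 : b ∈ S <;> by_cases h2 : d ∈ S <;> simp [h1, h2]

lemma sum_XX (U : Finset α) (s : ℕ) (b d : α) (G : Finset α → ℝ) :
    ∑ S ∈ XX U s b d, G S = ∑ S ∈ U.powersetCard s, G S * (ind b S - ind d S) ^ 2 := by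
  unfold XX
  rw [sum_filter]
  refine sum_congr rfl fun S _ => ?_
  rw [ind_diff_sq]
  split_ifs <;> simp

lemma card_XX {U : Finset α} {b d : α} (hb : b ∈ U) (hd : d ∈ U) (hbd : b ≠ d)
    {m : ℕ} (hU : U.card = m + 2) (k : ℕ) :
    ((XX U (k + 1) b d).card : ℝ) = 2 * (m.choose k : ℝ) := by
  rw [← sum_sq_diff hb hd hbd hU k]
  have := sum_XX U (k + 1) b d (fun _ => 1)
  simpa only [sum_const, nsmul_eq_mul, mul_one, one_mul] using this

lemma sw_eq_self {b d : α} {S : Finset α} (h : b ∈ S ↔ d ∈ S) : sw b d S = S := by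
  ext x
  rw [mem_sw]
  by_cases h1 : x = b
  · subst h1
    rw [Equiv.swap_apply_left]; exact h.symm
  · by_cases h2 : x = d
    · subst h2
      rw [Equiv.swap_apply_right]; exact h
    · rw [Equiv.swap_apply_of_ne_of_ne h1 h2]

lemma sum_offDiag_eq (U : Finset α) (g : α × α → ℝ) :
    ∑ p ∈ U.offDiag, g p = ∑ b ∈ U, ∑ d ∈ U.erase b, g (b, d) := by
  have h1 : U.offDiag = (U ×ˢ U).filter (fun p => p.1 ≠ p.2) := by
    ext p
    simp only [mem_offDiag, mem_filter, mem_product]
    tauto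
  rw [h1, sum_filter, sum_product]
  refine sum_congr rfl fun b _ => ?_
  rw [← filter_ne U b, sum_filter]

/-- **Lemma B** for functions with mean zero. -/
theorem lemmaB (U : Finset α) (s : ℕ) (h1 : 1 ≤ s) (h2 : s + 1 ≤ U.card) (F : Finset α → ℝ)
    (h0 : ∑ S ∈ U.powersetCard s, F S = 0) :
    2 * ∑ S ∈ U.powersetCard s, F S ^ 2 ≤
      ∑ p ∈ U.offDiag, ((1 / 2) * ((1 / 2) * ∑ S ∈ XX U s p.1 p.2,
        (F S - F (sw p.1 p.2 S)) ^ 2) -
        (∑ S ∈ XX U s p.1 p.2, F S) ^ 2 / ((XX U s p.1 p.2).card : ℝ)) := by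
  obtain ⟨k, rfl⟩ : ∃ k, s = k + 1 := ⟨s - 1, by omega⟩
  obtain ⟨m, hU⟩ : ∃ m, U.card = m + 2 := ⟨U.card - 2, by omega⟩
  have hk : k ≤ m := by omega
  set Q := ∑ S ∈ U.powersetCard (k + 1), F S ^ 2 with hQ
  set h : ℝ := (m.choose k : ℝ) with hh
  have hpos : (0 : ℝ) < h := by
    rw [hh]; exact_mod_cast Nat.choose_pos hk
  have hi := part_i U.card U rfl (k + 1) F
  have hV : Vr U (k + 1) F = Q := by
    unfold Vr; rw [h0]; simp [hQ]
  rw [hV, hU] at hi
  push_cast at hi
  have hii := part_ii hU hk F h0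
  rw [← hQ, ← hh] at hii
  rw [sum_sub_distrib]
  have e1 : ∑ p ∈ U.offDiag, (1 / 2) * ((1 / 2) * ∑ S ∈ XX U (k + 1) p.1 p.2,
        (F S - F (sw p.1 p.2 S)) ^ 2) = (1 / 4) * Dir U (k + 1) F := by
    unfold Dir
    rw [mul_sum]
    refine sum_congr rfl fun p _ => ?_
    have : ∑ S ∈ XX U (k + 1) p.1 p.2, (F S - F (sw p.1 p.2 S)) ^ 2 =
        ∑ S ∈ U.powersetCard (k + 1), (F S - F (sw p.1 p.2 S)) ^ 2 := by
      unfold XX
      rw [sum_filter]
      refine sum_congr rfl fun S _ => ?_
      by_cases h : p.1 ∈ S ↔ p.2 ∈ S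
      · rw [if_neg (not_not.mpr h), sw_eq_self h]; simp
      · rw [if_pos h]
    rw [this]; ring
  have e2 : ∑ p ∈ U.offDiag, (∑ S ∈ XX U (k + 1) p.1 p.2, F S) ^ 2 /
      ((XX U (k + 1) p.1 p.2).card : ℝ) = (1 / (2 * h)) * ∑ b ∈ U, ∑ d ∈ U.erase b,
        (∑ S ∈ U.powersetCard (k + 1), F S * (ind b S - ind d S) ^ 2) ^ 2 := by
    have : ∑ p ∈ U.offDiag, (∑ S ∈ XX U (k + 1) p.1 p.2, F S) ^ 2 /
      ((XX U (k + 1) p.1 p.2).card : ℝ) = ∑ p ∈ U.offDiag, (1 / (2 * h)) *
        (∑ S ∈ U.powersetCard (k + 1), F S * (ind p.1 S - ind p.2 S) ^ 2) ^ 2 := by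
      refine sum_congr rfl fun p hp => ?_
      obtain ⟨hp1, hp2, hp3⟩ := mem_offDiag.mp hp
      rw [card_XX hp1 hp2 hp3 hU k, sum_XX]
      rw [← hh]; ring
    rw [this, ← mul_sum, sum_offDiag_eq]
  rw [e1, e2]
  have hii2 : 1 / (2 * h) * ∑ b ∈ U, ∑ d ∈ U.erase b,
      (∑ S ∈ U.powersetCard (k + 1), F S * (ind b S - ind d S) ^ 2) ^ 2 ≤ m * Q := by
    have := mul_le_mul_of_nonneg_left hii (show (0 : ℝ) ≤ 1 / (2 * h) by (clear * - hpos; positivity))
    refine this.trans (le_of_eq ?_)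
    (clear * - hpos; field_simp)
  linarith only [hi, hii2]

/-- **Lemma B** for a general function. -/
theorem lemmaB' (U : Finset α) (s : ℕ) (h1 : 1 ≤ s) (h2 : s + 1 ≤ U.card) (F : Finset α → ℝ)
    (μ : ℝ) (hμ : μ = (∑ S ∈ U.powersetCard s, F S) / ((U.powersetCard s).card : ℝ)) :
    2 * ∑ S ∈ U.powersetCard s, (F S - μ) ^ 2 ≤
      ∑ p ∈ U.offDiag, ((1 / 2) * ((1 / 2) * ∑ S ∈ XX U s p.1 p.2,
        (F S - F (sw p.1 p.2 S)) ^ 2) -
        ((XX U s p.1 p.2).card : ℝ) *
          ((∑ S ∈ XX U s p.1 p.2, F S) / ((XX U s p.1 p.2).card : ℝ) - μ) ^ 2) := by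
  have hcard : (0 : ℝ) < ((U.powersetCard s).card : ℝ) := by
    rw [card_powersetCard]; exact_mod_cast Nat.choose_pos (by omega)
  have h0 : ∑ S ∈ U.powersetCard s, (F S - μ) = 0 := by
    rw [sum_sub_distrib, sum_const, nsmul_eq_mul, hμ]
    field_simp
    ring
  refine (lemmaB U s h1 h2 (fun S => F S - μ) h0).trans (le_of_eq ?_)
  refine sum_congr rfl fun p hp => ?_
  obtain ⟨hp1, hp2, hp3⟩ := mem_offDiag.mp hp
  obtain ⟨k, rfl⟩ : ∃ k, s = k + 1 := ⟨s - 1, by omega⟩
  obtain ⟨m, hU⟩ : ∃ m, U.card = m + 2 := ⟨U.card - 2, by omega⟩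
  have hX : (0 : ℝ) < ((XX U (k + 1) p.1 p.2).card : ℝ) := by
    rw [card_XX hp1 hp2 hp3 hU k]
    have : (0 : ℝ) < (m.choose k : ℝ) := by exact_mod_cast Nat.choose_pos (by omega)
    (clear * - this; positivity)
  congr 1
  · congr 2
    refine sum_congr rfl fun S _ => ?_
    ring
  · rw [sum_sub_distrib, sum_const, nsmul_eq_mul]
    (clear * - hX; field_simp)

/-- the plain spectral gap of the Johnson graph, over ordered pairs -/
theorem johnson_gap (U : Finset α) (s : ℕ) (F : Finset α → ℝ)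
    (h0 : ∑ S ∈ U.powersetCard s, F S = 0) :
    4 * (U.card : ℝ) * ∑ S ∈ U.powersetCard s, F S ^ 2 ≤
      ∑ p ∈ U.offDiag, ∑ S ∈ U.powersetCard s, (F S - F (sw p.1 p.2 S)) ^ 2 := by
  have hi := part_i U.card U rfl s F
  have hV : Vr U s F = ∑ S ∈ U.powersetCard s, F S ^ 2 := by
    unfold Vr; rw [h0]; simp only [ne_eq, OfNat.ofNat_ne_zero, not_false_eq_true, zero_pow, zero_div, sub_zero]
  rw [hV] at hi
  exact hi

end Vale.Agent.P335.Johnson
end
end

section

section

namespace Vale.Agent.P335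

open Finset

section
variable {V : Type*} [Fintype V] [DecidableEq V]

/-- neighbours of `v` in the edge set `A` -/
def nb (A : Finset (Sym2 V)) (v : V) : Finset V := univ.filter (fun w => s(v, w) ∈ A)

/-- degree of `v` in the edge set `A` -/
def deg (A : Finset (Sym2 V)) (v : V) : ℕ := (nb A v).card

/-- loopless edge sets with degrees `d` -/
def Om (d : V → ℕ) : Finset (Finset (Sym2 V)) :=
  univ.filter (fun A => (∀ v, s(v, v) ∉ A) ∧ ∀ v, deg A v = d v)

/-- one switch: `ab`, `ce` are replaced by `ac`, `be` -/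
def Sw (A B : Finset (Sym2 V)) : Prop :=
  ∃ a b c e : V, a ≠ b ∧ a ≠ c ∧ a ≠ e ∧ b ≠ c ∧ b ≠ e ∧ c ≠ e ∧
    s(a, b) ∈ A ∧ s(c, e) ∈ A ∧ s(a, c) ∉ A ∧ s(b, e) ∉ A ∧
    B = (A \ {s(a, b), s(c, e)}) ∪ {s(a, c), s(b, e)}

/-- the pairings of `R v` with `B v` at every vertex `v` -/
def Pr (R B : V → Finset V) : Finset (V → V → V) :=
  univ.filter (fun σ => ∀ v, (∀ w ∈ R v, σ v w ∈ B v) ∧ (∀ w ∈ B v, σ v w ∈ R v) ∧
    (∀ w, σ v (σ v w) = w) ∧ (∀ w, w ∉ R v → w ∉ B v → σ v w = w))

/-- next dart: dart `(u, w)` is followed by `(w, σ w u)` -/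
def nxt (σ : V → V → V) (p : V × V) : V × V := (p.2, σ p.2 p.1)

/-- `i`-th edge of the walk started from the dart `p` -/
def we (σ : V → V → V) (p : V × V) (i : ℕ) : Sym2 V :=
  s((((nxt σ)^[i]) p).1, (((nxt σ)^[i]) p).2)

/-- the edges of the arc of length `l` started from the dart `p` -/
def arc (σ : V → V → V) (p : V × V) (l : ℕ) : Finset (Sym2 V) := (range l).image (we σ p)

/-- edges of `X` not in `Y`, at `v` -/
def rd (X Y : Finset (Sym2 V)) (v : V) : Finset V := nb (X \ Y) v

end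

section
variable {V : Type*} [Fintype V] [LinearOrder V]

/-- rank of `v` in the order by nonincreasing degree -/
def rk (d : V → ℕ) (v : V) : ℕ :=
  (univ.filter (fun u => d v < d u ∨ (d u = d v ∧ u < v))).card

/-- corrected degree -/
def hC (d : V → ℕ) (v : V) : ℕ := d v + (if rk d v ≤ d v then 1 else 0)

/-- height of a typed vertex; `true` is type `R`, `false` is type `C` -/
def ht (d : V → ℕ) (p : V × Bool) : ℕ :=
  if p.2 then 2 * (rk d p.1 + 1) else 2 * hC d p.1 + 1

/-- sign of a type -/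
def sg (τ : Bool) : ℤ := if τ then 1 else -1

end

end Vale.Agent.P335
end
end

section

section

namespace Vale.Agent.P335

open Finset

section
variable {Ω κ : Type*} [Fintype Ω] [DecidableEq κ]

/-- average of `f` over the fibre of `k` through `x` -/
noncomputable def avg (k : Ω → κ) (f : Ω → ℝ) (x : Ω) : ℝ :=
  (∑ y ∈ univ.filter (fun y => k y = k x), f y) /
    ((univ.filter (fun y => k y = k x)).card : ℝ)

end

section
variable {V : Type*} [Fintype V] [DecidableEq V]

/-- the states, as a type -/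
abbrev St (d : V → ℕ) : Type _ := {A : Finset (Sym2 V) // A ∈ Om d}

/-- the pairs `s(x, y)` with `x ∈ S`, `y ∈ T` -/
def blk (S T : Finset V) : Finset (Sym2 V) := (S ×ˢ T).image (fun z => s(z.1, z.2))

/-- average over the states that agree with `A` off `Z` -/
noncomputable def av {d : V → ℕ} (Z : Finset (Sym2 V)) (f : St d → ℝ) : St d → ℝ :=
  avg (fun A : St d => A.1 \ Z) f

/-- `D_p = 1 - P_p`, where `P_p` averages over the edges between `p` and its complement -/
noncomputable def Dp {d : V → ℕ} (p : Finset V) (f : St d → ℝ) : St d → ℝ :=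
  fun x => f x - av (blk p pᶜ) f x

/-- the edges of `A` between `p` and `q` form a perfect matching of the complete bipartite graph
on `p`, `q` (for disjoint `p`, `q` with two elements each) -/
def alt (p q : Finset V) (A : Finset (Sym2 V)) : Prop :=
  (∀ x ∈ p, (q.filter (fun y => s(x, y) ∈ A)).card = 1) ∧
    (∀ y ∈ q, (p.filter (fun x => s(x, y) ∈ A)).card = 1)

instance (p q : Finset V) (A : Finset (Sym2 V)) : Decidable (alt p q A) := by
  unfold alt; infer_instance

/-- the switch of the block `p`, `q`, when possible -/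
def flp {d : V → ℕ} (p q : Finset V) (A : St d) : St d :=
  if h : alt p q A.1 ∧ symmDiff A.1 (blk p q) ∈ Om d then ⟨symmDiff A.1 (blk p q), h.2⟩ else A

/-- average of `f` over the states `B` that agree with `A` off `blk p pᶜ` and such that
`alt p q B` holds iff `alt p q A` holds -/
noncomputable def Mn {d : V → ℕ} (p q : Finset V) (f : St d → ℝ) : St d → ℝ :=
  avg (fun A : St d => (A.1 \ blk p pᶜ, decide (alt p q A.1))) f

/-- two-element sets of vertices -/
def Prs (V : Type*) [Fintype V] [DecidableEq V] : Finset (Finset V) :=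
  (univ : Finset V).powersetCard 2

end

end Vale.Agent.P335
end
end

section

section

namespace Vale.Agent.P335

open Finset

/-- TASK RS: spectral theorem step (use `Matrix.IsHermitian.eigenvectorBasis` or
`LinearMap.IsSymmetric`). -/
theorem spectral_gap {Ω : Type*} [Fintype Ω] (T : (Ω → ℝ) →ₗ[ℝ] (Ω → ℝ))
    (hsym : ∀ f g : Ω → ℝ, ∑ x, T f x * g x = ∑ x, f x * T g x)
    (hpos : ∀ f : Ω → ℝ, 0 ≤ ∑ x, f x * T f x)
    (hgap : ∀ f : Ω → ℝ, 2 * ∑ x, f x * T f x ≤ ∑ x, T f x ^ 2)
    (hker : ∀ f : Ω → ℝ, T f = 0 → ∀ x y, f x = f y) (f : Ω → ℝ) :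
    2 * ∑ x, (f x - (∑ y, f y) / (Fintype.card Ω : ℝ)) ^ 2 ≤ ∑ x, f x * T f x := by
  classical
  set e : EuclideanSpace ℝ Ω ≃ₗ[ℝ] (Ω → ℝ) := WithLp.linearEquiv 2 ℝ (Ω → ℝ) with he
  set T' : EuclideanSpace ℝ Ω →ₗ[ℝ] EuclideanSpace ℝ Ω :=
    e.symm.toLinearMap ∘ₗ T ∘ₗ e.toLinearMap with hT'
  have hinner : ∀ u v : EuclideanSpace ℝ Ω, inner ℝ u v = ∑ x, e u x * e v x := by
    intro u v
    rw [PiLp.inner_apply]
    refine Finset.sum_congr rfl fun x _ => ?_
    simp [he, mul_comm]
  have heT : ∀ u, e (T' u) = T (e u) := by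
    intro u
    simp [hT']
  have hS : T'.IsSymmetric := by
    intro u v
    rw [hinner, hinner, heT, heT]
    exact hsym _ _
  set N := Module.finrank ℝ (EuclideanSpace ℝ Ω) with hNdef
  set b := hS.eigenvectorBasis (n := N) rfl with hb
  set l := hS.eigenvalues (n := N) rfl with hl
  have hbe : ∀ i, T' (b i) = l i • b i := by
    intro i
    exact hS.apply_eigenvectorBasis (n := N) rfl i
  have hbb : ∀ i, inner ℝ (b i) (b i) = (1 : ℝ) := by
    intro i
    have := b.orthonormal.1 i
    rw [real_inner_self_eq_norm_sq, this]; norm_num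
  -- eigenvalues are `0` or at least `2`
  have hl2 : ∀ i, l i = 0 ∨ 2 ≤ l i := by
    intro i
    have h1 := hgap (e (b i))
    have h0 := hpos (e (b i))
    have e1 : ∑ x, e (b i) x * T (e (b i)) x = l i := by
      rw [← heT, ← hinner, hbe, inner_smul_right, hbb]; simp
    have e2 : ∑ x, T (e (b i)) x ^ 2 = l i ^ 2 := by
      have : ∑ x, T (e (b i)) x ^ 2 = ∑ x, e (T' (b i)) x * e (T' (b i)) x := by
        refine Finset.sum_congr rfl fun x _ => ?_
        rw [heT]; ring
      rw [this, ← hinner, hbe, inner_smul_right, inner_smul_left, hbb]; simp; ring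
    rw [e1] at h1 h0
    rw [e2] at h1
    rcases h0.eq_or_lt with h | h
    · left; exact h.symm
    · right; nlinarith only [h1, h]
  set u : EuclideanSpace ℝ Ω := e.symm f with hu
  have heu : e u = f := by simp [hu]
  set c : Fin N → ℝ := fun i => inner ℝ (b i) u with hc
  set g : EuclideanSpace ℝ Ω := ∑ i, (if l i = 0 then c i else 0) • b i with hg
  have hTg : T (e g) = 0 := by
    rw [← heT]
    have : T' g = 0 := by
      rw [hg, map_sum]
      refine Finset.sum_eq_zero fun i _ => ?_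
      rw [map_smul, hbe]
      split_ifs with h
      · rw [h]; simp
      · simp only [zero_smul]
    rw [this, map_zero]
  have hconst := hker _ hTg
  have hbg : ∀ j, inner ℝ (b j) g = (if l j = 0 then c j else 0) := by
    intro j
    rw [hg, inner_sum]
    simp_rw [inner_smul_right]
    rw [Finset.sum_eq_single j]
    · rw [hbb, mul_one]
    · intro i _ hij
      rw [b.orthonormal.2 (Ne.symm hij), mul_zero]
    · intro h; exact absurd (Finset.mem_univ j) h
  have hparseval : ∀ v : EuclideanSpace ℝ Ω, ∑ i, inner ℝ (b i) v ^ 2 = ∑ x, e v x ^ 2 := by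
    intro v
    have h1 := b.sum_inner_mul_inner v v
    have h2 : ∑ i, inner ℝ (b i) v ^ 2 = ∑ i, inner ℝ v (b i) * inner ℝ (b i) v := by
      refine Finset.sum_congr rfl fun i _ => ?_
      rw [real_inner_comm v (b i)]; ring
    rw [h2, h1, hinner]
    refine Finset.sum_congr rfl fun x _ => ?_
    ring
  have hnorm : ∑ x, (f x - e g x) ^ 2 = ∑ i, (if l i = 0 then 0 else c i ^ 2) := by
    have h1 := hparseval (u - g)
    have h2 : ∑ x, e (u - g) x ^ 2 = ∑ x, (f x - e g x) ^ 2 := by
      rw [map_sub, heu]; rfl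
    rw [← h2, ← h1]
    refine Finset.sum_congr rfl fun i _ => ?_
    rw [inner_sub_right, hbg]
    split_ifs with h
    · simp [hc]
    · simp [hc]
  have hquad : ∑ x, f x * T f x = ∑ i, l i * c i ^ 2 := by
    have h1 := b.sum_inner_mul_inner u (T' u)
    rw [hinner u (T' u), heT, heu] at h1
    rw [← h1]
    refine Finset.sum_congr rfl fun i _ => ?_
    rw [← hS (b i) u, hbe, inner_smul_left, real_inner_comm]
    simp only [Real.ringHom_apply, hc]
    ring
  have hle : 2 * ∑ x, (f x - e g x) ^ 2 ≤ ∑ x, f x * T f x := by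
    rw [hnorm, hquad, Finset.mul_sum]
    refine Finset.sum_le_sum fun i _ => ?_
    split_ifs with h
    · rw [h]; simp
    · rcases hl2 i with h' | h'
      · exact absurd h' h
      · exact mul_le_mul_of_nonneg_right h' (sq_nonneg _)
  refine le_trans ?_ hle
  refine mul_le_mul_of_nonneg_left ?_ (by norm_num)
  -- the mean is the best constant
  rcases isEmpty_or_nonempty Ω with hΩ | hΩ
  · simp only [univ_eq_empty, sum_empty, Fintype.card_eq_zero, CharP.cast_eq_zero, div_zero, sub_zero, Std.le_refl]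
  obtain ⟨x0⟩ := hΩ
  have hNpos : (0 : ℝ) < Fintype.card Ω := by
    have : 0 < Fintype.card Ω := Fintype.card_pos_iff.mpr ⟨x0⟩
    exact_mod_cast this
  set m := (∑ y, f y) / (Fintype.card Ω : ℝ) with hm
  have hmN : ∑ y, f y = m * (Fintype.card Ω : ℝ) := by
    rw [hm]; (clear * - hNpos; field_simp)
  set k := e g x0 with hk
  have hk' : ∀ x, e g x = k := fun x => hconst x x0
  simp_rw [hk']
  have h1 : ∑ x, (f x - k) ^ 2 = ∑ x, (f x - m) ^ 2 + (Fintype.card Ω : ℝ) * (m - k) ^ 2 := by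
    have : ∀ x, (f x - k) ^ 2 = (f x - m) ^ 2 + 2 * (m - k) * f x + (k ^ 2 - m ^ 2) := by
      intro x; ring
    simp_rw [this]
    rw [Finset.sum_add_distrib, Finset.sum_add_distrib, ← Finset.mul_sum, hmN]
    simp only [Finset.sum_const, Finset.card_univ, nsmul_eq_mul]
    ring
  rw [h1]
  have : 0 ≤ (Fintype.card Ω : ℝ) * (m - k) ^ 2 := by (clear * - hNpos; positivity)
  linarith only [this]

end Vale.Agent.P335
end
end

section

section

namespace Vale.Agent.P335

open Finset

set_option linter.unusedSectionVars false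

variable {V : Type*} [Fintype V] [DecidableEq V]

theorem mem_nb' (A : Finset (Sym2 V)) (v w : V) : w ∈ nb A v ↔ s(v, w) ∈ A := by
  simp only [nb, mem_filter, mem_univ, true_and]

theorem mem_Om' (d : V → ℕ) (A : Finset (Sym2 V)) :
    A ∈ Om d ↔ (∀ v, s(v, v) ∉ A) ∧ ∀ v, deg A v = d v := by
  simp only [Om, mem_filter, mem_univ, true_and]

/-- the result of a switch -/
def swt (A : Finset (Sym2 V)) (a b c e : V) : Finset (Sym2 V) :=
  (A \ {s(a, b), s(c, e)}) ∪ {s(a, c), s(b, e)}

theorem deg_swt (A : Finset (Sym2 V)) {a b c e : V} (hab : a ≠ b) (hac : a ≠ c) (hae : a ≠ e)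
    (hbc : b ≠ c) (hbe : b ≠ e) (hce : c ≠ e) (h1 : s(a, b) ∈ A) (h2 : s(c, e) ∈ A)
    (h3 : s(a, c) ∉ A) (h4 : s(b, e) ∉ A) (v : V) : deg (swt A a b c e) v = deg A v := by
  classical
  -- the neighbours change only at `a b c e`
  have key : ∀ (x y z : V), x ≠ y → y ≠ z → x ≠ z → s(x, y) ∈ A → s(x, z) ∉ A →
      nb (swt A a b c e) x = (nb A x \ {y}) ∪ {z} → deg (swt A a b c e) x = deg A x := by
    intro x y z hxy hyz hxz hy hz hn
    unfold deg
    rw [hn]
    have hy' : y ∈ nb A x := by rw [mem_nb']; exact hy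
    have hz' : z ∉ nb A x := by rw [mem_nb']; exact hz
    rw [card_union_of_disjoint, card_sdiff_of_subset (by simpa using hy')]
    · simp only [card_singleton]
      have : 0 < (nb A x).card := card_pos.mpr ⟨y, hy'⟩
      omega
    · rw [disjoint_singleton_right]
      simp [hz']
  by_cases hva : v = a
  · subst hva
    apply key v b c hab hbc hac h1 h3
    ext w
    simp only [mem_nb', swt, mem_union, mem_sdiff, mem_insert, mem_singleton, Sym2.eq_iff]
    constructor
    · rintro (⟨h, h'⟩ | h)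
      · left; refine ⟨h, ?_⟩; rintro rfl; exact h' (Or.inl (Or.inl ⟨trivial, rfl⟩))
      · rcases h with (⟨_, h⟩ | ⟨h, h'⟩) | (⟨h, _⟩ | ⟨h, _⟩)
        · right; exact h
        · exact absurd h hac
        · exact absurd h hab
        · exact absurd h hae
    · rintro (⟨h, h'⟩ | h)
      · left; refine ⟨h, ?_⟩
        rintro ((⟨_, h2⟩ | ⟨h1, _⟩) | (⟨h1, _⟩ | ⟨h1, _⟩))
        · exact h' h2
        · exact hab h1
        · exact hac h1
        · exact hae h1
      · right; left; left; exact ⟨trivial, h⟩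
  by_cases hvb : v = b
  · subst hvb
    apply key v a e (Ne.symm hab) hae hbe (by rw [Sym2.eq_swap]; exact h1) h4
    ext w
    simp only [mem_nb', swt, mem_union, mem_sdiff, mem_insert, mem_singleton, Sym2.eq_iff]
    constructor
    · rintro (⟨h, h'⟩ | h)
      · left; refine ⟨h, ?_⟩; rintro rfl; exact h' (Or.inl (Or.inr ⟨trivial, rfl⟩))
      · rcases h with (⟨h, _⟩ | ⟨h, h'⟩) | (⟨_, h⟩ | ⟨h, _⟩)
        · exact absurd h.symm hab
        · exact absurd h hbc
        · right; exact h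
        · exact absurd h hbe
    · rintro (⟨h, h'⟩ | h)
      · left; refine ⟨h, ?_⟩
        rintro ((⟨h1, _⟩ | ⟨_, h2⟩) | (⟨h1, _⟩ | ⟨h1, _⟩))
        · exact hab h1.symm
        · exact h' h2
        · exact hbc h1
        · exact hbe h1
      · right; right; left; exact ⟨trivial, h⟩
  by_cases hvc : v = c
  · subst hvc
    apply key v e a hce (Ne.symm hae) (Ne.symm hac) h2 (by rw [Sym2.eq_swap]; exact h3)
    ext w
    simp only [mem_nb', swt, mem_union, mem_sdiff, mem_insert, mem_singleton, Sym2.eq_iff]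
    constructor
    · rintro (⟨h, h'⟩ | h)
      · left; refine ⟨h, ?_⟩; rintro rfl; exact h' (Or.inr (Or.inl ⟨trivial, rfl⟩))
      · rcases h with (⟨h, _⟩ | ⟨_, h⟩) | (⟨h, _⟩ | ⟨h, _⟩)
        · exact absurd h.symm hac
        · right; exact h
        · exact absurd h.symm hbc
        · exact absurd h hce
    · rintro (⟨h, h'⟩ | h)
      · left; refine ⟨h, ?_⟩
        rintro ((⟨h1, _⟩ | ⟨h1, _⟩) | (⟨_, h2⟩ | ⟨h1, _⟩))
        · exact hac h1.symm
        · exact hbc h1.symm
        · exact h' h2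
        · exact hce h1
      · right; left; right; exact ⟨trivial, h⟩
  by_cases hve : v = e
  · subst hve
    apply key v c b (Ne.symm hce) (Ne.symm hbc) (Ne.symm hbe) (by rw [Sym2.eq_swap]; exact h2)
      (by rw [Sym2.eq_swap]; exact h4)
    ext w
    simp only [mem_nb', swt, mem_union, mem_sdiff, mem_insert, mem_singleton, Sym2.eq_iff]
    constructor
    · rintro (⟨h, h'⟩ | h)
      · left; refine ⟨h, ?_⟩; rintro rfl; exact h' (Or.inr (Or.inr ⟨trivial, rfl⟩))
      · rcases h with (⟨h, _⟩ | ⟨h, _⟩) | (⟨h, _⟩ | ⟨_, h⟩)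
        · exact absurd h.symm hae
        · exact absurd h.symm hce
        · exact absurd h.symm hbe
        · right; exact h
    · rintro (⟨h, h'⟩ | h)
      · left; refine ⟨h, ?_⟩
        rintro ((⟨h1, _⟩ | ⟨h1, _⟩) | (⟨h1, _⟩ | ⟨_, h2⟩))
        · exact hae h1.symm
        · exact hbe h1.symm
        · exact hce h1.symm
        · exact h' h2
      · right; right; right; exact ⟨trivial, h⟩
  · have : nb (swt A a b c e) v = nb A v := by
      ext w
      simp only [mem_nb', swt, mem_union, mem_sdiff, mem_insert, mem_singleton, Sym2.eq_iff]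
      constructor
      · rintro (⟨h, _⟩ | h)
        · exact h
        · rcases h with (⟨h, _⟩ | ⟨h, _⟩) | (⟨h, _⟩ | ⟨h, _⟩)
          · exact absurd h hva
          · exact absurd h hvc
          · exact absurd h hvb
          · exact absurd h hve
      · intro h; left; refine ⟨h, ?_⟩
        rintro ((⟨h1, _⟩ | ⟨h1, _⟩) | (⟨h1, _⟩ | ⟨h1, _⟩))
        · exact hva h1
        · exact hvb h1
        · exact hvc h1
        · exact hve h1
    unfold deg; rw [this]

theorem swt_mem_Om (d : V → ℕ) (A : Finset (Sym2 V)) (hA : A ∈ Om d) {a b c e : V} (hab : a ≠ b)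
    (hac : a ≠ c) (hae : a ≠ e)
    (hbc : b ≠ c) (hbe : b ≠ e) (hce : c ≠ e) (h1 : s(a, b) ∈ A) (h2 : s(c, e) ∈ A)
    (h3 : s(a, c) ∉ A) (h4 : s(b, e) ∉ A) : swt A a b c e ∈ Om d := by
  rw [mem_Om'] at hA ⊢
  refine ⟨?_, ?_⟩
  · intro v hv
    simp only [swt, mem_union, mem_sdiff, mem_insert, mem_singleton, Sym2.eq_iff] at hv
    rcases hv with ⟨h, _⟩ | h
    · exact hA.1 v h
    · rcases h with (⟨h, h'⟩ | ⟨h, h'⟩) | (⟨h, h'⟩ | ⟨h, h'⟩)
      · exact hac (h.symm.trans h')
      · exact hac (h'.symm.trans h)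
      · exact hbe (h.symm.trans h')
      · exact hbe (h'.symm.trans h)
  · intro v; rw [deg_swt A hab hac hae hbc hbe hce h1 h2 h3 h4]; exact hA.2 v

theorem Sw_swt (A : Finset (Sym2 V)) {a b c e : V} (hab : a ≠ b)
    (hac : a ≠ c) (hae : a ≠ e)
    (hbc : b ≠ c) (hbe : b ≠ e) (hce : c ≠ e) (h1 : s(a, b) ∈ A) (h2 : s(c, e) ∈ A)
    (h3 : s(a, c) ∉ A) (h4 : s(b, e) ∉ A) : Sw A (swt A a b c e) :=
  ⟨a, b, c, e, hab, hac, hae, hbc, hbe, hce, h1, h2, h3, h4, rfl⟩

/-- changing membership only at `p q r t`, where `p q r` get repaired, decreases the distance -/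
theorem card_symmDiff_lt (A W B : Finset (Sym2 V)) (p q r t : Sym2 V) (hpq : p ≠ q) (hpr : p ≠ r)
    (hqr : q ≠ r) (hp : p ∈ symmDiff A B) (hq : q ∈ symmDiff A B) (hr : r ∈ symmDiff A B)
    (hp' : p ∉ symmDiff W B) (hq' : q ∉ symmDiff W B) (hr' : r ∉ symmDiff W B)
    (hz : ∀ z, z ≠ p → z ≠ q → z ≠ r → z ≠ t → (z ∈ W ↔ z ∈ A)) :
    (symmDiff W B).card < (symmDiff A B).card := by
  have hsub : symmDiff W B ⊆ (symmDiff A B \ {p, q, r}) ∪ {t} := by
    intro z hzm
    have h1 : z ≠ p := by rintro rfl; exact hp' hzm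
    have h2 : z ≠ q := by rintro rfl; exact hq' hzm
    have h3 : z ≠ r := by rintro rfl; exact hr' hzm
    by_cases h4 : z = t
    · rw [mem_union, mem_singleton]; right; exact h4
    · rw [mem_union, mem_sdiff]; left
      have := hz z h1 h2 h3 h4
      refine ⟨?_, by simp [h1, h2, h3]⟩
      rw [mem_symmDiff] at hzm ⊢
      rw [this] at hzm; exact hzm
  have hss : ({p, q, r} : Finset (Sym2 V)) ⊆ symmDiff A B := by
    intro z hz; simp only [mem_insert, mem_singleton] at hz
    rcases hz with rfl | rfl | rfl <;> assumption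
  have hc3 : ({p, q, r} : Finset (Sym2 V)).card = 3 := by
    rw [card_insert_of_notMem, card_insert_of_notMem, card_singleton]
    · simpa using hqr
    · simp only [mem_insert, mem_singleton, not_or]; exact ⟨hpq, hpr⟩
  have hle := card_le_card hsub
  have hle2 := card_union_le (symmDiff A B \ {p, q, r}) {t}
  rw [card_sdiff_of_subset hss, hc3, card_singleton] at hle2
  have h3le := card_le_card hss
  rw [hc3] at h3le
  omega

theorem mem_swt (A : Finset (Sym2 V)) (a b c e : V) (z : Sym2 V) :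
    z ∈ swt A a b c e ↔ (z ∈ A ∧ z ≠ s(a, b) ∧ z ≠ s(c, e)) ∨ z = s(a, c) ∨ z = s(b, e) := by
  simp only [swt, mem_union, mem_sdiff, mem_insert, mem_singleton, not_or]

theorem sym2_ne {a b c e : V} (h1 : a ≠ c ∨ b ≠ e) (h2 : a ≠ e ∨ b ≠ c) : s(a, b) ≠ s(c, e) := by
  intro h; rw [Sym2.eq_iff] at h
  rcases h with ⟨h3, h4⟩ | ⟨h3, h4⟩
  · rcases h1 with h | h
    · exact h h3
    · exact h h4
  · rcases h2 with h | h
    · exact h h3
    · exact h h4

/-- degree balance of the two difference sets -/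
theorem card_nb_sdiff (d : V → ℕ) (Z Z' : Finset (Sym2 V)) (hZ : Z ∈ Om d) (hZ' : Z' ∈ Om d)
    (v : V) : (nb (Z \ Z') v).card = (nb (Z' \ Z) v).card := by
  have h1 : nb (Z \ Z') v = nb Z v \ nb Z' v := by ext w; simp [mem_nb']
  have h2 : nb (Z' \ Z) v = nb Z' v \ nb Z v := by ext w; simp [mem_nb']
  rw [h1, h2]
  have e1 := card_sdiff_add_card_inter (nb Z v) (nb Z' v)
  have e2 := card_sdiff_add_card_inter (nb Z' v) (nb Z v)
  rw [inter_comm] at e2
  have e3 : (nb Z v).card = (nb Z' v).card := by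
    rw [mem_Om'] at hZ hZ'
    have a1 := hZ.2 v
    have a2 := hZ'.2 v
    unfold deg at a1 a2; omega
  omega

/-- TASK T3a: a reducing switch exists. -/
theorem reduce_switch (d : V → ℕ) (Z Z' : Finset (Sym2 V)) (hZ : Z ∈ Om d) (hZ' : Z' ∈ Om d)
    (hne : Z ≠ Z') :
    (∃ W ∈ Om d, Sw Z W ∧ (symmDiff W Z').card < (symmDiff Z Z').card) ∨
    (∃ W ∈ Om d, Sw Z' W ∧ (symmDiff Z W).card < (symmDiff Z Z').card) := by
  -- a red edge `ab`
  have hred : ∃ a b : V, s(a, b) ∈ Z \ Z' := by
    by_contra hcon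
    push Not at hcon
    have hsub : Z ⊆ Z' := by
      intro z hz
      induction z using Sym2.ind with
      | _ x y =>
        by_contra hzn
        exact hcon x y (mem_sdiff.mpr ⟨hz, hzn⟩)
    apply hne
    apply subset_antisymm hsub
    intro z hz
    induction z using Sym2.ind with
    | _ x y =>
      by_contra hzn
      have h1 : y ∈ nb (Z' \ Z) x := by rw [mem_nb']; exact mem_sdiff.mpr ⟨hz, hzn⟩
      have h2 := card_nb_sdiff d Z Z' hZ hZ' x
      have h3 : 0 < (nb (Z' \ Z) x).card := card_pos.mpr ⟨y, h1⟩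
      rw [← h2] at h3
      obtain ⟨w, hw⟩ := card_pos.mp h3
      rw [mem_nb'] at hw
      exact hcon x w hw
  obtain ⟨a, b, hab⟩ := hred
  obtain ⟨c, hc⟩ : ∃ c, s(b, c) ∈ Z' \ Z := by
    have h1 : a ∈ nb (Z \ Z') b := by rw [mem_nb', Sym2.eq_swap]; exact hab
    have h2 := card_nb_sdiff d Z Z' hZ hZ' b
    have h3 : 0 < (nb (Z \ Z') b).card := card_pos.mpr ⟨a, h1⟩
    rw [h2] at h3
    obtain ⟨w, hw⟩ := card_pos.mp h3
    rw [mem_nb'] at hw
    exact ⟨w, hw⟩
  rw [mem_sdiff] at hab hc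
  have hOm := hZ
  have hOm' := hZ'
  rw [mem_Om'] at hOm hOm'
  have nab : a ≠ b := by rintro rfl; exact hOm.1 a hab.1
  have nbc : b ≠ c := by rintro rfl; exact hOm'.1 b hc.1
  have nac : a ≠ c := by rintro rfl; rw [Sym2.eq_swap] at hc; exact hc.2 hab.1
  by_cases hex1 : ∃ x, s(c, x) ∈ Z \ Z' ∧ x ≠ a ∧ s(a, x) ∉ Z \ Z'
  · obtain ⟨x, hcx, nxa, hax⟩ := hex1
    rw [mem_sdiff] at hcx hax
    have ncx : c ≠ x := by rintro rfl; exact hOm.1 c hcx.1
    have nbx : b ≠ x := by rintro rfl; rw [Sym2.eq_swap] at hcx; exact hc.2 hcx.1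
    have nax : a ≠ x := Ne.symm nxa
    by_cases haxZ : s(a, x) ∈ Z
    · -- switch Z': remove bc, ax add ba, cx
      right
      have haxZ' : s(a, x) ∈ Z' := by by_contra h; exact hax ⟨haxZ, h⟩
      refine ⟨swt Z' b c a x, ?_, ?_, ?_⟩
      · exact swt_mem_Om d Z' hZ' nbc (Ne.symm nab) nbx (Ne.symm nac) ncx nax hc.1 haxZ'
          (by rw [Sym2.eq_swap]; exact hab.2) hcx.2
      · exact Sw_swt Z' nbc (Ne.symm nab) nbx (Ne.symm nac) ncx nax hc.1 haxZ'
          (by rw [Sym2.eq_swap]; exact hab.2) hcx.2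
      · rw [symmDiff_comm Z, symmDiff_comm Z]
        apply card_symmDiff_lt Z' _ Z s(b, c) s(a, b) s(c, x) s(a, x)
        · exact sym2_ne (Or.inl (Ne.symm nab)) (Or.inr (Ne.symm nac))
        · exact sym2_ne (Or.inl nbc) (Or.inl nbx)
        · exact sym2_ne (Or.inl nac) (Or.inl nax)
        · rw [mem_symmDiff]; left; exact hc
        · rw [mem_symmDiff]; right; exact hab
        · rw [mem_symmDiff]; right; exact hcx
        · rw [mem_symmDiff, mem_swt]
          rintro (⟨h, _⟩ | ⟨h, _⟩)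
          · rcases h with ⟨_, h, _⟩ | h | h
            · exact h rfl
            · exact sym2_ne (Or.inr (Ne.symm nac)) (Or.inl (Ne.symm nab)) h
            · exact sym2_ne (Or.inl nbc) (Or.inl nbx) h
          · exact hc.2 h
        · rw [mem_symmDiff, mem_swt]
          rintro (⟨_, h⟩ | ⟨_, h⟩)
          · exact h hab.1
          · exact h (Or.inr (Or.inl Sym2.eq_swap))
        · rw [mem_symmDiff, mem_swt]
          rintro (⟨_, h⟩ | ⟨_, h⟩)
          · exact h hcx.1
          · exact h (Or.inr (Or.inr rfl))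
        · intro z h1 h2 h3 h4
          rw [mem_swt]
          constructor
          · rintro (⟨h, _⟩ | h | h)
            · exact h
            · rw [Sym2.eq_swap] at h; exact absurd h h2
            · exact absurd h h3
          · intro h; left; exact ⟨h, h1, h4⟩
    · -- switch Z: remove ba, cx add bc, ax
      left
      refine ⟨swt Z b a c x, ?_, ?_, ?_⟩
      · exact swt_mem_Om d Z hZ (Ne.symm nab) nbc nbx nac nax ncx
          (by rw [Sym2.eq_swap]; exact hab.1) hcx.1 hc.2 haxZ
      · exact Sw_swt Z (Ne.symm nab) nbc nbx nac nax ncx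
          (by rw [Sym2.eq_swap]; exact hab.1) hcx.1 hc.2 haxZ
      · apply card_symmDiff_lt Z _ Z' s(b, c) s(a, b) s(c, x) s(a, x)
        · exact sym2_ne (Or.inl (Ne.symm nab)) (Or.inr (Ne.symm nac))
        · exact sym2_ne (Or.inl nbc) (Or.inl nbx)
        · exact sym2_ne (Or.inl nac) (Or.inl nax)
        · rw [mem_symmDiff]; right; exact hc
        · rw [mem_symmDiff]; left; exact hab
        · rw [mem_symmDiff]; left; exact hcx
        · rw [mem_symmDiff, mem_swt]
          rintro (⟨_, h⟩ | ⟨_, h⟩)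
          · exact h hc.1
          · exact h (Or.inr (Or.inl rfl))
        · rw [mem_symmDiff, mem_swt]
          rintro (⟨h, _⟩ | ⟨h, _⟩)
          · rcases h with ⟨_, h, _⟩ | h | h
            · exact h Sym2.eq_swap
            · exact sym2_ne (Or.inl nab) (Or.inl nac) h
            · exact sym2_ne (Or.inr nbx) (Or.inl nax) h
          · exact hab.2 h
        · rw [mem_symmDiff, mem_swt]
          rintro (⟨h, _⟩ | ⟨h, _⟩)
          · rcases h with ⟨_, _, h⟩ | h | h
            · exact h rfl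
            · exact sym2_ne (Or.inl (Ne.symm nbc)) (Or.inr (Ne.symm nbx)) h
            · exact sym2_ne (Or.inl (Ne.symm nac)) (Or.inl ncx) h
          · exact hcx.2 h
        · intro z h1 h2 h3 h4
          rw [mem_swt]
          constructor
          · rintro (⟨h, _⟩ | h | h)
            · exact h
            · exact absurd h h1
            · exact absurd h h4
          · intro h; left; refine ⟨h, ?_, h3⟩
            rw [Sym2.eq_swap]; exact h2
  by_cases hex2 : ∃ x, s(a, x) ∈ Z' \ Z ∧ x ≠ c ∧ s(c, x) ∉ Z' \ Z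
  · obtain ⟨x, hax, nxc, hcx⟩ := hex2
    rw [mem_sdiff] at hcx hax
    have nax : a ≠ x := by rintro rfl; exact hOm'.1 a hax.1
    have nbx : b ≠ x := by rintro rfl; exact hax.2 hab.1
    have ncx : c ≠ x := Ne.symm nxc
    by_cases hcxZ : s(c, x) ∈ Z
    · -- switch Z: remove ba, cx add bc, ax
      left
      refine ⟨swt Z b a c x, ?_, ?_, ?_⟩
      · exact swt_mem_Om d Z hZ (Ne.symm nab) nbc nbx nac nax ncx
          (by rw [Sym2.eq_swap]; exact hab.1) hcxZ hc.2 hax.2
      · exact Sw_swt Z (Ne.symm nab) nbc nbx nac nax ncx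
          (by rw [Sym2.eq_swap]; exact hab.1) hcxZ hc.2 hax.2
      · apply card_symmDiff_lt Z _ Z' s(b, c) s(a, b) s(a, x) s(c, x)
        · exact sym2_ne (Or.inl (Ne.symm nab)) (Or.inr (Ne.symm nac))
        · exact sym2_ne (Or.inl (Ne.symm nab)) (Or.inl nbx)
        · exact sym2_ne (Or.inr nbx) (Or.inl nax)
        · rw [mem_symmDiff]; right; exact hc
        · rw [mem_symmDiff]; left; exact hab
        · rw [mem_symmDiff]; right; exact hax
        · rw [mem_symmDiff, mem_swt]
          rintro (⟨_, h⟩ | ⟨_, h⟩)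
          · exact h hc.1
          · exact h (Or.inr (Or.inl rfl))
        · rw [mem_symmDiff, mem_swt]
          rintro (⟨h, _⟩ | ⟨h, _⟩)
          · rcases h with ⟨_, h, _⟩ | h | h
            · exact h Sym2.eq_swap
            · exact sym2_ne (Or.inl nab) (Or.inl nac) h
            · exact sym2_ne (Or.inr nbx) (Or.inl nax) h
          · exact hab.2 h
        · rw [mem_symmDiff, mem_swt]
          rintro (⟨_, h⟩ | ⟨_, h⟩)
          · exact h hax.1
          · exact h (Or.inr (Or.inr rfl))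
        · intro z h1 h2 h3 h4
          rw [mem_swt]
          constructor
          · rintro (⟨h, _⟩ | h | h)
            · exact h
            · exact absurd h h1
            · exact absurd h h3
          · intro h; left; refine ⟨h, ?_, h4⟩
            rw [Sym2.eq_swap]; exact h2
    · -- switch Z': remove bc, ax add ba, cx
      right
      have hcxZ' : s(c, x) ∉ Z' := fun h => hcx ⟨h, hcxZ⟩
      refine ⟨swt Z' b c a x, ?_, ?_, ?_⟩
      · exact swt_mem_Om d Z' hZ' nbc (Ne.symm nab) nbx (Ne.symm nac) ncx nax hc.1 hax.1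
          (by rw [Sym2.eq_swap]; exact hab.2) hcxZ'
      · exact Sw_swt Z' nbc (Ne.symm nab) nbx (Ne.symm nac) ncx nax hc.1 hax.1
          (by rw [Sym2.eq_swap]; exact hab.2) hcxZ'
      · rw [symmDiff_comm Z, symmDiff_comm Z]
        apply card_symmDiff_lt Z' _ Z s(b, c) s(a, b) s(a, x) s(c, x)
        · exact sym2_ne (Or.inl (Ne.symm nab)) (Or.inr (Ne.symm nac))
        · exact sym2_ne (Or.inl (Ne.symm nab)) (Or.inl nbx)
        · exact sym2_ne (Or.inr nbx) (Or.inl nax)
        · rw [mem_symmDiff]; left; exact hc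
        · rw [mem_symmDiff]; right; exact hab
        · rw [mem_symmDiff]; left; exact hax
        · rw [mem_symmDiff, mem_swt]
          rintro (⟨h, _⟩ | ⟨h, _⟩)
          · rcases h with ⟨_, h, _⟩ | h | h
            · exact h rfl
            · exact sym2_ne (Or.inr (Ne.symm nac)) (Or.inl (Ne.symm nab)) h
            · exact sym2_ne (Or.inl nbc) (Or.inl nbx) h
          · exact hc.2 h
        · rw [mem_symmDiff, mem_swt]
          rintro (⟨_, h⟩ | ⟨_, h⟩)
          · exact h hab.1
          · exact h (Or.inr (Or.inl Sym2.eq_swap))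
        · rw [mem_symmDiff, mem_swt]
          rintro (⟨h, _⟩ | ⟨h, _⟩)
          · rcases h with ⟨_, _, h⟩ | h | h
            · exact h rfl
            · exact sym2_ne (Or.inl nab) (Or.inr (Ne.symm nbx)) h
            · exact sym2_ne (Or.inl nac) (Or.inl nax) h
          · exact hax.2 h
        · intro z h1 h2 h3 h4
          rw [mem_swt]
          constructor
          · rintro (⟨h, _⟩ | h | h)
            · exact h
            · rw [Sym2.eq_swap] at h; exact absurd h h2
            · exact absurd h h4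
          · intro h; left; exact ⟨h, h1, h3⟩
  · exfalso
    push Not at hex1 hex2
    -- red neighbours
    have hr : (nb (Z \ Z') c \ {a}).card < (nb (Z \ Z') a \ {c}).card := by
      apply card_lt_card
      rw [ssubset_iff_of_subset]
      · refine ⟨b, ?_, ?_⟩
        · simp only [mem_sdiff, mem_nb', mem_singleton]
          exact ⟨hab, nbc⟩
        · simp only [mem_sdiff, mem_nb', mem_singleton, not_and, not_not]
          intro h
          rw [Sym2.eq_swap] at h
          exact absurd h.1 hc.2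
      · intro x hx
        simp only [mem_sdiff, mem_nb', mem_singleton] at hx ⊢
        have := hex1 x (mem_sdiff.mpr hx.1) hx.2
        rw [mem_sdiff] at this
        refine ⟨this, ?_⟩
        rintro rfl; exact hOm.1 x hx.1.1
    have hb : (nb (Z' \ Z) a \ {c}).card < (nb (Z' \ Z) c \ {a}).card := by
      apply card_lt_card
      rw [ssubset_iff_of_subset]
      · refine ⟨b, ?_, ?_⟩
        · simp only [mem_sdiff, mem_nb', mem_singleton]
          rw [Sym2.eq_swap]
          exact ⟨hc, Ne.symm nab⟩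
        · simp only [mem_sdiff, mem_nb', mem_singleton, not_and, not_not]
          intro h
          exact absurd hab.1 h.2
      · intro x hx
        simp only [mem_sdiff, mem_nb', mem_singleton] at hx ⊢
        have := hex2 x (mem_sdiff.mpr hx.1) hx.2
        rw [mem_sdiff] at this
        refine ⟨this, ?_⟩
        rintro rfl; exact hOm'.1 x hx.1.1
    have ea := card_nb_sdiff d Z Z' hZ hZ' a
    have ec := card_nb_sdiff d Z Z' hZ hZ' c
    have card_er : ∀ (S : Finset V) (x : V), (S \ {x}).card = S.card - (if x ∈ S then 1 else 0) := by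
      intro S x
      by_cases hx : x ∈ S
      · rw [card_sdiff_of_subset (by simpa using hx)]; simp only [card_singleton, hx, ↓reduceIte]
      · rw [if_neg hx, sdiff_singleton_eq_erase, erase_eq_of_notMem hx]; simp
    have pos_er : ∀ (S : Finset V) (x : V), (if x ∈ S then 1 else 0) ≤ S.card := by
      intro S x
      by_cases hx : x ∈ S
      · rw [if_pos hx]; exact card_pos.mpr ⟨x, hx⟩
      · rw [if_neg hx]; exact Nat.zero_le _
    rw [card_er, card_er] at hr hb
    have q1 : (a ∈ nb (Z \ Z') c) ↔ (c ∈ nb (Z \ Z') a) := by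
      rw [mem_nb', mem_nb', Sym2.eq_swap]
    have q2 : (a ∈ nb (Z' \ Z) c) ↔ (c ∈ nb (Z' \ Z) a) := by
      rw [mem_nb', mem_nb', Sym2.eq_swap]
    have p1 := pos_er (nb (Z \ Z') c) a
    have p2 := pos_er (nb (Z \ Z') a) c
    have p3 := pos_er (nb (Z' \ Z) c) a
    have p4 := pos_er (nb (Z' \ Z) a) c
    simp only [q1, q2] at *
    split_ifs at * <;> omega

theorem card_symmDiff_triangle (A B C : Finset (Sym2 V)) :
    (symmDiff A C).card ≤ (symmDiff A B).card + (symmDiff B C).card := by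
  have h : symmDiff A C ⊆ symmDiff A B ∪ symmDiff B C := by
    intro z hz
    simp only [mem_union, mem_symmDiff] at hz ⊢
    tauto
  exact (card_le_card h).trans (card_union_le _ _)

theorem card_symmDiff_Sw {A B : Finset (Sym2 V)} (h : Sw A B) : (symmDiff A B).card ≤ 4 := by
  obtain ⟨a, b, c, e, -, -, -, -, -, -, -, -, -, -, rfl⟩ := h
  have h : symmDiff A ((A \ {s(a, b), s(c, e)}) ∪ {s(a, c), s(b, e)}) ⊆
      ({s(a, b), s(c, e)} ∪ {s(a, c), s(b, e)} : Finset (Sym2 V)) := by
    intro z hz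
    simp only [mem_union, mem_symmDiff, mem_sdiff] at hz ⊢
    tauto
  refine (card_le_card h).trans ((card_union_le _ _).trans ?_)
  have h1 : ({s(a, b), s(c, e)} : Finset (Sym2 V)).card ≤ 2 := card_le_two
  have h2 : ({s(a, c), s(b, e)} : Finset (Sym2 V)).card ≤ 2 := card_le_two
  omega

theorem Sw_mem_Om {d : V → ℕ} {A B : Finset (Sym2 V)} (hA : A ∈ Om d) (h : Sw A B) : B ∈ Om d := by
  obtain ⟨a, b, c, e, hab, hac, hae, hbc, hbe, hce, h1, h2, h3, h4, rfl⟩ := h
  exact swt_mem_Om d A hA hab hac hae hbc hbe hce h1 h2 h3 h4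

open Classical in
/-- local energy around `Z` -/
noncomputable def EZ (d : V → ℕ) (f : Finset (Sym2 V) → ℝ) (Z : Finset (Sym2 V)) (r : ℕ) : ℝ :=
  ∑ W ∈ (Om d).filter (fun W => (symmDiff Z W).card ≤ r),
    ∑ B ∈ (Om d).filter (fun B => Sw W B), (f W - f B) ^ 2

theorem EZ_nonneg (d : V → ℕ) (f : Finset (Sym2 V) → ℝ) (Z : Finset (Sym2 V)) (r : ℕ) :
    0 ≤ EZ d f Z r := sum_nonneg (fun _ _ => sum_nonneg (fun _ _ => sq_nonneg _))

theorem EZ_mono (d : V → ℕ) (f : Finset (Sym2 V) → ℝ) (Z W : Finset (Sym2 V)) (r s : ℕ)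
    (h : (symmDiff Z W).card + s ≤ r) : EZ d f W s ≤ EZ d f Z r := by
  classical
  unfold EZ
  apply sum_le_sum_of_subset_of_nonneg
  · intro A hA
    rw [mem_filter] at hA ⊢
    refine ⟨hA.1, ?_⟩
    have := card_symmDiff_triangle Z W A
    omega
  · intro _ _ _
    exact sum_nonneg (fun _ _ => sq_nonneg _)

theorem sq_le_EZ (d : V → ℕ) (f : Finset (Sym2 V) → ℝ) (Z W B : Finset (Sym2 V)) (r : ℕ)
    (hW : W ∈ Om d) (hWr : (symmDiff Z W).card ≤ r) (hS : Sw W B) :
    (f W - f B) ^ 2 ≤ EZ d f Z r := by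
  classical
  unfold EZ
  have h1 : (f W - f B) ^ 2 ≤ ∑ B ∈ (Om d).filter (fun B => Sw W B), (f W - f B) ^ 2 := by
    apply single_le_sum (f := fun B => (f W - f B) ^ 2) (fun _ _ => sq_nonneg _)
    rw [mem_filter]; exact ⟨Sw_mem_Om hW hS, hS⟩
  refine h1.trans ?_
  apply single_le_sum (f := fun W => ∑ B ∈ (Om d).filter (fun B => Sw W B), (f W - f B) ^ 2)
    (fun _ _ => sum_nonneg (fun _ _ => sq_nonneg _))
  rw [mem_filter]; exact ⟨hW, hWr⟩

theorem near_path (d : V → ℕ) (f : Finset (Sym2 V) → ℝ) : ∀ (k : ℕ) (Z Z' : Finset (Sym2 V)),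
    Z ∈ Om d → Z' ∈ Om d → (symmDiff Z Z').card ≤ k →
    (f Z - f Z') ^ 2 ≤ (2 ^ (k + 1) - 2) * EZ d f Z (4 * k) := by
  intro k
  induction k with
  | zero =>
    intro Z Z' hZ hZ' h
    have h0 : symmDiff Z Z' = ∅ := card_eq_zero.mp (Nat.le_zero.mp h)
    have h1 : Z = Z' := symmDiff_eq_bot.mp h0
    subst h1
    simp
  | succ k ih =>
    intro Z Z' hZ hZ' h
    by_cases hne : Z = Z'
    · subst hne
      have := EZ_nonneg d f Z (4 * (k + 1))
      have h2 : (2 : ℝ) ≤ 2 ^ (k + 1 + 1) := by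
        have : (2 : ℝ) ^ 1 ≤ 2 ^ (k + 1 + 1) := pow_le_pow_right₀ (by norm_num) (by omega)
        linarith only [this]
      have h3 : 0 ≤ ((2 : ℝ) ^ (k + 1 + 1) - 2) * EZ d f Z (4 * (k + 1)) :=
        mul_nonneg (by linarith only [h2]) this
      simpa only [sub_self, ne_eq, OfNat.ofNat_ne_zero, not_false_eq_true, zero_pow, ge_iff_le] using h3
    · have hp : (2 : ℝ) ≤ 2 ^ (k + 1) := by
        have : (2 : ℝ) ^ 1 ≤ 2 ^ (k + 1) := pow_le_pow_right₀ (by norm_num) (by omega)
        linarith only [this]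
      rcases reduce_switch d Z Z' hZ hZ' hne with ⟨W, hW, hS, hc⟩ | ⟨W, hW, hS, hc⟩
      · have h1 := sq_le_EZ d f Z Z W (4 * (k + 1)) hZ (by simp only [symmDiff_self, bot_eq_empty, card_empty, zero_le]) hS
        have h2 := ih W Z' hW hZ' (by omega)
        have h3 := EZ_mono d f Z W (4 * (k + 1)) (4 * k) (by have := card_symmDiff_Sw hS; omega)
        have h4 : (f Z - f Z') ^ 2 ≤ 2 * (f Z - f W) ^ 2 + 2 * (f W - f Z') ^ 2 := by
          nlinarith only [sq_nonneg ((f Z - f W) - (f W - f Z'))]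
        have h5 : ((2 : ℝ) ^ (k + 1) - 2) * EZ d f W (4 * k) ≤
            ((2 : ℝ) ^ (k + 1) - 2) * EZ d f Z (4 * (k + 1)) :=
          mul_le_mul_of_nonneg_left h3 (by linarith only [hp])
        have h6 : (2 : ℝ) ^ (k + 1 + 1) = 2 * 2 ^ (k + 1) := by ring
        rw [h6]
        linarith
      · have h1 := sq_le_EZ d f Z Z' W (4 * (k + 1)) hZ' (by omega) hS
        have h2 := ih Z W hZ hW (by omega)
        have h3 := EZ_mono d f Z Z (4 * (k + 1)) (4 * k) (by simp only [symmDiff_self, bot_eq_empty, card_empty, zero_add, Nat.ofNat_pos, mul_le_mul_iff_right₀, le_add_iff_nonneg_right, zero_le])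
        have h4 : (f Z - f Z') ^ 2 ≤ 2 * (f Z' - f W) ^ 2 + 2 * (f Z - f W) ^ 2 := by
          nlinarith only [sq_nonneg ((f Z - f W) - (f W - f Z'))]
        have h5 : ((2 : ℝ) ^ (k + 1) - 2) * EZ d f Z (4 * k) ≤
            ((2 : ℝ) ^ (k + 1) - 2) * EZ d f Z (4 * (k + 1)) :=
          mul_le_mul_of_nonneg_left h3 (by linarith only [hp])
        have h6 : (2 : ℝ) ^ (k + 1 + 1) = 2 * 2 ^ (k + 1) := by ring
        rw [h6]
        linarith

/-- the number of small sets -/
theorem card_small {α : Type*} [Fintype α] [DecidableEq α] (r : ℕ) :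
    ((univ : Finset (Finset α)).filter (fun S => S.card ≤ r)).card ≤
      (Fintype.card α + 1) ^ r := by
  classical
  have hsub : (univ : Finset (Finset α)).filter (fun S => S.card ≤ r) ⊆
      (univ : Finset (Fin r → Option α)).image
        (fun g => univ.filter (fun x => ∃ i, g i = some x)) := by
    intro S hS
    rw [mem_filter] at hS
    rw [mem_image]
    have hcard : S.card ≤ r := hS.2
    let e := S.equivFin
    refine ⟨fun i => if h : i.1 < S.card then some (e.symm ⟨i.1, h⟩).1 else none, mem_univ _, ?_⟩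
    ext x
    simp only [mem_filter, mem_univ, true_and]
    constructor
    · rintro ⟨i, hi⟩
      split_ifs at hi with h
      rw [Option.some_inj] at hi
      rw [← hi]
      exact (e.symm ⟨i.1, h⟩).2
    · intro hx
      refine ⟨⟨(e ⟨x, hx⟩).1, lt_of_lt_of_le (e ⟨x, hx⟩).2 hcard⟩, ?_⟩
      simp
  calc _ ≤ _ := card_le_card hsub
    _ ≤ _ := card_image_le
    _ = _ := by simp only [card_univ, Fintype.card_pi, Fintype.card_option, prod_const, Fintype.card_fin]

theorem card_ball (A : Finset (Sym2 V)) (S : Finset (Finset (Sym2 V))) (r : ℕ) :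
    ((S.filter (fun B => (symmDiff A B).card ≤ r)).card : ℝ) ≤
      ((Fintype.card V : ℝ) ^ 2 + 1) ^ r := by
  classical
  have h1 : (S.filter (fun B => (symmDiff A B).card ≤ r)).card ≤
      ((univ : Finset (Finset (Sym2 V))).filter (fun S => S.card ≤ r)).card := by
    apply card_le_card_of_injOn (fun B => symmDiff A B)
    · intro B hB
      simp only [coe_filter, Set.mem_ofPred_eq, mem_univ, true_and] at hB ⊢
      exact hB.2
    · intro B _ C _ h
      exact symmDiff_right_injective A h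
  have h2 := card_small (α := Sym2 V) r
  have h3 : Fintype.card (Sym2 V) ≤ Fintype.card V ^ 2 := by
    rw [Sym2.card, sq]
    rcases Nat.eq_zero_or_pos (Fintype.card V) with h | h
    · rw [h]; simp
    · rw [Nat.choose_two_right]
      apply Nat.div_le_of_le_mul
      simp only [Nat.add_sub_cancel]
      nlinarith only []
  have h4 : (S.filter (fun B => (symmDiff A B).card ≤ r)).card ≤ (Fintype.card V ^ 2 + 1) ^ r :=
    h1.trans (h2.trans (Nat.pow_le_pow_left (by omega) r))
  exact_mod_cast h4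

open Classical in
/-- TASK T3b: comparison of the chain of bounded jumps with the switch graph. -/
theorem compare_near (d : V → ℕ) (k : ℕ) (f : Finset (Sym2 V) → ℝ) :
    ∑ A ∈ Om d, ∑ B ∈ (Om d).filter (fun B => (symmDiff A B).card ≤ k), (f A - f B) ^ 2 ≤
      (((Fintype.card V : ℝ) ^ 2 + 1) ^ (5 * k) * 2 ^ (k + 1)) *
        ∑ A ∈ Om d, ∑ B ∈ (Om d).filter (fun B => Sw A B), (f A - f B) ^ 2 := by
  set M : ℝ := (Fintype.card V : ℝ) ^ 2 + 1 with hM
  have hM1 : 1 ≤ M := by rw [hM]; nlinarith [sq_nonneg (Fintype.card V : ℝ)]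
  have hp : (2 : ℝ) ≤ 2 ^ (k + 1) := by
    have : (2 : ℝ) ^ 1 ≤ 2 ^ (k + 1) := pow_le_pow_right₀ (by norm_num) (by omega)
    linarith only [this]
  set q : Finset (Sym2 V) → ℝ :=
    fun W => ∑ B ∈ (Om d).filter (fun B => Sw W B), (f W - f B) ^ 2 with hq
  have hq0 : ∀ W, 0 ≤ q W := fun W => sum_nonneg (fun _ _ => sq_nonneg _)
  -- step 1
  have s1 : ∑ A ∈ Om d, ∑ B ∈ (Om d).filter (fun B => (symmDiff A B).card ≤ k), (f A - f B) ^ 2 ≤
      ∑ A ∈ Om d, M ^ k * ((2 ^ (k + 1)) * EZ d f A (4 * k)) := by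
    apply sum_le_sum
    intro A hA
    calc ∑ B ∈ (Om d).filter (fun B => (symmDiff A B).card ≤ k), (f A - f B) ^ 2
        ≤ ∑ B ∈ (Om d).filter (fun B => (symmDiff A B).card ≤ k),
            (2 ^ (k + 1)) * EZ d f A (4 * k) := by
          apply sum_le_sum
          intro B hB
          rw [mem_filter] at hB
          refine (near_path d f k A B hA hB.1 hB.2).trans ?_
          apply mul_le_mul_of_nonneg_right _ (EZ_nonneg d f A (4 * k))
          linarith only []
      _ = ((Om d).filter (fun B => (symmDiff A B).card ≤ k)).card *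
            ((2 ^ (k + 1)) * EZ d f A (4 * k)) := by rw [sum_const, nsmul_eq_mul]
      _ ≤ M ^ k * ((2 ^ (k + 1)) * EZ d f A (4 * k)) := by
          apply mul_le_mul_of_nonneg_right (card_ball A (Om d) k)
          apply mul_nonneg (by positivity) (EZ_nonneg d f A (4 * k))
  -- step 2
  have s2 : ∑ A ∈ Om d, EZ d f A (4 * k) ≤ M ^ (4 * k) * ∑ W ∈ Om d, q W := by
    have e1 : ∑ A ∈ Om d, EZ d f A (4 * k) =
        ∑ W ∈ Om d, ∑ A ∈ (Om d).filter (fun A => (symmDiff W A).card ≤ 4 * k), q W := by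
      unfold EZ
      simp only [sum_filter]
      rw [sum_comm]
      apply sum_congr rfl
      intro W _
      apply sum_congr rfl
      intro A _
      rw [symmDiff_comm A W]
      simp only [hq, sum_filter]
    rw [e1, mul_sum]
    apply sum_le_sum
    intro W _
    rw [sum_const, nsmul_eq_mul]
    exact mul_le_mul_of_nonneg_right (card_ball W (Om d) (4 * k)) (hq0 W)
  calc _ ≤ ∑ A ∈ Om d, M ^ k * ((2 ^ (k + 1)) * EZ d f A (4 * k)) := s1
    _ = M ^ k * 2 ^ (k + 1) * ∑ A ∈ Om d, EZ d f A (4 * k) := by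
        rw [mul_sum]; apply sum_congr rfl; intro A _; ring
    _ ≤ M ^ k * 2 ^ (k + 1) * (M ^ (4 * k) * ∑ W ∈ Om d, q W) := by
        apply mul_le_mul_of_nonneg_left s2; (clear * -; positivity)
    _ = _ := by
        rw [show 5 * k = k + 4 * k by ring, pow_add]; ring

end Vale.Agent.P335
end
end

section

section

namespace Vale.Agent.P335

open Finset

set_option linter.unusedSectionVars false

variable {V : Type*} [Fintype V] [DecidableEq V]

theorem mem_blk (p q : Finset V) (x y : V) :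
    s(x, y) ∈ blk p q ↔ (x ∈ p ∧ y ∈ q) ∨ (y ∈ p ∧ x ∈ q) := by
  simp only [blk, mem_image, mem_product, Prod.exists, Sym2.eq_iff]
  constructor
  · rintro ⟨a, b, ⟨ha, hb⟩, ⟨rfl, rfl⟩ | ⟨rfl, rfl⟩⟩
    · left; exact ⟨ha, hb⟩
    · right; exact ⟨ha, hb⟩
  · rintro (⟨h1, h2⟩ | ⟨h1, h2⟩)
    · exact ⟨x, y, ⟨h1, h2⟩, Or.inl ⟨rfl, rfl⟩⟩
    · exact ⟨y, x, ⟨h1, h2⟩, Or.inr ⟨rfl, rfl⟩⟩

theorem blk_comm (p q : Finset V) : blk p q = blk q p := by
  ext z
  induction z using Sym2.ind with
  | _ x y => rw [mem_blk, mem_blk]; tauto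

theorem blk_inj_aux {p q p' q' : Finset V} (hpq : Disjoint p q) (hpq' : Disjoint p' q')
    (hq : q.Nonempty) (h : blk p q = blk p' q') {a : V} (ha : a ∈ p) (ha' : a ∈ p') :
    p = p' ∧ q = q' := by
  have key : ∀ {p q p' q' : Finset V}, Disjoint p q → Disjoint p' q' → blk p q = blk p' q' →
      ∀ a, a ∈ p → a ∈ p' → q = q' := by
    intro p q p' q' hpq hpq' h a ha ha'
    ext y
    have h1 := mem_blk p q a y
    have h2 := mem_blk p' q' a y
    rw [h] at h1
    have n1 : a ∉ q := fun h => disjoint_left.mp hpq ha h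
    have n2 : a ∉ q' := fun h => disjoint_left.mp hpq' ha' h
    (clear * - h1 h2 n2 n1 ha ha'; tauto)
  have hqq := key hpq hpq' h a ha ha'
  subst hqq
  obtain ⟨b, hb⟩ := hq
  have := key hpq.symm hpq'.symm (by rw [blk_comm q p, h, blk_comm]) b hb hb
  exact ⟨this, rfl⟩

theorem blk_inj {p q p' q' : Finset V} (hpq : Disjoint p q) (hpq' : Disjoint p' q')
    (hp : p.Nonempty) (hq : q.Nonempty) (h : blk p q = blk p' q') :
    (p = p' ∧ q = q') ∨ (p = q' ∧ q = p') := by
  obtain ⟨a, ha⟩ := hp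
  obtain ⟨b, hb⟩ := hq
  have h1 : s(a, b) ∈ blk p q := by rw [mem_blk]; left; exact ⟨ha, hb⟩
  rw [h, mem_blk] at h1
  rcases h1 with ⟨h1, _⟩ | ⟨_, h2⟩
  · left; exact blk_inj_aux hpq hpq' ⟨b, hb⟩ h ha h1
  · right; exact blk_inj_aux hpq hpq'.symm ⟨b, hb⟩ (h.trans (blk_comm _ _)) ha h2

/-- a switch is a block flip -/
theorem symmDiff_blk_eq (A : Finset (Sym2 V)) {a b c e : V} (hab : a ≠ b) (hac : a ≠ c)
    (hbe : b ≠ e) (hce : c ≠ e) (h1 : s(a, b) ∈ A) (h2 : s(c, e) ∈ A)
    (h3 : s(a, c) ∉ A) (h4 : s(b, e) ∉ A) :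
    symmDiff A (blk {a, e} {b, c}) = (A \ {s(a, b), s(c, e)}) ∪ {s(a, c), s(b, e)} := by
  have hb : blk ({a, e} : Finset V) {b, c} = {s(a, b), s(c, e), s(a, c), s(b, e)} := by
    ext z
    induction z using Sym2.ind with
    | _ x y =>
      rw [mem_blk]
      simp only [mem_insert, mem_singleton, Sym2.eq_iff]
      (clear * -; tauto)
  rw [hb]
  have n1 : s(a, c) ≠ s(a, b) := fun h => h3 (h ▸ h1)
  have n2 : s(a, c) ≠ s(c, e) := fun h => h3 (h ▸ h2)
  have n3 : s(b, e) ≠ s(a, b) := fun h => h4 (h ▸ h1)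
  have n4 : s(b, e) ≠ s(c, e) := fun h => h4 (h ▸ h2)
  ext z
  simp only [mem_symmDiff, mem_union, mem_sdiff, mem_insert, mem_singleton, not_or]
  constructor
  · rintro (⟨h, h'⟩ | ⟨h, h'⟩)
    · left; exact ⟨h, h'.1, h'.2.1⟩
    · rcases h with rfl | rfl | rfl | rfl
      · exact absurd h1 h'
      · exact absurd h2 h'
      · right; left; rfl
      · right; right; rfl
  · rintro (⟨h, h'⟩ | rfl | rfl)
    · left
      refine ⟨h, h'.1, h'.2, ?_, ?_⟩
      · rintro rfl; exact h3 h
      · rintro rfl; exact h4 h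
    · right; exact ⟨Or.inr (Or.inr (Or.inl rfl)), h3⟩
    · right; exact ⟨Or.inr (Or.inr (Or.inr rfl)), h4⟩

theorem alt_of_switch (A : Finset (Sym2 V)) {a b c e : V} (hae : a ≠ e) (hbc : b ≠ c)
    (h1 : s(a, b) ∈ A) (h2 : s(c, e) ∈ A)
    (h3 : s(a, c) ∉ A) (h4 : s(b, e) ∉ A) : alt {a, e} {b, c} A := by
  have h2' : s(e, c) ∈ A := by rw [Sym2.eq_swap]; exact h2
  have h4' : s(e, b) ∉ A := by rw [Sym2.eq_swap]; exact h4
  constructor
  · intro x hx
    rw [mem_insert, mem_singleton] at hx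
    rcases hx with rfl | rfl
    · rw [filter_insert, if_pos h1, filter_singleton, if_neg h3]; simp
    · rw [filter_insert, if_neg h4', filter_singleton, if_pos h2']; simp
  · intro y hy
    rw [mem_insert, mem_singleton] at hy
    rcases hy with rfl | rfl
    · rw [filter_insert, if_pos h1, filter_singleton, if_neg h4']; simp
    · rw [filter_insert, if_neg h3, filter_singleton, if_pos h2']; simp

/-- every switch is some `flp` -/
theorem exists_flp_of_Sw {d : V → ℕ} (x y : St d) (h : Sw x.1 y.1) :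
    ∃ p q : Finset V, p.card = 2 ∧ q.card = 2 ∧ Disjoint p q ∧ flp p q x = y := by
  obtain ⟨a, b, c, e, hab, hac, hae, hbc, hbe, hce, h1, h2, h3, h4, hy⟩ := h
  refine ⟨{a, e}, {b, c}, card_pair hae, card_pair hbc, ?_, ?_⟩
  · rw [disjoint_left]
    intro v hv hv'
    simp only [mem_insert, mem_singleton] at hv hv'
    rcases hv with rfl | rfl
    · rcases hv' with h | h
      · exact hab h
      · exact hac h
    · rcases hv' with h | h
      · exact hbe h.symm
      · exact hce h.symm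
  · have hs := symmDiff_blk_eq x.1 hab hac hbe hce h1 h2 h3 h4
    have halt := alt_of_switch x.1 hae hbc h1 h2 h3 h4
    rw [← hy] at hs
    unfold flp
    have hm : symmDiff x.1 (blk {a, e} {b, c}) ∈ Om d := by rw [hs]; exact y.2
    rw [dif_pos ⟨halt, hm⟩]
    apply Subtype.ext
    exact hs

/-- conversely a nontrivial `flp` is a switch -/
theorem Sw_of_flp {d : V → ℕ} (x : St d) (p q : Finset V) (hp : p.card = 2) (hq : q.card = 2)
    (hpq : Disjoint p q) (h : flp p q x ≠ x) :
    Sw x.1 (flp p q x).1 ∧ symmDiff x.1 (flp p q x).1 = blk p q := by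
  by_cases hc : alt p q x.1 ∧ symmDiff x.1 (blk p q) ∈ Om d
  · have hf : (flp p q x).1 = symmDiff x.1 (blk p q) := by
      unfold flp; rw [dif_pos hc]
    rw [hf]
    refine ⟨?_, by rw [← symmDiff_assoc, symmDiff_self, bot_symmDiff]⟩
    obtain ⟨a, e, hae, rfl⟩ := card_eq_two.mp hp
    obtain ⟨ha, hb⟩ := hc.1
    have ha1 := ha a (by simp)
    obtain ⟨b, hb1⟩ := card_eq_one.mp ha1
    have hbm : b ∈ q ∧ s(a, b) ∈ x.1 := by
      have : b ∈ q.filter (fun y => s(a, y) ∈ x.1) := by rw [hb1]; simp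
      rw [mem_filter] at this; exact this
    -- the other element of `q`
    obtain ⟨c, hbc, hqe⟩ : ∃ c, b ≠ c ∧ q = {b, c} := by
      obtain ⟨u, v, huv, rfl⟩ := card_eq_two.mp hq
      have := hbm.1
      rw [mem_insert, mem_singleton] at this
      rcases this with rfl | rfl
      · exact ⟨v, huv, rfl⟩
      · exact ⟨u, huv.symm, pair_comm _ _⟩
    subst hqe
    have hac' : s(a, c) ∉ x.1 := by
      intro h
      have : c ∈ ({b, c} : Finset V).filter (fun y => s(a, y) ∈ x.1) := by
        rw [mem_filter]; exact ⟨by simp, h⟩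
      rw [hb1, mem_singleton] at this; exact hbc this.symm
    -- `b` has only `a`
    have hbe' : s(b, e) ∉ x.1 := by
      intro h
      have h1 := hb b (by simp)
      rw [filter_insert, if_pos hbm.2, filter_singleton,
        if_pos (by rw [Sym2.eq_swap]; exact h), card_pair hae] at h1
      omega
    have hce' : s(c, e) ∈ x.1 := by
      by_contra h
      have h1 := hb c (by simp)
      rw [filter_insert, if_neg hac', filter_singleton,
        if_neg (by rw [Sym2.eq_swap]; exact h)] at h1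
      simp at h1
    have hab : a ≠ b := by
      rintro rfl; exact disjoint_left.mp hpq (mem_insert_self _ _) (mem_insert_self _ _)
    have hac : a ≠ c := by
      rintro rfl; exact disjoint_left.mp hpq (mem_insert_self _ _) (by simp)
    have hbe : b ≠ e := by
      rintro rfl; exact disjoint_left.mp hpq (by simp) (mem_insert_self _ _)
    have hce : c ≠ e := by
      rintro rfl; exact disjoint_left.mp hpq (by simp) (by simp : c ∈ ({b, c} : Finset V))
    refine ⟨a, b, c, e, hab, hac, hae, hbc, hbe, hce, hbm.2, hce', hac', hbe', ?_⟩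
    exact symmDiff_blk_eq x.1 hab hac hbe hce hbm.2 hce' hac' hbe'
  · exfalso; apply h; unfold flp; rw [dif_neg hc]

/-- TASK RC1: connectivity (from `reduce_switch`). -/
theorem const_of_flp (d : V → ℕ) (f : St d → ℝ)
    (h : ∀ p q : Finset V, p.card = 2 → q.card = 2 → Disjoint p q → ∀ x, f (flp p q x) = f x)
    (x y : St d) : f x = f y := by
  have hSw : ∀ x y : St d, Sw x.1 y.1 → f x = f y := by
    intro x y hxy
    obtain ⟨p, q, hp, hq, hpq, hf⟩ := exists_flp_of_Sw x y hxy
    rw [← hf, h p q hp hq hpq x]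
  have key : ∀ (n : ℕ) (x y : St d), (symmDiff x.1 y.1).card ≤ n → f x = f y := by
    intro n
    induction n with
    | zero =>
      intro x y hn
      have h0 : symmDiff x.1 y.1 = ∅ := card_eq_zero.mp (Nat.le_zero.mp hn)
      have h1 : x.1 = y.1 := symmDiff_eq_bot.mp h0
      rw [Subtype.ext h1]
    | succ n ih =>
      intro x y hn
      by_cases hxy : x.1 = y.1
      · rw [Subtype.ext hxy]
      · rcases reduce_switch d x.1 y.1 x.2 y.2 hxy with ⟨W, hW, hS, hc⟩ | ⟨W, hW, hS, hc⟩
        · rw [hSw x ⟨W, hW⟩ hS]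
          exact ih ⟨W, hW⟩ y (by simp only; omega)
        · rw [hSw y ⟨W, hW⟩ hS]
          exact ih x ⟨W, hW⟩ (by simp only; omega)
  exact key _ x y le_rfl

/-- TASK RC2: the energy of all switches is at most the one counted by `Sw`. -/
theorem energy_le (d : V → ℕ) (f : Finset (Sym2 V) → ℝ) [DecidableRel (Sw (V := V))] :
    ∑ p ∈ Prs V, ∑ q ∈ (pᶜ).powersetCard 2, ∑ x : St d, (1 / 4) * (f x.1 - f (flp p q x).1) ^ 2 ≤
      (1 / 2) * ∑ A ∈ Om d, ∑ B ∈ (Om d).filter (fun B => Sw A B), (f A - f B) ^ 2 := by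
  classical
  rw [← Finset.sum_coe_sort (Om d) (fun A => ∑ B ∈ (Om d).filter (fun B => Sw A B), (f A - f B) ^ 2)]
  rw [Finset.sum_sigma', Finset.sum_comm, Finset.mul_sum]
  apply Finset.sum_le_sum
  intro x _
  set S : Finset (Σ _ : Finset V, Finset V) :=
    (Prs V).sigma (fun p => (pᶜ).powersetCard 2) with hS
  have memS : ∀ z, z ∈ S ↔ z.1.card = 2 ∧ z.2.card = 2 ∧ Disjoint z.1 z.2 := by
    intro z
    rw [hS, mem_sigma, Prs, mem_powersetCard, mem_powersetCard]
    constructor
    · rintro ⟨⟨_, h1⟩, h2, h3⟩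
      refine ⟨h1, h3, ?_⟩
      rw [disjoint_left]
      intro v hv hv'
      exact (mem_compl.mp (h2 hv')) hv
    · rintro ⟨h1, h2, h3⟩
      refine ⟨⟨subset_univ _, h1⟩, ?_, h2⟩
      intro v hv
      rw [mem_compl]
      exact fun h => disjoint_left.mp h3 h hv
  set T := S.filter (fun z => flp z.1 z.2 x ≠ x) with hT
  have e1 : ∑ z ∈ S, (1 / 4 : ℝ) * (f x.1 - f (flp z.1 z.2 x).1) ^ 2 =
      ∑ z ∈ T, (1 / 4 : ℝ) * (f x.1 - f (flp z.1 z.2 x).1) ^ 2 := by
    rw [hT, sum_filter]
    apply sum_congr rfl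
    intro z _
    by_cases h : flp z.1 z.2 x ≠ x
    · rw [if_pos h]
    · rw [if_neg h]; push Not at h; rw [h]; simp only [one_div, sub_self, ne_eq, OfNat.ofNat_ne_zero, not_false_eq_true, zero_pow, mul_zero]
  have hmaps : ∀ z ∈ T, (flp z.1 z.2 x).1 ∈ (Om d).filter (fun B => Sw x.1 B) := by
    intro z hz
    rw [hT, mem_filter, memS] at hz
    rw [mem_filter]
    exact ⟨(flp z.1 z.2 x).2, (Sw_of_flp x z.1 z.2 hz.1.1 hz.1.2.1 hz.1.2.2 hz.2).1⟩
  rw [e1, ← Finset.sum_fiberwise_of_maps_to hmaps, Finset.mul_sum]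
  apply Finset.sum_le_sum
  intro B hB
  have e2 : ∑ z ∈ T.filter (fun z => (flp z.1 z.2 x).1 = B),
      (1 / 4 : ℝ) * (f x.1 - f (flp z.1 z.2 x).1) ^ 2 =
      ((T.filter (fun z => (flp z.1 z.2 x).1 = B)).card : ℝ) * ((1 / 4) * (f x.1 - f B) ^ 2) := by
    rw [← nsmul_eq_mul, ← sum_const]
    apply sum_congr rfl
    intro z hz
    rw [mem_filter] at hz
    rw [hz.2]
  have hcard : (T.filter (fun z => (flp z.1 z.2 x).1 = B)).card ≤ 2 := by
    rcases (T.filter (fun z => (flp z.1 z.2 x).1 = B)).eq_empty_or_nonempty with h | ⟨z0, hz0⟩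
    · rw [h]; simp
    · have hsub : T.filter (fun z => (flp z.1 z.2 x).1 = B) ⊆ {z0, ⟨z0.2, z0.1⟩} := by
        intro z hz
        rw [mem_filter, hT, mem_filter, memS] at hz hz0
        have b0 := (Sw_of_flp x z0.1 z0.2 hz0.1.1.1 hz0.1.1.2.1 hz0.1.1.2.2 hz0.1.2).2
        have b1 := (Sw_of_flp x z.1 z.2 hz.1.1.1 hz.1.1.2.1 hz.1.1.2.2 hz.1.2).2
        rw [hz0.2] at b0
        rw [hz.2, b0] at b1
        have hne1 : z0.1.Nonempty := card_pos.mp (by omega)
        have hne2 : z0.2.Nonempty := card_pos.mp (by omega)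
        rw [mem_insert, mem_singleton]
        rcases blk_inj hz0.1.1.2.2 hz.1.1.2.2 hne1 hne2 b1 with ⟨h1, h2⟩ | ⟨h1, h2⟩
        · left; exact Sigma.ext h1.symm (heq_of_eq h2.symm)
        · right; exact Sigma.ext h2.symm (heq_of_eq h1.symm)
      exact (card_le_card hsub).trans card_le_two
  rw [e2]
  have hcard' : ((T.filter (fun z => (flp z.1 z.2 x).1 = B)).card : ℝ) ≤ 2 := by exact_mod_cast hcard
  nlinarith only [hcard']

end Vale.Agent.P335
end
end

section

section

namespace Vale.Agent.P335.RA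

open Finset

/-- number of columns of `N` whose odd row is `k` -/
def cnt {ι : Type*} (N : Finset ι) (y : ι → Fin 3) (k : Fin 3) : ℕ :=
  (N.filter (fun z => y z = k)).card

/-- Three-row states: the columns in `N1` have a single one, the columns in `N2` have a single
zero, `x ω z` is the odd row of the column `z`, and the row sums are prescribed. -/
structure Rows (Ω ι : Type*) [DecidableEq ι] where
  N1 : Finset ι
  N2 : Finset ι
  disj : Disjoint N1 N2
  x : Ω → ι → Fin 3
  ρ : Fin 3 → ℤ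
  inj : ∀ ω ω', (∀ z ∈ N1 ∪ N2, x ω z = x ω' z) → ω = ω'
  mem : ∀ ω k, (cnt N1 (x ω) k : ℤ) - cnt N2 (x ω) k = ρ k
  surj : ∀ y : ι → Fin 3, (∀ k, (cnt N1 y k : ℤ) - cnt N2 y k = ρ k) →
    ∃ ω, ∀ z ∈ N1 ∪ N2, x ω z = y z

section basics

variable {ι : Type*} [DecidableEq ι]

lemma cnt_perm (N : Finset ι) (y : ι → Fin 3) (k : Fin 3) (σ : Equiv.Perm ι)
    (h : ∀ u, u ∈ N ↔ σ u ∈ N) : cnt N (fun u => y (σ u)) k = cnt N y k := by
  unfold cnt
  apply Finset.card_equiv σ
  intro i
  simp only [mem_filter, h i]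

lemma cnt_congr (N : Finset ι) {y y' : ι → Fin 3} (k : Fin 3) (h : ∀ u ∈ N, (y u = k ↔ y' u = k)) :
    cnt N y k = cnt N y' k := by
  unfold cnt
  congr 1
  exact filter_congr h

lemma cnt_eq_sum (N : Finset ι) (y : ι → Fin 3) (k : Fin 3) :
    (cnt N y k : ℤ) = ∑ z ∈ N, (if y z = k then 1 else 0) := by
  unfold cnt
  simp

lemma cnt_move (N : Finset ι) (y y' : ι → Fin 3) (z : ι) (hz : z ∈ N)
    (h : ∀ u ∈ N, u ≠ z → y' u = y u) (j : Fin 3) :
    (cnt N y' j : ℤ) = cnt N y j - (if y z = j then 1 else 0) + (if y' z = j then 1 else 0) := by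
  rw [cnt_eq_sum, cnt_eq_sum, ← add_sum_erase N _ hz, ← add_sum_erase N _ hz]
  rw [sum_congr rfl (fun u hu => by
    rw [h u (mem_of_mem_erase hu) (ne_of_mem_erase hu)] :
    ∀ u ∈ N.erase z, (if y' u = j then (1 : ℤ) else 0) = (if y u = j then 1 else 0))]
  ring

lemma cnt_total (N : Finset ι) (y : ι → Fin 3) : cnt N y 0 + cnt N y 1 + cnt N y 2 = N.card := by
  have h := card_eq_sum_card_fiberwise (f := y) (s := N) (t := univ) (fun _ _ => by simp)
  rw [Fin.sum_univ_three] at h
  exact h.symm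

lemma swap_mem_iff (N : Finset ι) {z z' : ι} (h : (z ∈ N ↔ z' ∈ N)) (u : ι) :
    u ∈ N ↔ Equiv.swap z z' u ∈ N := by
  by_cases h1 : u = z
  · subst h1; simpa using h
  · by_cases h2 : u = z'
    · subst h2; simpa using h.symm
    · rw [Equiv.swap_apply_of_ne_of_ne h1 h2]

end basics

namespace Rows

variable {Ω ι : Type*} [DecidableEq ι] (R : Rows Ω ι)

/-- same type -/
def Same (z z' : ι) : Prop := (z ∈ R.N1 ∧ z' ∈ R.N1) ∨ (z ∈ R.N2 ∧ z' ∈ R.N2)

/-- agreement of the row `k` -/
def rel (k : Fin 3) : Setoid Ω where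
  r ω ω' := ∀ z ∈ R.N1 ∪ R.N2, (R.x ω z = k ↔ R.x ω' z = k)
  iseqv := ⟨fun _ _ _ => Iff.rfl, fun h z hz => (h z hz).symm,
    fun h h' z hz => (h z hz).trans (h' z hz)⟩

lemma rel_iff {k : Fin 3} {ω ω' : Ω} :
    R.rel k ω ω' ↔ ∀ z ∈ R.N1 ∪ R.N2, (R.x ω z = k ↔ R.x ω' z = k) := Iff.rfl

variable {R}

lemma Same.iff1 {z z' : ι} (h : R.Same z z') : (z ∈ R.N1 ↔ z' ∈ R.N1) := by
  rcases h with h | h
  · simp [h.1, h.2]
  · simp [disjoint_right.mp R.disj h.1, disjoint_right.mp R.disj h.2]

lemma Same.iff2 {z z' : ι} (h : R.Same z z') : (z ∈ R.N2 ↔ z' ∈ R.N2) := by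
  rcases h with h | h
  · simp [disjoint_left.mp R.disj h.1, disjoint_left.mp R.disj h.2]
  · simp [h.1, h.2]

lemma Same.mem_iff {z z' : ι} (h : R.Same z z') (u : ι) :
    u ∈ R.N1 ∪ R.N2 ↔ Equiv.swap z z' u ∈ R.N1 ∪ R.N2 := by
  simp only [mem_union]
  rw [swap_mem_iff R.N1 h.iff1 u, swap_mem_iff R.N2 h.iff2 u]

lemma Same.exists_swap {z z' : ι} (h : R.Same z z') (ω : Ω) :
    ∃ ω', ∀ u ∈ R.N1 ∪ R.N2, R.x ω' u = R.x ω (Equiv.swap z z' u) := by
  apply R.surj (fun u => R.x ω (Equiv.swap z z' u))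
  intro k
  rw [cnt_perm R.N1 (R.x ω) k _ (swap_mem_iff R.N1 h.iff1),
    cnt_perm R.N2 (R.x ω) k _ (swap_mem_iff R.N2 h.iff2)]
  exact R.mem ω k

/-- the swap of two columns of the same type -/
noncomputable def Same.sw {z z' : ι} (h : R.Same z z') : Equiv.Perm Ω :=
  Function.Involutive.toPerm (fun ω => Classical.choose (h.exists_swap ω)) (by
    intro ω
    apply R.inj
    intro u hu
    rw [Classical.choose_spec (h.exists_swap _) u hu,
      Classical.choose_spec (h.exists_swap ω) _ ((h.mem_iff u).1 hu), Equiv.swap_apply_self])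

lemma Same.sw_spec {z z' : ι} (h : R.Same z z') (ω : Ω) {u : ι} (hu : u ∈ R.N1 ∪ R.N2) :
    R.x (h.sw ω) u = R.x ω (Equiv.swap z z' u) :=
  Classical.choose_spec (h.exists_swap ω) u hu

lemma Same.sw_sw {z z' : ι} (h : R.Same z z') (ω : Ω) : h.sw (h.sw ω) = ω := by
  apply R.inj
  intro u hu
  rw [h.sw_spec _ hu, h.sw_spec _ ((h.mem_iff u).1 hu), Equiv.swap_apply_self]

lemma Same.left_mem {z z' : ι} (h : R.Same z z') : z ∈ R.N1 ∪ R.N2 := by
  rcases h with h | h
  · exact mem_union_left _ h.1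
  · exact mem_union_right _ h.1

lemma Same.right_mem {z z' : ι} (h : R.Same z z') : z' ∈ R.N1 ∪ R.N2 := by
  rcases h with h | h
  · exact mem_union_left _ h.2
  · exact mem_union_right _ h.2

lemma Same.rel_sw {z z' : ι} (h : R.Same z z') (k : Fin 3) (ω ω' : Ω) :
    R.rel k (h.sw ω) (h.sw ω') ↔ R.rel k ω ω' := by
  rw [rel_iff, rel_iff]
  constructor
  · intro H u hu
    have hu' := (h.mem_iff u).1 hu
    have := H _ hu'
    rwa [h.sw_spec _ hu', h.sw_spec _ hu', Equiv.swap_apply_self] at this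
  · intro H u hu
    rw [h.sw_spec _ hu, h.sw_spec _ hu]
    exact H _ ((h.mem_iff u).1 hu)

/-- if the statuses of `z` and `z'` in row `k` agree, the swap does not change row `k` -/
lemma Same.rel_self_sw {z z' : ι} (h : R.Same z z') (k : Fin 3) (ω : Ω)
    (hk : R.x ω z = k ↔ R.x ω z' = k) : R.rel k ω (h.sw ω) := by
  rw [rel_iff]
  intro u hu
  rw [h.sw_spec _ hu]
  by_cases h1 : u = z
  · subst h1; simpa using hk
  · by_cases h2 : u = z'
    · subst h2; simpa using hk.symm
    · rw [Equiv.swap_apply_of_ne_of_ne h1 h2]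

end Rows

end Vale.Agent.P335.RA
end
end

section

section

namespace Vale.Agent.P335

open Finset

/-- `H` arises from `G` by one switch: edges `ab`, `ce` are replaced by `ac`, `be`. -/
def SwitchAdj {n : ℕ} (G H : SimpleGraph (Fin n)) : Prop :=
  ∃ a b c e : Fin n, a ≠ b ∧ a ≠ c ∧ a ≠ e ∧ b ≠ c ∧ b ≠ e ∧ c ≠ e ∧
    G.Adj a b ∧ G.Adj c e ∧ ¬ G.Adj a c ∧ ¬ G.Adj b e ∧
    H = SimpleGraph.fromEdgeSet ((G.edgeSet \ {s(a, b), s(c, e)}) ∪ {s(a, c), s(b, e)})

open Classical in
/-- Poincare inequality with constant `K` for the (unnormalised) switch graph. -/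
def Poincare {n : ℕ} (d : Fin n → ℕ) (K : ℝ) : Prop :=
  ∀ f : Realization d → ℝ,
    ∑ G : Realization d, ∑ H : Realization d, (f G - f H) ^ 2 ≤
      K * (Fintype.card (Realization d) : ℝ) *
        ∑ G : Realization d, ∑ H : Realization d,
          (if SwitchAdj G.1 H.1 then (f G - f H) ^ 2 else 0)

end Vale.Agent.P335
end
end

section

section

namespace Vale.Agent.P335.RA

open Finset

variable {V : Type*} [Fintype V] [DecidableEq V]

/-- Symmetric zero-one integer matrices with zero diagonal and row sums `d`. -/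
def IsAdj (d : V → ℕ) (M : V → V → ℤ) : Prop :=
  (∀ i j, M i j = 0 ∨ M i j = 1) ∧ (∀ i j, M i j = M j i) ∧ (∀ i, M i i = 0) ∧
    ∀ i, ∑ j, M i j = (d i : ℤ)

/-- The state space, in matrix form. -/
abbrev St (d : V → ℕ) : Type _ := {M : V → V → ℤ // IsAdj d M}

instance instFiniteSt (d : V → ℕ) : Finite (St d) := by
  classical
  let F : St d → (V → V → Bool) := fun M i j => decide (M.1 i j = 1)
  refine Finite.of_injective F ?_
  intro M N h
  apply Subtype.ext
  funext i j
  have h1 : decide (M.1 i j = 1) = decide (N.1 i j = 1) := congrFun (congrFun h i) j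
  rw [decide_eq_decide] at h1
  rcases M.2.1 i j with hM | hM <;> rcases N.2.1 i j with hN | hN <;> simp_all

noncomputable instance instFintypeSt (d : V → ℕ) : Fintype (St d) := Fintype.ofFinite _

/-- Agreement off the set `Z` of (ordered) pairs. -/
def offRel {d : V → ℕ} (Z : V → V → Prop) : Setoid (St d) where
  r x y := ∀ i j, ¬ Z i j → x.1 i j = y.1 i j
  iseqv := ⟨fun _ _ _ _ => rfl, fun h i j hij => (h i j hij).symm,
    fun h h' i j hij => (h i j hij).trans (h' i j hij)⟩

/-- Pairs with exactly one element in `{a, c}`. -/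
def starPair (a c : V) (i j : V) : Prop :=
  ((i = a ∨ i = c) ∧ ¬ (j = a ∨ j = c)) ∨ ((j = a ∨ j = c) ∧ ¬ (i = a ∨ i = c))

/-- The class relation of the pair `{a, c}`: same edges except between `{a, c}` and the rest. -/
def pairRel {d : V → ℕ} (a c : V) : Setoid (St d) := offRel (starPair a c)

/-- The deviation operator of the pair `{a, c}`. -/
noncomputable def Dev {d : V → ℕ} (a c : V) (f : St d → ℝ) : St d → ℝ := cdev (pairRel a c) f

lemma starPair_comm (a c : V) : starPair a c = starPair c a := by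
  funext i j
  unfold starPair
  simp only [or_comm (a := i = a), or_comm (a := j = a)]

lemma pairRel_comm {d : V → ℕ} (a c : V) : (pairRel a c : Setoid (St d)) = pairRel c a := by
  unfold pairRel; rw [starPair_comm]

lemma Dev_comm {d : V → ℕ} (a c : V) (f : St d → ℝ) : Dev a c f = Dev c a f := by
  unfold Dev; rw [pairRel_comm]

end Vale.Agent.P335.RA
end
end

section

section

namespace Vale.Agent.P335.RA

open Finset

variable {V : Type*} [Fintype V] [DecidableEq V] {d : V → ℕ}

/-! ### Rectangle property for disjoint zones -/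

lemma offRel_iff {Z : V → V → Prop} {x y : St d} :
    (offRel Z : Setoid (St d)) x y ↔ ∀ i j, ¬ Z i j → x.1 i j = y.1 i j := Iff.rfl

lemma rect_of_disjoint {Z₁ Z₂ : V → V → Prop} (h : ∀ i j, ¬ (Z₁ i j ∧ Z₂ i j)) (x : St d) :
    Rect (offRel Z₁) (offRel Z₂) x := by
  classical
  intro y z hy hz
  rw [offRel_iff] at hy hz
  have hw : IsAdj d (fun i j => y.1 i j + z.1 i j - x.1 i j) := by
    refine ⟨fun i j => ?_, fun i j => ?_, fun i => ?_, fun i => ?_⟩
    · by_cases h1 : Z₁ i j
      · have h2 : ¬ Z₂ i j := fun h2 => h i j ⟨h1, h2⟩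
        have := hz i j h2
        rcases y.2.1 i j with h3 | h3
        · left; simp only; omega
        · right; simp only; omega
      · have := hy i j h1
        rcases z.2.1 i j with h3 | h3
        · left; simp only; omega
        · right; simp only; omega
    · have h1 := y.2.2.1 i j
      have h2 := z.2.2.1 i j
      have h3 := x.2.2.1 i j
      simp only; omega
    · have h1 := y.2.2.2.1 i
      have h2 := z.2.2.2.1 i
      have h3 := x.2.2.2.1 i
      simp only; omega
    · have h1 := y.2.2.2.2 i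
      have h2 := z.2.2.2.2 i
      have h3 := x.2.2.2.2 i
      rw [Finset.sum_sub_distrib, Finset.sum_add_distrib, h1, h2, h3]
      ring
  refine ⟨⟨_, hw⟩, ⟨?_, ?_⟩, ?_⟩
  · rw [offRel_iff]; intro i j hij
    have := hz i j hij
    simp only; omega
  · rw [offRel_iff]; intro i j hij
    have := hy i j hij
    simp only; omega
  · intro w' hw'
    rw [offRel_iff, offRel_iff] at hw'
    apply Subtype.ext
    funext i j
    by_cases h1 : Z₁ i j
    · have h2 : ¬ Z₂ i j := fun h2 => h i j ⟨h1, h2⟩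
      have e1 := hw'.1 i j h2
      have e2 := hz i j h2
      simp only; omega
    · have e1 := hw'.2 i j h1
      have e2 := hy i j h1
      simp only; omega

/-! ### Column sums are preserved by pair classes -/

lemma pairRel_colsum {a c : V} (hac : a ≠ c) {x y : St d} (h : (pairRel a c : Setoid (St d)) x y)
    {j : V} (hja : j ≠ a) (hjc : j ≠ c) : x.1 a j + x.1 c j = y.1 a j + y.1 c j := by
  classical
  have h1 := x.2.2.2.2 j
  have h2 := y.2.2.2.2 j
  have hx : ∑ i, x.1 j i = x.1 j a + x.1 j c + ∑ i ∈ (univ.erase a).erase c, x.1 j i := by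
    rw [← Finset.add_sum_erase _ _ (mem_univ a),
      ← Finset.add_sum_erase _ _ (Finset.mem_erase.mpr ⟨hac.symm, mem_univ c⟩)]
    ring
  have hy : ∑ i, y.1 j i = y.1 j a + y.1 j c + ∑ i ∈ (univ.erase a).erase c, y.1 j i := by
    rw [← Finset.add_sum_erase _ _ (mem_univ a),
      ← Finset.add_sum_erase _ _ (Finset.mem_erase.mpr ⟨hac.symm, mem_univ c⟩)]
    ring
  have h3 : ∑ i ∈ (univ.erase a).erase c, x.1 j i = ∑ i ∈ (univ.erase a).erase c, y.1 j i := by
    refine Finset.sum_congr rfl (fun i hi => ?_)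
    simp only [Finset.mem_erase] at hi
    apply h
    unfold starPair
    rintro (⟨h4, -⟩ | ⟨h4, -⟩)
    · rcases h4 with h4 | h4
      · exact hja h4
      · exact hjc h4
    · rcases h4 with h4 | h4
      · exact hi.2.1 h4
      · exact hi.1 h4
  have s1 := x.2.2.1 a j
  have s2 := x.2.2.1 c j
  have s3 := y.2.2.1 a j
  have s4 := y.2.2.1 c j
  omega

/-! ### The block matrix -/

/-- The matrix `u vᵀ + v uᵀ` with `u = 1_a - 1_c` and `v = 1_b - 1_e`. -/
def bm (a c b e : V) (i j : V) : ℤ :=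
  ((if i = a then 1 else 0) - (if i = c then 1 else 0)) *
    ((if j = b then 1 else 0) - (if j = e then 1 else 0)) +
  ((if i = b then 1 else 0) - (if i = e then 1 else 0)) *
    ((if j = a then 1 else 0) - (if j = c then 1 else 0))

lemma bm_symm (a c b e i j : V) : bm a c b e i j = bm a c b e j i := by
  unfold bm; ring

lemma bm_row (a c b e i : V) : ∑ j, bm a c b e i j = 0 := by
  classical
  unfold bm
  rw [Finset.sum_add_distrib, ← Finset.mul_sum, ← Finset.mul_sum, Finset.sum_sub_distrib,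
    Finset.sum_sub_distrib]
  simp only [sum_ite_eq', mem_univ, ↓reduceIte, sub_self, mul_zero, add_zero]

lemma bm_diag {a c b e : V} (hab : a ≠ b) (hae : a ≠ e) (hcb : c ≠ b) (hce : c ≠ e) (i : V) :
    bm a c b e i i = 0 := by
  unfold bm
  by_cases h1 : i = a
  · subst h1; simp [hab, hae]
  · by_cases h2 : i = c
    · subst h2; simp [hcb, hce]
    · simp [h1, h2]

/-- The block: one index in `{a, c}` and the other in `{b, e}`. -/
def blk (a c b e : V) (i j : V) : Prop :=
  ((i = a ∨ i = c) ∧ (j = b ∨ j = e)) ∨ ((i = b ∨ i = e) ∧ (j = a ∨ j = c))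

lemma bm_eq_zero {a c b e i j : V} (h : ¬ blk a c b e i j) : bm a c b e i j = 0 := by
  unfold blk at h
  unfold bm
  push Not at h
  obtain ⟨h1, h2⟩ := h
  by_cases hi : i = a ∨ i = c
  · have := h1 hi
    rw [if_neg this.1, if_neg this.2, sub_self, mul_zero, zero_add]
    by_cases hi' : i = b ∨ i = e
    · have := h2 hi'
      rw [if_neg this.1, if_neg this.2, sub_self, mul_zero]
    · push Not at hi'
      rw [if_neg hi'.1, if_neg hi'.2, sub_self, zero_mul]
  · push Not at hi
    rw [if_neg hi.1, if_neg hi.2, sub_self, zero_mul, zero_add]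
    by_cases hi' : i = b ∨ i = e
    · have := h2 hi'
      rw [if_neg this.1, if_neg this.2, sub_self, mul_zero]
    · push Not at hi'
      rw [if_neg hi'.1, if_neg hi'.2, sub_self, zero_mul]

/-- Four distinct vertices. -/
structure Four (a c b e : V) : Prop where
  ac : a ≠ c
  be : b ≠ e
  ab : a ≠ b
  ae : a ≠ e
  cb : c ≠ b
  ce : c ≠ e

lemma Four.swap {a c b e : V} (h : Four a c b e) : Four b e a c :=
  ⟨h.be, h.ac, h.ab.symm, h.cb.symm, h.ae.symm, h.ce.symm⟩

section
variable {a c b e : V} (h4 : Four a c b e)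
include h4

lemma bm_ab : bm a c b e a b = 1 := by
  unfold bm; simp [h4.ac, h4.be, h4.ab, h4.ae]

lemma bm_ae : bm a c b e a e = -1 := by
  unfold bm; simp [h4.ac, h4.be.symm, h4.ae, h4.ab]

lemma bm_cb : bm a c b e c b = -1 := by
  unfold bm; simp [h4.ac.symm, h4.be, h4.cb, h4.ce]

lemma bm_ce : bm a c b e c e = 1 := by
  unfold bm; simp [h4.ac.symm, h4.be.symm, h4.ce, h4.cb]

/-- Adding a multiple of the block matrix. -/
lemma isAdj_add_bm {M : V → V → ℤ} (hs : ∀ i j, M i j = M j i) (hd : ∀ i, M i i = 0)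
    (hr : ∀ i, ∑ j, M i j = (d i : ℤ)) (κ : ℤ)
    (h01 : ∀ i j, ¬ blk a c b e i j → M i j = 0 ∨ M i j = 1)
    (h1 : M a b + κ = 0 ∨ M a b + κ = 1) (h2 : M a e - κ = 0 ∨ M a e - κ = 1)
    (h3 : M c b - κ = 0 ∨ M c b - κ = 1) (h5 : M c e + κ = 0 ∨ M c e + κ = 1) :
    IsAdj d (fun i j => M i j + κ * bm a c b e i j) := by
  refine ⟨fun i j => ?_, fun i j => ?_, fun i => ?_, fun i => ?_⟩
  · by_cases hb : blk a c b e i j
    · have key : ∀ i j, ((i = a ∨ i = c) ∧ (j = b ∨ j = e)) →
          (M i j + κ * bm a c b e i j = 0 ∨ M i j + κ * bm a c b e i j = 1) := by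
        rintro i j ⟨rfl | rfl, rfl | rfl⟩
        · rw [bm_ab h4]; rcases h1 with h | h
          · left; omega
          · right; omega
        · rw [bm_ae h4]; rcases h2 with h | h
          · left; omega
          · right; omega
        · rw [bm_cb h4]; rcases h3 with h | h
          · left; omega
          · right; omega
        · rw [bm_ce h4]; rcases h5 with h | h
          · left; omega
          · right; omega
      rcases hb with hb | hb
      · exact key i j hb
      · simp only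
        rw [hs i j, bm_symm]
        exact key j i ⟨hb.2, hb.1⟩
    · simp only
      rw [bm_eq_zero hb, mul_zero, add_zero]
      exact h01 i j hb
  · simp only
    rw [hs i j, bm_symm]
  · simp only
    rw [hd i, bm_diag h4.ab h4.ae h4.cb h4.ce]; ring
  · rw [Finset.sum_add_distrib, ← Finset.mul_sum, bm_row, hr]; ring

end

/-! ### The number of ones in the block -/

/-- The number of ones in the block. -/
def mm (a c b e : V) (x : St d) : ℤ := x.1 a b + x.1 a e + x.1 c b + x.1 c e

lemma mm_swap (a c b e : V) (x : St d) : mm a c b e x = mm b e a c x := by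
  unfold mm
  rw [x.2.2.1 a b, x.2.2.1 a e, x.2.2.1 c b, x.2.2.1 c e]; ring

lemma mm_pairRel {a c b e : V} (h4 : Four a c b e) {x y : St d}
    (h : (pairRel a c : Setoid (St d)) x y) : mm a c b e x = mm a c b e y := by
  have h1 := pairRel_colsum h4.ac h h4.ab.symm h4.cb.symm
  have h2 := pairRel_colsum h4.ac h h4.ae.symm h4.ce.symm
  unfold mm; omega

lemma mm_pairRel' {a c b e : V} (h4 : Four a c b e) {x y : St d}
    (h : (pairRel b e : Setoid (St d)) x y) : mm a c b e x = mm a c b e y := by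
  rw [mm_swap, mm_swap a]
  exact mm_pairRel h4.swap h

lemma pairRel_entry {a c : V} {x y : St d} (h : (pairRel a c : Setoid (St d)) x y) {i j : V}
    (hij : ¬ starPair a c i j) : x.1 i j = y.1 i j := h i j hij

/-- Both stars meet exactly in the block. -/
lemma star_inter {a c b e : V} (h4 : Four a c b e) {i j : V} (h : ¬ blk a c b e i j) :
    ¬ (starPair a c i j ∧ starPair b e i j) := by
  unfold blk at h
  unfold starPair
  obtain ⟨h1, h2, h3, h5, h6, h7⟩ := h4
  rintro ⟨hp, hq⟩
  rcases hp with ⟨hp1, hp2⟩ | ⟨hp1, hp2⟩ <;> rcases hq with ⟨hq1, hq2⟩ | ⟨hq1, hq2⟩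
  · rcases hp1 with rfl | rfl <;> rcases hq1 with hq1 | hq1 <;> simp_all
  · exact h (Or.inl ⟨hp1, hq1⟩)
  · exact h (Or.inr ⟨hq1, hp1⟩)
  · rcases hp1 with rfl | rfl <;> rcases hq1 with hq1 | hq1 <;> simp_all

/-- A bit as an integer. -/
def bi (b : Bool) : ℤ := if b then 1 else 0

lemma exists_bi {x : ℤ} (h : x = 0 ∨ x = 1) : ∃ b, x = bi b := by
  rcases h with h | h
  · exact ⟨false, h⟩
  · exact ⟨true, h⟩

lemma block_dec : ∀ x1 x2 x3 x4 y1 y2 z1 z3 : Bool,
    (bi x1 + bi x3 - bi y1 = 0 ∨ bi x1 + bi x3 - bi y1 = 1) →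
    (bi x2 + bi x4 - bi y2 = 0 ∨ bi x2 + bi x4 - bi y2 = 1) →
    (bi x1 + bi x2 - bi z1 = 0 ∨ bi x1 + bi x2 - bi z1 = 1) →
    (bi x3 + bi x4 - bi z3 = 0 ∨ bi x3 + bi x4 - bi z3 = 1) →
    bi x1 + bi x2 + bi x3 + bi x4 ≠ 2 →
    ∃ k ∈ [(-1 : ℤ), 0, 1], (bi y1 + bi z1 - bi x1 + k = 0 ∨ bi y1 + bi z1 - bi x1 + k = 1) ∧
      (bi y2 + (bi x1 + bi x2 - bi z1) - bi x2 - k = 0 ∨
        bi y2 + (bi x1 + bi x2 - bi z1) - bi x2 - k = 1) ∧
      ((bi x1 + bi x3 - bi y1) + bi z3 - bi x3 - k = 0 ∨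
        (bi x1 + bi x3 - bi y1) + bi z3 - bi x3 - k = 1) ∧
      ((bi x2 + bi x4 - bi y2) + (bi x3 + bi x4 - bi z3) - bi x4 + k = 0 ∨
        (bi x2 + bi x4 - bi y2) + (bi x3 + bi x4 - bi z3) - bi x4 + k = 1) := by
  (clear * -; decide +kernel)

/-- The two-by-two integer lemma. -/
lemma block_exists {x1 x2 x3 x4 y1 y2 y3 y4 z1 z2 z3 z4 : ℤ}
    (hx1 : x1 = 0 ∨ x1 = 1) (hx2 : x2 = 0 ∨ x2 = 1) (hx3 : x3 = 0 ∨ x3 = 1)
    (hx4 : x4 = 0 ∨ x4 = 1) (hy1 : y1 = 0 ∨ y1 = 1) (hy2 : y2 = 0 ∨ y2 = 1)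
    (hy3 : y3 = 0 ∨ y3 = 1) (hy4 : y4 = 0 ∨ y4 = 1) (hz1 : z1 = 0 ∨ z1 = 1)
    (hz2 : z2 = 0 ∨ z2 = 1) (hz3 : z3 = 0 ∨ z3 = 1) (hz4 : z4 = 0 ∨ z4 = 1)
    (c1 : x1 + x3 = y1 + y3) (c2 : x2 + x4 = y2 + y4)
    (r1 : x1 + x2 = z1 + z2) (r2 : x3 + x4 = z3 + z4) (hm : x1 + x2 + x3 + x4 ≠ 2) :
    ∃ κ : ℤ, (y1 + z1 - x1 + κ = 0 ∨ y1 + z1 - x1 + κ = 1) ∧
      (y2 + z2 - x2 - κ = 0 ∨ y2 + z2 - x2 - κ = 1) ∧
      (y3 + z3 - x3 - κ = 0 ∨ y3 + z3 - x3 - κ = 1) ∧
      (y4 + z4 - x4 + κ = 0 ∨ y4 + z4 - x4 + κ = 1) := by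
  have e3 : y3 = x1 + x3 - y1 := by omega
  have e4 : y4 = x2 + x4 - y2 := by omega
  have e2 : z2 = x1 + x2 - z1 := by omega
  have e5 : z4 = x3 + x4 - z3 := by omega
  rw [e3] at hy3; rw [e4] at hy4; rw [e2] at hz2; rw [e5] at hz4
  rw [e3, e4, e2, e5]
  obtain ⟨b1, rfl⟩ := exists_bi hx1
  obtain ⟨b2, rfl⟩ := exists_bi hx2
  obtain ⟨b3, rfl⟩ := exists_bi hx3
  obtain ⟨b4, rfl⟩ := exists_bi hx4
  obtain ⟨b5, rfl⟩ := exists_bi hy1
  obtain ⟨b6, rfl⟩ := exists_bi hy2
  obtain ⟨b7, rfl⟩ := exists_bi hz1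
  obtain ⟨b8, rfl⟩ := exists_bi hz3
  obtain ⟨k, -, hk⟩ := block_dec b1 b2 b3 b4 b5 b6 b7 b8 hy3 hy4 hz2 hz4 hm
  exact ⟨k, hk⟩

/-- Rectangle property of the two pair relations away from the states with two ones. -/
lemma rect_pair {a c b e : V} (h4 : Four a c b e) {x : St d} (hm : mm a c b e x ≠ 2) :
    Rect (pairRel a c) (pairRel b e) x := by
  intro y z hy hz
  have c1 := pairRel_colsum h4.ac hy h4.ab.symm h4.cb.symm
  have c2 := pairRel_colsum h4.ac hy h4.ae.symm h4.ce.symm
  have r1 := pairRel_colsum h4.be hz h4.ab h4.ae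
  have r2 := pairRel_colsum h4.be hz h4.cb h4.ce
  rw [x.2.2.1 b a, x.2.2.1 e a, z.2.2.1 b a, z.2.2.1 e a] at r1
  rw [x.2.2.1 b c, x.2.2.1 e c, z.2.2.1 b c, z.2.2.1 e c] at r2
  have hm' : x.1 a b + x.1 a e + x.1 c b + x.1 c e ≠ 2 := hm
  obtain ⟨κ, k1, k2, k3, k5⟩ := block_exists (x.2.1 a b) (x.2.1 a e) (x.2.1 c b) (x.2.1 c e)
    (y.2.1 a b) (y.2.1 a e) (y.2.1 c b) (y.2.1 c e) (z.2.1 a b) (z.2.1 a e) (z.2.1 c b)
    (z.2.1 c e) c1 c2 r1 r2 hm'
  have hw : IsAdj d (fun i j => (y.1 i j + z.1 i j - x.1 i j) + κ * bm a c b e i j) := by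
    refine isAdj_add_bm h4 (fun i j => ?_) (fun i => ?_) (fun i => ?_) κ (fun i j hb => ?_)
      k1 k2 k3 k5
    · rw [y.2.2.1 i j, z.2.2.1 i j, x.2.2.1 i j]
    · rw [y.2.2.2.1 i, z.2.2.2.1 i, x.2.2.2.1 i]; ring
    · rw [Finset.sum_sub_distrib, Finset.sum_add_distrib, y.2.2.2.2 i, z.2.2.2.2 i,
        x.2.2.2.2 i]
      ring
    · have hs := star_inter h4 hb
      by_cases h1 : starPair a c i j
      · have h2 : ¬ starPair b e i j := fun h2 => hs ⟨h1, h2⟩
        have := hz i j h2
        rcases y.2.1 i j with h3 | h3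
        · left; omega
        · right; omega
      · have := hy i j h1
        rcases z.2.1 i j with h3 | h3
        · left; omega
        · right; omega
  have hblk1 : ∀ i j, ¬ starPair a c i j → bm a c b e i j = 0 := by
    intro i j hij
    apply bm_eq_zero
    intro hb
    apply hij
    obtain ⟨h1, h2, h3, h5, h6, h7⟩ := h4
    rcases hb with ⟨hb1, hb2⟩ | ⟨hb1, hb2⟩
    · refine Or.inl ⟨hb1, ?_⟩
      rcases hb2 with rfl | rfl
      · rintro (h | h)
        · exact h3 h.symm
        · exact h6 h.symm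
      · rintro (h | h)
        · exact h5 h.symm
        · exact h7 h.symm
    · refine Or.inr ⟨hb2, ?_⟩
      rcases hb1 with rfl | rfl
      · rintro (h | h)
        · exact h3 h.symm
        · exact h6 h.symm
      · rintro (h | h)
        · exact h5 h.symm
        · exact h7 h.symm
  have hblk2 : ∀ i j, ¬ starPair b e i j → bm a c b e i j = 0 := by
    intro i j hij
    apply bm_eq_zero
    intro hb
    apply hij
    obtain ⟨h1, h2, h3, h5, h6, h7⟩ := h4
    rcases hb with ⟨hb1, hb2⟩ | ⟨hb1, hb2⟩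
    · refine Or.inr ⟨hb2, ?_⟩
      rcases hb1 with rfl | rfl
      · rintro (h | h)
        · exact h3 h
        · exact h5 h
      · rintro (h | h)
        · exact h6 h
        · exact h7 h
    · refine Or.inl ⟨hb1, ?_⟩
      rcases hb2 with rfl | rfl
      · rintro (h | h)
        · exact h3 h
        · exact h5 h
      · rintro (h | h)
        · exact h6 h
        · exact h7 h
  refine ⟨⟨_, hw⟩, ⟨?_, ?_⟩, ?_⟩
  · intro i j hij
    have e1 := hz i j hij
    have e2 := hblk2 i j hij
    simp only [e2]; omega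
  · intro i j hij
    have e1 := hy i j hij
    have e2 := hblk1 i j hij
    simp only [e2]; omega
  · intro w' hw'
    -- column sums and row sums of w' on the block
    have d1 := pairRel_colsum h4.be hw'.1 h4.ab h4.ae
    have d2 := pairRel_colsum h4.be hw'.1 h4.cb h4.ce
    have d3 := pairRel_colsum h4.ac hw'.2 h4.ab.symm h4.cb.symm
    have d4 := pairRel_colsum h4.ac hw'.2 h4.ae.symm h4.ce.symm
    rw [y.2.2.1 b a, y.2.2.1 e a, w'.2.2.1 b a, w'.2.2.1 e a] at d1
    rw [y.2.2.1 b c, y.2.2.1 e c, w'.2.2.1 b c, w'.2.2.1 e c] at d2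
    have w1 := w'.2.1 a b
    have w2 := w'.2.1 a e
    have w3 := w'.2.1 c b
    have w5 := w'.2.1 c e
    have q1 : w'.1 a b = y.1 a b + z.1 a b - x.1 a b + κ ∧
        w'.1 a e = y.1 a e + z.1 a e - x.1 a e - κ ∧
        w'.1 c b = y.1 c b + z.1 c b - x.1 c b - κ ∧
        w'.1 c e = y.1 c e + z.1 c e - x.1 c e + κ := by
      clear hw hblk1 hblk2 hy hz hw'
      omega
    obtain ⟨q1, q2, q3, q5⟩ := q1
    apply Subtype.ext
    funext i j
    by_cases hb : blk a c b e i j
    · have key : ∀ i j, ((i = a ∨ i = c) ∧ (j = b ∨ j = e)) →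
          w'.1 i j = y.1 i j + z.1 i j - x.1 i j + κ * bm a c b e i j := by
        rintro i j ⟨rfl | rfl, rfl | rfl⟩
        · rw [bm_ab h4, q1]; ring
        · rw [bm_ae h4, q2]; ring
        · rw [bm_cb h4, q3]; ring
        · rw [bm_ce h4, q5]; ring
      rcases hb with hb | hb
      · exact key i j hb
      · have := key j i ⟨hb.2, hb.1⟩
        simp only
        rw [w'.2.2.1 i j, this, bm_symm, y.2.2.1 i j, z.2.2.1 i j, x.2.2.1 i j]
    · have hs := star_inter h4 hb
      have hz0 := bm_eq_zero hb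
      simp only [hz0]
      by_cases h1 : starPair a c i j
      · have h2 : ¬ starPair b e i j := fun h2 => hs ⟨h1, h2⟩
        have e1 := hz i j h2
        have e2 := hw'.1 i j h2
        omega
      · have e1 := hy i j h1
        have e2 := hw'.2 i j h1
        omega

end Vale.Agent.P335.RA
end
end

section

section

namespace Vale.Agent.P335.RA

open Finset

variable {V : Type*} [Fintype V] [DecidableEq V] {d : V → ℕ}

/-- The states on which the switch of the block `{a, c} × {b, e}` acts. -/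
def IsX (a c b e : V) (x : St d) : Prop :=
  Four a c b e ∧ x.1 a b = x.1 c e ∧ x.1 a e = x.1 c b ∧ x.1 a b ≠ x.1 a e

lemma IsX.four {a c b e : V} {x : St d} (h : IsX a c b e x) : Four a c b e := h.1

lemma IsX.swap {a c b e : V} {x : St d} (h : IsX a c b e x) : IsX b e a c x := by
  obtain ⟨h1, h2, h3, h5⟩ := h
  have e1 := x.2.2.1 a b
  have e2 := x.2.2.1 c e
  have e3 := x.2.2.1 a e
  have e4 := x.2.2.1 c b
  refine ⟨h1.swap, ?_, ?_, ?_⟩
  · omega
  · omega
  · intro h; apply h5; omega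

lemma isX_swap {a c b e : V} {x : St d} : IsX a c b e x ↔ IsX b e a c x :=
  ⟨IsX.swap, IsX.swap⟩

lemma isAdj_sw {a c b e : V} {x : St d} (h : IsX a c b e x) :
    IsAdj d (fun i j => x.1 i j + (x.1 a e - x.1 a b) * bm a c b e i j) := by
  obtain ⟨h4, h1, h2, h3⟩ := h
  have w1 := x.2.1 a b
  have w2 := x.2.1 a e
  have w3 := x.2.1 c b
  have w5 := x.2.1 c e
  refine isAdj_add_bm h4 x.2.2.1 x.2.2.2.1 x.2.2.2.2 _ (fun i j _ => x.2.1 i j) ?_ ?_ ?_ ?_
  · omega
  · omega
  · omega
  · omega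

open Classical in
/-- The switch of the block `{a, c} × {b, e}`. -/
noncomputable def swp (a c b e : V) (x : St d) : St d :=
  if h : IsX a c b e x then
    ⟨fun i j => x.1 i j + (x.1 a e - x.1 a b) * bm a c b e i j, isAdj_sw h⟩
  else x

lemma swp_of_not {a c b e : V} {x : St d} (h : ¬ IsX a c b e x) : swp a c b e x = x := by
  unfold swp; rw [dif_neg h]

lemma swp_val {a c b e : V} {x : St d} (h : IsX a c b e x) :
    (swp a c b e x).1 = fun i j => x.1 i j + (x.1 a e - x.1 a b) * bm a c b e i j := by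
  unfold swp; rw [dif_pos h]

lemma swp_ab {a c b e : V} {x : St d} (h : IsX a c b e x) : (swp a c b e x).1 a b = x.1 a e := by
  rw [swp_val h]; simp only [bm_ab h.1]; ring

lemma swp_ae {a c b e : V} {x : St d} (h : IsX a c b e x) : (swp a c b e x).1 a e = x.1 a b := by
  rw [swp_val h]; simp only [bm_ae h.1]; ring

lemma swp_cb {a c b e : V} {x : St d} (h : IsX a c b e x) : (swp a c b e x).1 c b = x.1 a b := by
  rw [swp_val h]; simp only [bm_cb h.1]; rw [h.2.2.1]; ring

lemma swp_ce {a c b e : V} {x : St d} (h : IsX a c b e x) : (swp a c b e x).1 c e = x.1 a e := by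
  rw [swp_val h]; simp only [bm_ce h.1]; rw [h.2.1]; ring

lemma swp_off {a c b e : V} (x : St d) {i j : V} (hb : ¬ blk a c b e i j) :
    (swp a c b e x).1 i j = x.1 i j := by
  by_cases h : IsX a c b e x
  · rw [swp_val h]; simp only [bm_eq_zero hb]; ring
  · rw [swp_of_not h]

lemma isX_swp {a c b e : V} {x : St d} (h : IsX a c b e x) : IsX a c b e (swp a c b e x) := by
  refine ⟨h.1, ?_, ?_, ?_⟩
  · rw [swp_ab h, swp_ce h]
  · rw [swp_ae h, swp_cb h]
  · rw [swp_ab h, swp_ae h]; exact h.2.2.2.symm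

lemma swp_swp (a c b e : V) (x : St d) : swp a c b e (swp a c b e x) = x := by
  by_cases h : IsX a c b e x
  · apply Subtype.ext
    rw [swp_val (isX_swp h), swp_ae h, swp_ab h, swp_val h]
    funext i j
    ring
  · rw [swp_of_not h, swp_of_not h]

lemma isX_swp_iff {a c b e : V} {x : St d} : IsX a c b e (swp a c b e x) ↔ IsX a c b e x := by
  by_cases h : IsX a c b e x
  · exact ⟨fun _ => h, fun _ => isX_swp h⟩
  · rw [swp_of_not h]

/-- The switch as a permutation of the states. -/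
noncomputable def swE (a c b e : V) : Equiv.Perm (St d) :=
  ⟨swp a c b e, swp a c b e, swp_swp a c b e, swp_swp a c b e⟩

@[simp] lemma swE_apply (a c b e : V) (x : St d) : swE a c b e x = swp a c b e x := rfl

lemma bm_swap (a c b e i j : V) : bm a c b e i j = bm b e a c i j := by
  unfold bm; ring

lemma swp_swap (a c b e : V) (x : St d) : swp b e a c x = swp a c b e x := by
  by_cases h : IsX a c b e x
  · apply Subtype.ext
    rw [swp_val h, swp_val h.swap]
    funext i j
    simp only [bm_swap b e a c]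
    have e1 := x.2.2.1 a b
    have e2 := x.2.2.1 b c
    have e3 := h.2.2.1
    rw [← e1, e2, ← e3]
  · rw [swp_of_not h, swp_of_not (fun h' => h h'.swap)]

lemma blk_star {a c b e : V} (h4 : Four a c b e) {i j : V} (h : blk a c b e i j) :
    starPair a c i j := by
  obtain ⟨h1, h2, h3, h5, h6, h7⟩ := h4
  rcases h with ⟨hb1, hb2⟩ | ⟨hb1, hb2⟩
  · refine Or.inl ⟨hb1, ?_⟩
    rcases hb2 with rfl | rfl
    · rintro (h | h)
      · exact h3 h.symm
      · exact h6 h.symm
    · rintro (h | h)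
      · exact h5 h.symm
      · exact h7 h.symm
  · refine Or.inr ⟨hb2, ?_⟩
    rcases hb1 with rfl | rfl
    · rintro (h | h)
      · exact h3 h.symm
      · exact h6 h.symm
    · rintro (h | h)
      · exact h5 h.symm
      · exact h7 h.symm

lemma pairRel_swp (a c b e : V) (x : St d) : (pairRel a c : Setoid (St d)) x (swp a c b e x) := by
  by_cases h : IsX a c b e x
  · intro i j hij
    exact (swp_off x (fun hb => hij (blk_star h.1 hb))).symm
  · rw [swp_of_not h]

lemma pairRel_swp' (a c b e : V) (x : St d) :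
    (pairRel b e : Setoid (St d)) x (swp a c b e x) := by
  rw [← swp_swap]; exact pairRel_swp b e a c x

/-- Half the difference along the switch. -/
noncomputable def Pi2 (a c b e : V) (f : St d → ℝ) : St d → ℝ :=
  fun x => (f x - f (swp a c b e x)) / 2

/-- The average along the switch. -/
noncomputable def Sym2' (a c b e : V) (f : St d → ℝ) : St d → ℝ :=
  fun x => (f x + f (swp a c b e x)) / 2

lemma Pi2_swap (a c b e : V) (f : St d → ℝ) : Pi2 b e a c f = Pi2 a c b e f := by
  funext x; unfold Pi2; rw [swp_swap]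

lemma Pi2_of_not_four {a c b e : V} (h : ¬ Four a c b e) (f : St d → ℝ) :
    Pi2 a c b e f = 0 := by
  funext x; unfold Pi2
  rw [swp_of_not (fun h' => h h'.1)]; simp

/-- The refinement of the class relation of `{a, c}` by the set `IsX a c b e`. -/
def xRel {d : V → ℕ} (a c b e : V) : Setoid (St d) where
  r x y := (pairRel a c : Setoid (St d)) x y ∧ (IsX a c b e x ↔ IsX a c b e y)
  iseqv := ⟨fun x => ⟨Setoid.refl' _ x, Iff.rfl⟩, fun h => ⟨Setoid.symm' _ h.1, h.2.symm⟩,
    fun h h' => ⟨Setoid.trans' _ h.1 h'.1, h.2.trans h'.2⟩⟩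

/-- The difference on `IsX a c b e` between the average over the `{a, c}`-class intersected with
`IsX a c b e` and the average over the whole `{a, c}`-class. -/
noncomputable def xdiff (a c b e : V) (f : St d → ℝ) : St d → ℝ :=
  res (IsX a c b e) (cavg (xRel a c b e) f - cavg (pairRel a c) f)

lemma xdiff_of_not_four {a c b e : V} (h : ¬ Four a c b e) (f : St d → ℝ) :
    xdiff a c b e f = 0 := by
  classical
  funext x
  unfold xdiff res
  rw [if_neg (fun h' => h h'.1)]; rfl

end Vale.Agent.P335.RA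
end
end

section

section

namespace Vale.Agent.P335.RA

open Finset

section abstract

variable {Ω : Type*} [Fintype Ω]

/-- Half the difference along a permutation. -/
noncomputable def hdif (σ : Equiv.Perm Ω) (f : Ω → ℝ) : Ω → ℝ := fun x => (f x - f (σ x)) / 2

/-- The average along a permutation. -/
noncomputable def hsym (σ : Equiv.Perm Ω) (f : Ω → ℝ) : Ω → ℝ := fun x => (f x + f (σ x)) / 2

lemma hdif_eq (σ : Equiv.Perm Ω) (f : Ω → ℝ) : hdif σ f = (1 / 2 : ℝ) • (f - f ∘ σ) := by
  funext x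
  simp only [hdif, Pi.smul_apply, Pi.sub_apply, Function.comp_apply, smul_eq_mul]
  ring

lemma hsym_eq (σ : Equiv.Perm Ω) (f : Ω → ℝ) : hsym σ f = (1 / 2 : ℝ) • (f + f ∘ σ) := by
  funext x
  simp only [hsym, Pi.smul_apply, Pi.add_apply, Function.comp_apply, smul_eq_mul]
  ring

lemma hdif_add (σ : Equiv.Perm Ω) (f g : Ω → ℝ) : hdif σ (f + g) = hdif σ f + hdif σ g := by
  funext x
  simp only [hdif, Pi.add_apply]
  ring

lemma cavg_hdif {r : Setoid Ω} {σ : Equiv.Perm Ω} (h : ∀ x y, r (σ x) (σ y) ↔ r x y)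
    (f : Ω → ℝ) : cavg r (hdif σ f) = hdif σ (cavg r f) := by
  rw [hdif_eq, hdif_eq, cavg_smul, cavg_sub, cavg_comp_perm σ h]

lemma cavg_hsym {r : Setoid Ω} {σ : Equiv.Perm Ω} (h : ∀ x y, r (σ x) (σ y) ↔ r x y)
    (f : Ω → ℝ) : cavg r (hsym σ f) = hsym σ (cavg r f) := by
  rw [hsym_eq, hsym_eq, cavg_smul, cavg_add, cavg_comp_perm σ h]

lemma hdif_cavg {s : Setoid Ω} {σ : Equiv.Perm Ω} (h : ∀ x, s x (σ x)) (f : Ω → ℝ) :
    hdif σ (cavg s f) = 0 := by
  funext x
  simp only [hdif, Pi.zero_apply]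
  rw [cavg_congr (h x) f, sub_self, zero_div]

/-- Half differences contract. -/
lemma ip_hdif_le (σ : Equiv.Perm Ω) (f : Ω → ℝ) : ip (hdif σ f) (hdif σ f) ≤ ip f f := by
  have h1 : ip (hdif σ f) (hdif σ f) + ip (hsym σ f) (hsym σ f) =
      (1 / 2) * (ip f f + ip (f ∘ σ) (f ∘ σ)) := by
    unfold ip hdif hsym
    rw [← Finset.sum_add_distrib, ← Finset.sum_add_distrib, Finset.mul_sum]
    refine Finset.sum_congr rfl (fun x _ => ?_)
    simp only [Function.comp_apply]
    ring
  rw [ip_comp_perm] at h1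
  have := ip_self_nonneg (hsym σ f)
  linarith only [h1, this]

/-- The quadratic form of the pair inequality. -/
noncomputable def qf (r s : Setoid Ω) (σ : Equiv.Perm Ω) (f : Ω → ℝ) : ℝ :=
  ip (cdev r f) (cdev s f) - ip (hdif σ f) (hdif σ f)

lemma qf_comm (r s : Setoid Ω) (σ : Equiv.Perm Ω) (f : Ω → ℝ) : qf r s σ f = qf s r σ f := by
  unfold qf; rw [ip_comm]

/-- Averaging over a subrelation of `r` commuting with `s` and with the switch decreases the
form. -/
lemma qf_step {ra r s : Setoid Ω} {σ : Equiv.Perm Ω} (h1 : ∀ x y, ra x y → r x y)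
    (h2 : ∀ f : Ω → ℝ, cavg ra (cavg s f) = cavg s (cavg ra f))
    (h3 : ∀ x y, ra (σ x) (σ y) ↔ ra x y) (h5 : ∀ x, s x (σ x)) (f : Ω → ℝ) :
    qf r s σ (cavg ra f) ≤ qf r s σ f := by
  set h : Ω → ℝ := cdev ra f with hh
  have hf : f = cavg ra f + h := by rw [hh]; unfold cdev; ring
  have hah : cavg ra h = 0 := cavg_cdev ra f
  have hrh : cavg r h = 0 := by
    rw [← cavg_cavg_of_ge h1, hah]
    exact cavg_const r 0
  have hDh : cdev r h = h := by unfold cdev; rw [hrh, sub_zero]
  have hcs : ∀ g : Ω → ℝ, cavg ra (cdev s g) = cdev s (cavg ra g) := by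
    intro g; unfold cdev; rw [cavg_sub, h2]
  have t1 : ip (cdev r h) (cdev s (cavg ra f)) = 0 := by
    rw [hDh, ← hcs, ← ip_cavg, hah]
    unfold ip; simp only [Pi.zero_apply, zero_mul, sum_const_zero]
  have t2 : ip (cdev r (cavg ra f)) (cdev s h) = 0 := by
    have e : cdev r (cavg ra f) = cavg ra (cdev r f) := by
      unfold cdev
      rw [cavg_sub, cavg_cavg_of_ge h1, cavg_cavg_of_le h1]
    rw [e, ip_cavg, hcs, hah]
    have : cdev s (0 : Ω → ℝ) = 0 := by
      unfold cdev
      rw [show cavg s (0 : Ω → ℝ) = 0 from cavg_const s 0, sub_zero]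
    rw [this]
    unfold ip; simp only [Pi.zero_apply, mul_zero, sum_const_zero]
  have t3 : ip (cdev r h) (cdev s h) = ip (cdev s h) (cdev s h) := by
    rw [hDh, ip_cdev_self]
  have t4 : ip (cdev r f) (cdev s f) = ip (cdev r (cavg ra f)) (cdev s (cavg ra f)) +
      ip (cdev s h) (cdev s h) := by
    conv_lhs => rw [hf]
    rw [cdev_add, cdev_add, ip_add_left, ip_add_right, ip_add_right, t1, t2, t3]
    ring
  have u1 : ip (hdif σ (cavg ra f)) (hdif σ h) = 0 := by
    rw [← cavg_hdif h3, ip_cavg, cavg_hdif h3, hah]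
    unfold ip hdif; simp
  have u2 : ip (hdif σ f) (hdif σ f) = ip (hdif σ (cavg ra f)) (hdif σ (cavg ra f)) +
      ip (hdif σ h) (hdif σ h) := by
    conv_lhs => rw [hf]
    rw [hdif_add, ip_add_left, ip_add_right, ip_add_right, u1, ip_comm (hdif σ h), u1]
    ring
  have u3 : hdif σ h = hdif σ (cdev s h) := by
    have e : h = cavg s h + cdev s h := by unfold cdev; ring
    conv_lhs => rw [e]
    rw [hdif_add, hdif_cavg h5, zero_add]
  have u4 := ip_hdif_le σ (cdev s h)
  unfold qf
  rw [t4, u2, u3]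
  linarith only [u4]

/-- Positivity away from the bad set. -/
lemma ip_res_nonneg {r s : Setoid Ω} {A : Ω → Prop} (hA : ∀ x, A x → Rect r s x)
    (hr : ∀ x y, r x y → A x → A y) (hs : ∀ x y, s x y → A x → A y) (f : Ω → ℝ) :
    0 ≤ ip (res A (cdev r f)) (res A (cdev s f)) := by
  classical
  rw [← cdev_res hr, ← cdev_res hs]
  apply ip_cdev_cdev_nonneg_of_comm
  rw [cavg_res hs, cavg_res hr, cavg_res hr, cavg_res hs]
  funext x
  unfold res
  by_cases hx : A x
  · rw [if_pos hx, if_pos hx]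
    exact cavg_comm_at hA hr hs f hx
  · rw [if_neg hx, if_neg hx]

/-- Pairing the states along an involution. -/
lemma pairing_bound (σ : Equiv.Perm Ω) (hσ : ∀ x, σ (σ x) = x) (X : Ω → Prop)
    (hX : ∀ x, X (σ x) ↔ X x) (f P Q : Ω → ℝ) (hP : ∀ x, P (σ x) = P x)
    (hQ : ∀ x, Q (σ x) = Q x) :
    -(1 / 2) * ip (res X (hsym σ f - P)) (res X (hsym σ f - P)) -
      (1 / 2) * ip (res X (hsym σ f - Q)) (res X (hsym σ f - Q)) ≤
    ip (res X (f - P)) (res X (f - Q)) - ip (res X (hdif σ f)) (res X (hdif σ f)) := by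
  classical
  set F : Ω → ℝ := fun x => res X (f - P) x * res X (f - Q) x -
    res X (hdif σ f) x * res X (hdif σ f) x with hF
  have h1 : ip (res X (f - P)) (res X (f - Q)) - ip (res X (hdif σ f)) (res X (hdif σ f)) =
      ∑ x, F x := by
    unfold ip; rw [← Finset.sum_sub_distrib]
  have h2 : ∑ x, F (σ x) = ∑ x, F x := Equiv.sum_comp σ F
  have h3 : ∑ x, F x = ∑ x, (F x + F (σ x)) / 2 := by
    rw [← Finset.sum_div, Finset.sum_add_distrib, h2]; ring
  rw [h1, h3]
  unfold ip
  rw [Finset.mul_sum, Finset.mul_sum, ← Finset.sum_sub_distrib]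
  refine Finset.sum_le_sum (fun x _ => ?_)
  rw [hF]
  simp only [res, hX, Pi.sub_apply, hdif, hsym, hP, hQ, hσ]
  by_cases hx : X x
  · simp only [hx, if_true]
    nlinarith only [sq_nonneg ((f x + f (σ x)) / 2 - P x + ((f x + f (σ x)) / 2 - Q x))]
  · simp [hx]

end abstract

variable {V : Type*} [Fintype V] [DecidableEq V] {d : V → ℕ}

lemma blk_swap {a c b e i j : V} : blk a c b e i j ↔ blk b e a c i j := by
  unfold blk; tauto

/-- Agreement off the edges from `{a, c}` to the vertices outside `{a, c, b, e}`. -/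
def oRel {d : V → ℕ} (a c b e : V) : Setoid (St d) :=
  offRel (fun i j => starPair a c i j ∧ ¬ blk a c b e i j)

lemma oRel_le {a c b e : V} (x y : St d) (h : (oRel a c b e : Setoid (St d)) x y) :
    (pairRel a c : Setoid (St d)) x y :=
  fun i j hij => h i j (fun h' => hij h'.1)

lemma oRel_blk {a c b e : V} {x y : St d} (h : (oRel a c b e : Setoid (St d)) x y) {i j : V}
    (hb : blk a c b e i j) : x.1 i j = y.1 i j :=
  h i j (fun h' => h'.2 hb)

lemma oRel_swp_aux {a c b e : V} {x y : St d} (h : (oRel a c b e : Setoid (St d)) x y) :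
    (oRel a c b e : Setoid (St d)) (swp a c b e x) (swp a c b e y) := by
  have hX : IsX a c b e x ↔ IsX a c b e y := by
    have e1 := oRel_blk h (i := a) (j := b) (Or.inl ⟨Or.inl rfl, Or.inl rfl⟩)
    have e2 := oRel_blk h (i := a) (j := e) (Or.inl ⟨Or.inl rfl, Or.inr rfl⟩)
    have e3 := oRel_blk h (i := c) (j := b) (Or.inl ⟨Or.inr rfl, Or.inl rfl⟩)
    have e4 := oRel_blk h (i := c) (j := e) (Or.inl ⟨Or.inr rfl, Or.inr rfl⟩)
    unfold IsX
    rw [e1, e2, e3, e4]
  by_cases hx : IsX a c b e x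
  · have e1 := oRel_blk h (i := a) (j := b) (Or.inl ⟨Or.inl rfl, Or.inl rfl⟩)
    have e2 := oRel_blk h (i := a) (j := e) (Or.inl ⟨Or.inl rfl, Or.inr rfl⟩)
    intro i j hij
    rw [swp_val hx, swp_val (hX.mp hx)]
    simp only
    rw [e1, e2, h i j hij]
  · rw [swp_of_not hx, swp_of_not (fun h' => hx (hX.mpr h'))]
    exact h

lemma oRel_swp {a c b e : V} (x y : St d) :
    (oRel a c b e : Setoid (St d)) (swE a c b e x) (swE a c b e y) ↔
      (oRel a c b e : Setoid (St d)) x y := by
  constructor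
  · intro h
    have := oRel_swp_aux h
    simpa only [swE_apply, swp_swp] using this
  · exact oRel_swp_aux

lemma oRel_isX {a c b e : V} {x y : St d} (h : (oRel a c b e : Setoid (St d)) x y)
    (hx : IsX a c b e x) : IsX a c b e y := by
  have e1 := oRel_blk h (i := a) (j := b) (Or.inl ⟨Or.inl rfl, Or.inl rfl⟩)
  have e2 := oRel_blk h (i := a) (j := e) (Or.inl ⟨Or.inl rfl, Or.inr rfl⟩)
  have e3 := oRel_blk h (i := c) (j := b) (Or.inl ⟨Or.inr rfl, Or.inl rfl⟩)
  have e4 := oRel_blk h (i := c) (j := e) (Or.inl ⟨Or.inr rfl, Or.inr rfl⟩)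
  unfold IsX at hx ⊢
  rw [← e1, ← e2, ← e3, ← e4]
  exact hx

lemma swE_swap (a c b e : V) : (swE b e a c : Equiv.Perm (St d)) = swE a c b e := by
  ext x : 1
  exact swp_swap a c b e x

/-- `oRel a c b e` commutes with the class relation of `{b, e}`. -/
lemma oRel_comm {a c b e : V} (h4 : Four a c b e) (f : St d → ℝ) :
    cavg (oRel a c b e) (cavg (pairRel b e) f) = cavg (pairRel b e) (cavg (oRel a c b e) f) := by
  apply cavg_comm
  intro x
  apply rect_of_disjoint
  rintro i j ⟨⟨h1, h2⟩, h3⟩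
  exact star_inter h4 h2 ⟨h1, h3⟩

lemma oRel_comm' {a c b e : V} (h4 : Four a c b e) (f : St d → ℝ) :
    cavg (oRel a c b e) (cavg (oRel b e a c) f) = cavg (oRel b e a c) (cavg (oRel a c b e) f) := by
  apply cavg_comm
  intro x
  apply rect_of_disjoint
  rintro i j ⟨⟨h1, h2⟩, h3, h5⟩
  exact star_inter h4 h2 ⟨h1, h3⟩

lemma mm_of_isX {a c b e : V} {x : St d} (h : IsX a c b e x) : mm a c b e x = 2 := by
  obtain ⟨h4, h1, h2, h3⟩ := h
  have w1 := x.2.1 a b
  have w2 := x.2.1 a e
  unfold mm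
  omega

/-- On a column-full state the `{a, c}` class is an `oRel` class. -/
lemma oRel_of_full {a c b e : V} (h4 : Four a c b e) {x y : St d}
    (hb : x.1 a b = x.1 c b) (he : x.1 a e = x.1 c e)
    (h : (pairRel a c : Setoid (St d)) x y) : (oRel a c b e : Setoid (St d)) x y := by
  have c1 := pairRel_colsum h4.ac h h4.ab.symm h4.cb.symm
  have c2 := pairRel_colsum h4.ac h h4.ae.symm h4.ce.symm
  have w1 := x.2.1 a b
  have w2 := x.2.1 a e
  have v1 := y.2.1 a b
  have v2 := y.2.1 a e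
  have v3 := y.2.1 c b
  have v5 := y.2.1 c e
  have q : x.1 a b = y.1 a b ∧ x.1 a e = y.1 a e ∧ x.1 c b = y.1 c b ∧ x.1 c e = y.1 c e := by
    omega
  obtain ⟨q1, q2, q3, q5⟩ := q
  intro i j hij
  by_cases h1 : starPair a c i j
  · have h2 : blk a c b e i j := by
      by_contra h2; exact hij ⟨h1, h2⟩
    rcases h2 with ⟨rfl | rfl, rfl | rfl⟩ | ⟨rfl | rfl, rfl | rfl⟩
    · exact q1
    · exact q2
    · exact q3
    · exact q5
    · rw [x.2.2.1, y.2.2.1]; exact q1
    · rw [x.2.2.1, y.2.2.1]; exact q3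
    · rw [x.2.2.1, y.2.2.1]; exact q2
    · rw [x.2.2.1, y.2.2.1]; exact q5
  · exact h i j h1

/-- In the `{a, c}`-class of a state of `IsX`, the states of `IsX` form two `oRel`-classes. -/
lemma oRel_or {a c b e : V} {x y : St d} (hx : IsX a c b e x) (hy : IsX a c b e y)
    (h : (pairRel a c : Setoid (St d)) x y) :
    (oRel a c b e : Setoid (St d)) x y ∨ (oRel a c b e : Setoid (St d)) (swp a c b e x) y := by
  have key : ∀ x y : St d, (pairRel a c : Setoid (St d)) x y → x.1 a b = y.1 a b →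
      x.1 a e = y.1 a e → x.1 c b = y.1 c b → x.1 c e = y.1 c e →
      (oRel a c b e : Setoid (St d)) x y := by
    intro x y h q1 q2 q3 q5 i j hij
    by_cases h1 : starPair a c i j
    · have h2 : blk a c b e i j := by
        by_contra h2; exact hij ⟨h1, h2⟩
      rcases h2 with ⟨rfl | rfl, rfl | rfl⟩ | ⟨rfl | rfl, rfl | rfl⟩
      · exact q1
      · exact q2
      · exact q3
      · exact q5
      · rw [x.2.2.1, y.2.2.1]; exact q1
      · rw [x.2.2.1, y.2.2.1]; exact q3
      · rw [x.2.2.1, y.2.2.1]; exact q2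
      · rw [x.2.2.1, y.2.2.1]; exact q5
    · exact h i j h1
  have w1 := x.2.1 a b
  have w2 := x.2.1 a e
  have v1 := y.2.1 a b
  have v2 := y.2.1 a e
  obtain ⟨-, hx1, hx2, hx3⟩ := id hx
  obtain ⟨-, hy1, hy2, hy3⟩ := id hy
  by_cases hab : x.1 a b = y.1 a b
  · left
    apply key x y h hab <;> omega
  · right
    apply key
    · exact Setoid.trans' _ (Setoid.symm' _ (pairRel_swp a c b e x)) h
    · rw [swp_ab hx]; omega
    · rw [swp_ae hx]; omega
    · rw [swp_cb hx]; omega
    · rw [swp_ce hx]; omega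

/-- On `IsX`, the average over the class intersected with `IsX`. -/
lemma cavg_xRel {a c b e : V} (f : St d → ℝ) {x : St d} (hx : IsX a c b e x) :
    cavg (xRel a c b e) f x = hsym (swE a c b e) (cavg (oRel a c b e) f) x := by
  have hle : ∀ x y : St d, (oRel a c b e : Setoid (St d)) x y →
      (xRel a c b e : Setoid (St d)) x y := by
    intro x y h
    exact ⟨oRel_le x y h, fun hx => oRel_isX h hx, fun hy => oRel_isX (Setoid.symm' _ h) hy⟩
  have hsw : ∀ x : St d, (xRel a c b e : Setoid (St d)) x (swE a c b e x) := by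
    intro x
    exact ⟨pairRel_swp a c b e x, isX_swp_iff.symm⟩
  have hsw2 : ∀ x y : St d, (xRel a c b e : Setoid (St d)) (swE a c b e x) (swE a c b e y) ↔
      (xRel a c b e : Setoid (St d)) x y := by
    intro x y
    constructor
    · intro h
      exact Setoid.trans' _ (hsw x) (Setoid.trans' _ h (Setoid.symm' _ (hsw y)))
    · intro h
      exact Setoid.trans' _ (Setoid.symm' _ (hsw x)) (Setoid.trans' _ h (hsw y))
  have h1 : cavg (xRel a c b e) f =
      cavg (xRel a c b e) (hsym (swE a c b e) (cavg (oRel a c b e) f)) := by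
    rw [cavg_hsym hsw2, cavg_cavg_of_ge hle]
    funext y
    simp only [hsym]
    rw [← cavg_congr (hsw y) f]
    ring
  rw [h1]
  apply cavg_of_const
  intro y hy
  have hy2 : IsX a c b e y := hy.2.mp hx
  rcases oRel_or hx hy2 hy.1 with h | h
  · simp only [hsym]
    rw [cavg_congr h f, cavg_congr ((oRel_swp x y).mpr h) f]
  · simp only [hsym, swE_apply]
    have h' := (oRel_swp (swp a c b e x) y).mpr h
    simp only [swE_apply, swp_swp] at h'
    rw [cavg_congr h f, cavg_congr h' f]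
    ring

/-- Removing the average over the other side. -/
lemma xterm_le {a c b e : V} (h4 : Four a c b e) (f : St d → ℝ) :
    ip (res (IsX a c b e) (hsym (swE a c b e) (cavg (oRel b e a c) (cavg (oRel a c b e) f)) -
        cavg (pairRel a c) (cavg (oRel b e a c) (cavg (oRel a c b e) f))))
      (res (IsX a c b e) (hsym (swE a c b e) (cavg (oRel b e a c) (cavg (oRel a c b e) f)) -
        cavg (pairRel a c) (cavg (oRel b e a c) (cavg (oRel a c b e) f)))) ≤
    ip (xdiff a c b e f) (xdiff a c b e f) := by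
  classical
  have hs : ∀ x y : St d, (oRel b e a c : Setoid (St d)) (swE a c b e x) (swE a c b e y) ↔
      (oRel b e a c : Setoid (St d)) x y := by
    rw [← swE_swap]; exact oRel_swp
  have h1 : hsym (swE a c b e) (cavg (oRel b e a c) (cavg (oRel a c b e) f)) -
        cavg (pairRel a c) (cavg (oRel b e a c) (cavg (oRel a c b e) f)) =
      cavg (oRel b e a c) (hsym (swE a c b e) (cavg (oRel a c b e) f) -
        cavg (pairRel a c) f) := by
    rw [cavg_sub, cavg_hsym hs, ← oRel_comm h4.swap, cavg_cavg_of_ge oRel_le]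
  have h2 : xdiff a c b e f = res (IsX a c b e) (hsym (swE a c b e) (cavg (oRel a c b e) f) -
        cavg (pairRel a c) f) := by
    unfold xdiff
    funext x
    unfold res
    by_cases hx : IsX a c b e x
    · rw [if_pos hx, if_pos hx, Pi.sub_apply, Pi.sub_apply, cavg_xRel f hx]
    · rw [if_neg hx, if_neg hx]
  rw [h1, h2]
  apply sum_cavg_sq_le
  intro x y h hx
  exact (oRel_isX h hx.swap).swap

/-- The pair inequality. -/
theorem pair_ineq {a c b e : V} (h4 : Four a c b e) (f : St d → ℝ) :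
    ip (Pi2 a c b e f) (Pi2 a c b e f) - (1 / 2) * ip (xdiff a c b e f) (xdiff a c b e f) -
      (1 / 2) * ip (xdiff b e a c f) (xdiff b e a c f) ≤ ip (Dev a c f) (Dev b e f) := by
  classical
  -- reduction to `f0`
  set f0 : St d → ℝ := cavg (oRel b e a c) (cavg (oRel a c b e) f) with hf0
  have s1 : qf (pairRel a c) (pairRel b e) (swE a c b e) (cavg (oRel a c b e) f) ≤
      qf (pairRel a c) (pairRel b e) (swE a c b e) f :=
    qf_step oRel_le (oRel_comm h4) oRel_swp (fun x => pairRel_swp' a c b e x) f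
  have s2 : qf (pairRel a c) (pairRel b e) (swE a c b e) f0 ≤
      qf (pairRel a c) (pairRel b e) (swE a c b e) (cavg (oRel a c b e) f) := by
    rw [qf_comm (pairRel a c), qf_comm (pairRel a c)]
    refine qf_step oRel_le (oRel_comm h4.swap) ?_ (fun x => pairRel_swp a c b e x) _
    rw [← swE_swap]; exact oRel_swp
  -- invariance of `f0`
  have i1 : ∀ x y : St d, (oRel b e a c : Setoid (St d)) x y → f0 y = f0 x :=
    fun x y h => (cavg_congr h _).symm
  have i2 : ∀ x y : St d, (oRel a c b e : Setoid (St d)) x y → f0 y = f0 x := by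
    rw [hf0, ← oRel_comm' h4]
    exact fun x y h => (cavg_congr h _).symm
  -- splitting
  have hr : ∀ x y : St d, (pairRel a c : Setoid (St d)) x y → ¬ mm a c b e x = 2 →
      ¬ mm a c b e y = 2 := by
    intro x y h hx; rw [← mm_pairRel h4 h]; exact hx
  have hs : ∀ x y : St d, (pairRel b e : Setoid (St d)) x y → ¬ mm a c b e x = 2 →
      ¬ mm a c b e y = 2 := by
    intro x y h hx; rw [← mm_pairRel' h4 h]; exact hx
  have p1 := ip_split (fun x : St d => mm a c b e x = 2) (cdev (pairRel a c) f0)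
    (cdev (pairRel b e) f0)
  have p2 := ip_res_nonneg (A := fun x : St d => ¬ mm a c b e x = 2)
    (fun x hx => rect_pair h4 hx) hr hs f0
  have p3 : ip (res (fun x : St d => mm a c b e x = 2) (cdev (pairRel a c) f0))
      (res (fun x : St d => mm a c b e x = 2) (cdev (pairRel b e) f0)) =
      ip (res (IsX a c b e) (f0 - cavg (pairRel a c) f0))
        (res (IsX a c b e) (f0 - cavg (pairRel b e) f0)) := by
    unfold ip
    refine Finset.sum_congr rfl (fun x _ => ?_)
    by_cases hX : IsX a c b e x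
    · simp only [res, mm_of_isX hX, hX, if_true]
      rfl
    · by_cases hm : mm a c b e x = 2
      · simp only [res, hm, hX, if_true, if_false, mul_zero]
        have w1 := x.2.1 a b
        have w2 := x.2.1 a e
        have w3 := x.2.1 c b
        have w5 := x.2.1 c e
        have hm' : x.1 a b + x.1 a e + x.1 c b + x.1 c e = 2 := hm
        have hX' : ¬ (x.1 a b = x.1 c e ∧ x.1 a e = x.1 c b ∧ x.1 a b ≠ x.1 a e) :=
          fun h => hX ⟨h4, h⟩
        have hcase : (x.1 a b = x.1 c b ∧ x.1 a e = x.1 c e) ∨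
            (x.1 a b = x.1 a e ∧ x.1 c b = x.1 c e) := by
          omega
        rcases hcase with ⟨q1, q2⟩ | ⟨q1, q2⟩
        · have : cdev (pairRel a c) f0 x = 0 := by
            rw [cdev_apply, cavg_of_const (fun y hy => i2 x y (oRel_of_full h4 q1 q2 hy)),
              sub_self]
          rw [this, zero_mul]
        · have : cdev (pairRel b e) f0 x = 0 := by
            rw [cdev_apply, cavg_of_const (fun y hy => i1 x y (oRel_of_full h4.swap ?_ ?_ hy)),
              sub_self]
            · rw [x.2.2.1 b a, x.2.2.1 e a]; exact q1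
            · rw [x.2.2.1 b c, x.2.2.1 e c]; exact q2
          rw [this, mul_zero]
      · simp only [res, hm, hX, if_false, mul_zero]
  have p4 : ip (hdif (swE a c b e) f0) (hdif (swE a c b e) f0) =
      ip (res (IsX a c b e) (hdif (swE a c b e) f0))
        (res (IsX a c b e) (hdif (swE a c b e) f0)) := by
    unfold ip
    refine Finset.sum_congr rfl (fun x _ => ?_)
    by_cases hX : IsX a c b e x
    · simp only [res, hX, if_true]
    · simp only [res, hX, if_false, hdif, swE_apply, swp_of_not hX]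
      ring
  have p5 := pairing_bound (swE a c b e) (fun x => swp_swp a c b e x) (IsX a c b e)
    (fun x => isX_swp_iff) f0 (cavg (pairRel a c) f0) (cavg (pairRel b e) f0)
    (fun x => (cavg_congr (pairRel_swp a c b e x) f0).symm)
    (fun x => (cavg_congr (pairRel_swp' a c b e x) f0).symm)
  have p6 := xterm_le h4 f
  have p7 := xterm_le h4.swap f
  rw [oRel_comm' h4, ← hf0, swE_swap] at p7
  rw [← hf0] at p6
  have p8 : res (IsX b e a c) (hsym (swE a c b e) f0 - cavg (pairRel b e) f0) =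
      res (IsX a c b e) (hsym (swE a c b e) f0 - cavg (pairRel b e) f0) := by
    funext x
    unfold res
    rw [isX_swap]
  rw [p8] at p7
  have q1 : qf (pairRel a c) (pairRel b e) (swE a c b e) f =
      ip (Dev a c f) (Dev b e f) - ip (Pi2 a c b e f) (Pi2 a c b e f) := rfl
  have q2 : qf (pairRel a c) (pairRel b e) (swE a c b e) f0 =
      ip (cdev (pairRel a c) f0) (cdev (pairRel b e) f0) -
        ip (hdif (swE a c b e) f0) (hdif (swE a c b e) f0) := rfl
  rw [q1] at s1
  rw [q2, p1, p3, p4] at s2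
  linarith

end Vale.Agent.P335.RA
end
end

section

section

/-! Lemma B summed over the classes of `pairRel a c` in the matrix model. -/

namespace Vale.Agent.P335.RA

open Finset
open Vale.Agent.P335.Johnson (sw XX)

variable {V : Type*} [Fintype V] [DecidableEq V] {d : V → ℕ}

/-- the discordant vertices -/
def Us (a c : V) (x : St d) : Finset V :=
  univ.filter (fun z => z ≠ a ∧ z ≠ c ∧ x.1 a z ≠ x.1 c z)

lemma mem_Us {a c z : V} {x : St d} : z ∈ Us a c x ↔ z ≠ a ∧ z ≠ c ∧ x.1 a z ≠ x.1 c z := by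
  unfold Us; simp only [ne_eq, mem_filter, mem_univ, true_and]

/-- the discordant neighbours of `a` -/
def On (a c : V) (x y : St d) : Finset V := (Us a c x).filter (fun z => y.1 a z = 1)

lemma mem_On {a c z : V} {x y : St d} : z ∈ On a c x y ↔ z ∈ Us a c x ∧ y.1 a z = 1 := by
  unfold On; simp

/-- the deviation -/
def dl (a c : V) (x : St d) (S : Finset V) (z : V) : ℤ :=
  if z ∈ Us a c x then (if z ∈ S then 1 else 0) - x.1 a z else 0

/-- the matrix with prescribed discordant neighbourhood -/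
def mkM (a c : V) (x : St d) (S : Finset V) (i j : V) : ℤ :=
  x.1 i j + ((if i = a then 1 else 0) - (if i = c then 1 else 0)) * dl a c x S j +
    ((if j = a then 1 else 0) - (if j = c then 1 else 0)) * dl a c x S i

lemma not_mem_Us_left (a c : V) (x : St d) : a ∉ Us a c x := by
  rw [mem_Us]; tauto

lemma not_mem_Us_right (a c : V) (x : St d) : c ∉ Us a c x := by
  rw [mem_Us]; tauto

lemma dl_left (a c : V) (x : St d) (S : Finset V) : dl a c x S a = 0 := by
  unfold dl; rw [if_neg (not_mem_Us_left a c x)]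

lemma dl_right (a c : V) (x : St d) (S : Finset V) : dl a c x S c = 0 := by
  unfold dl; rw [if_neg (not_mem_Us_right a c x)]

lemma mkM_left {a c : V} (hac : a ≠ c) (x : St d) (S : Finset V) (z : V) :
    mkM a c x S a z = x.1 a z + dl a c x S z := by
  unfold mkM
  rw [dl_left]; simp [hac]

lemma mkM_right {a c : V} (hac : a ≠ c) (x : St d) (S : Finset V) (z : V) :
    mkM a c x S c z = x.1 c z - dl a c x S z := by
  unfold mkM
  rw [dl_right]; simp only [hac.symm, ↓reduceIte, zero_sub, Int.reduceNeg, neg_mul, one_mul, mul_zero, add_zero]; ring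

lemma sum_On (a c : V) (x : St d) :
    ∑ z ∈ Us a c x, x.1 a z = ((On a c x x).card : ℤ) := by
  unfold On
  rw [card_filter]
  push_cast
  refine sum_congr rfl fun z _ => ?_
  rcases x.2.1 a z with h | h <;> simp [h]

lemma sum_dl (a c : V) (x : St d) {S : Finset V} (hS : S ⊆ Us a c x)
    (hc : S.card = (On a c x x).card) : ∑ z, dl a c x S z = 0 := by
  have h1 : ∑ z, dl a c x S z = ∑ z ∈ Us a c x, ((if z ∈ S then 1 else 0) - x.1 a z) := by
    unfold dl
    rw [sum_ite_mem, univ_inter]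
  rw [h1, sum_sub_distrib, sum_On, sum_ite_mem, inter_eq_right.mpr hS]
  simp [hc]

lemma mkM_isAdj {a c : V} (hac : a ≠ c) (x : St d) {S : Finset V} (hS : S ⊆ Us a c x)
    (hc : S.card = (On a c x x).card) : IsAdj d (mkM a c x S) := by
  have hsymm : ∀ i j, mkM a c x S i j = mkM a c x S j i := by
    intro i j
    unfold mkM
    rw [x.2.2.1 i j]; ring
  have hdl : ∀ z, (x.1 a z + dl a c x S z = 0 ∨ x.1 a z + dl a c x S z = 1) ∧
      (x.1 c z - dl a c x S z = 0 ∨ x.1 c z - dl a c x S z = 1) := by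
    intro z
    unfold dl
    have h1 := x.2.1 a z
    have h2 := x.2.1 c z
    by_cases hz : z ∈ Us a c x
    · have h3 := (mem_Us.mp hz).2.2
      rw [if_pos hz]
      split_ifs <;> constructor <;> omega
    · rw [if_neg hz]
      constructor
      · rw [add_zero]; exact h1
      · rw [sub_zero]; exact h2
  refine ⟨fun i j => ?_, hsymm, fun i => ?_, fun i => ?_⟩
  · by_cases hia : i = a
    · subst hia
      rw [mkM_left hac]; exact (hdl j).1
    · by_cases hic : i = c
      · subst hic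
        rw [mkM_right hac]; exact (hdl j).2
      · by_cases hja : j = a
        · subst hja
          rw [hsymm, mkM_left hac]; exact (hdl i).1
        · by_cases hjc : j = c
          · subst hjc
            rw [hsymm, mkM_right hac]; exact (hdl i).2
          · unfold mkM
            simp only [hia, hic, hja, hjc, if_false, sub_self, zero_mul, add_zero]
            exact x.2.1 i j
  · by_cases hia : i = a
    · subst hia
      rw [mkM_left hac, dl_left, x.2.2.2.1 i]; rfl
    · by_cases hic : i = c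
      · subst hic
        rw [mkM_right hac, dl_right, x.2.2.2.1 i]; rfl
      · unfold mkM
        simp only [hia, hic, if_false, sub_self, zero_mul, add_zero]
        exact x.2.2.2.1 i
  · unfold mkM
    rw [sum_add_distrib, sum_add_distrib, ← mul_sum, sum_dl a c x hS hc, x.2.2.2.2 i,
      ← sum_mul, sum_sub_distrib]
    simp only [mul_zero, add_zero, sum_ite_eq', mem_univ, ↓reduceIte, sub_self, zero_mul]

/-- the state with prescribed discordant neighbourhood -/
noncomputable def mk {a c : V} (hac : a ≠ c) (x : St d) (S : Finset V) : St d := by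
  classical
  exact if h : S ⊆ Us a c x ∧ S.card = (On a c x x).card then
    ⟨mkM a c x S, mkM_isAdj hac x h.1 h.2⟩ else x

lemma mk_val {a c : V} (hac : a ≠ c) (x : St d) {S : Finset V} (hS : S ⊆ Us a c x)
    (hc : S.card = (On a c x x).card) : (mk hac x S).1 = mkM a c x S := by
  unfold mk
  rw [dif_pos ⟨hS, hc⟩]

lemma mk_rel {a c : V} (hac : a ≠ c) (x : St d) {S : Finset V} (hS : S ⊆ Us a c x)
    (hc : S.card = (On a c x x).card) : (pairRel a c : Setoid (St d)) x (mk hac x S) := by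
  rw [pairRel, offRel_iff]
  intro i j hij
  rw [mk_val hac x hS hc]
  unfold mkM
  unfold starPair at hij
  push Not at hij
  obtain ⟨h1, h2⟩ := hij
  by_cases hi : i = a ∨ i = c
  · have hj := h1 hi
    have e1 : dl a c x S j = 0 := by
      rcases hj with rfl | rfl
      · exact dl_left _ _ _ _
      · exact dl_right _ _ _ _
    have e2 : dl a c x S i = 0 := by
      rcases hi with rfl | rfl
      · exact dl_left _ _ _ _
      · exact dl_right _ _ _ _
    rw [e1, e2]; ring
  · by_cases hj : j = a ∨ j = c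
    · exact absurd (h2 hj) hi
    · push Not at hi hj
      simp only [hi.1, hi.2, hj.1, hj.2, if_false, sub_self, zero_mul, add_zero]

/-- the entries of a state in the class, in terms of the discordant neighbourhood -/
lemma eq_mk {a c : V} (hac : a ≠ c) {x y : St d} (h : (pairRel a c : Setoid (St d)) x y) :
    On a c x y ⊆ Us a c x ∧ (On a c x y).card = (On a c x x).card ∧
      mk hac x (On a c x y) = y := by
  have hsub : On a c x y ⊆ Us a c x := filter_subset _ _
  -- off the stars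
  have hoff : ∀ i j, ¬ starPair a c i j → x.1 i j = y.1 i j := h
  -- entries of row a
  have hrow : ∀ z, y.1 a z = x.1 a z + dl a c x (On a c x y) z := by
    intro z
    unfold dl
    by_cases hz : z ∈ Us a c x
    · rw [if_pos hz]
      have : (z ∈ On a c x y) ↔ y.1 a z = 1 := by rw [mem_On]; (clear * - hz; tauto)
      rcases y.2.1 a z with h1 | h1
      · rw [if_neg (by rw [this, h1]; norm_num), h1]; ring
      · rw [if_pos (this.mpr h1), h1]; ring
    · rw [if_neg hz, add_zero]
      by_cases hza : z = a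
      · subst hza; rw [x.2.2.2.1, y.2.2.2.1]
      · by_cases hzc : z = c
        · subst hzc
          exact (hoff a z (by unfold starPair; simp)).symm
        · have h3 : x.1 a z = x.1 c z := by
            by_contra h4
            exact hz (mem_Us.mpr ⟨hza, hzc, h4⟩)
          have h5 := pairRel_colsum hac h hza hzc
          rcases x.2.1 a z with h6 | h6 <;> rcases y.2.1 a z with h7 | h7 <;>
            rcases y.2.1 c z with h8 | h8 <;> omega
  have hrowc : ∀ z, y.1 c z = x.1 c z - dl a c x (On a c x y) z := by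
    intro z
    by_cases hza : z = a
    · subst hza
      rw [dl_left, sub_zero]
      exact (hoff c z (by unfold starPair; simp)).symm
    · by_cases hzc : z = c
      · subst hzc
        rw [dl_right, x.2.2.2.1, y.2.2.2.1]; rfl
      · have h5 := pairRel_colsum hac h hza hzc
        have := hrow z
        omega
  have hcard : (On a c x y).card = (On a c x x).card := by
    have h1 : ∑ z, dl a c x (On a c x y) z = 0 := by
      have h2 := y.2.2.2.2 a
      rw [sum_congr rfl fun z _ => hrow z, sum_add_distrib, x.2.2.2.2 a] at h2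
      omega
    have h3 : ∑ z, dl a c x (On a c x y) z =
        ∑ z ∈ Us a c x, ((if z ∈ On a c x y then 1 else 0) - x.1 a z) := by
      unfold dl
      rw [sum_ite_mem, univ_inter]
    rw [h3, sum_sub_distrib, sum_On, sum_ite_mem, inter_eq_right.mpr hsub] at h1
    rw [sum_const, nsmul_eq_mul, mul_one] at h1
    omega
  refine ⟨hsub, hcard, ?_⟩
  apply Subtype.ext
  rw [mk_val hac x hsub hcard]
  funext i j
  by_cases hia : i = a
  · subst hia
    rw [mkM_left hac, hrow]
  · by_cases hic : i = c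
    · subst hic
      rw [mkM_right hac, hrowc]
    · have hsymm : mkM a c x (On a c x y) i j = mkM a c x (On a c x y) j i := by
        unfold mkM
        rw [x.2.2.1 i j]; ring
      by_cases hja : j = a
      · subst hja
        rw [hsymm, mkM_left hac, ← hrow, y.2.2.1]
      · by_cases hjc : j = c
        · subst hjc
          rw [hsymm, mkM_right hac, ← hrowc, y.2.2.1]
        · unfold mkM
          simp only [hia, hic, hja, hjc, if_false, sub_self, zero_mul, add_zero]
          exact hoff i j (by unfold starPair; (clear * - hia hic hja hjc; tauto))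

lemma On_mk {a c : V} (hac : a ≠ c) (x : St d) {S : Finset V} (hS : S ⊆ Us a c x)
    (hc : S.card = (On a c x x).card) : On a c x (mk hac x S) = S := by
  ext z
  rw [mem_On, mk_val hac x hS hc, mkM_left hac]
  unfold dl
  constructor
  · rintro ⟨h1, h2⟩
    rw [if_pos h1] at h2
    by_contra h3
    rw [if_neg h3] at h2
    omega
  · intro h
    refine ⟨hS h, ?_⟩
    rw [if_pos (hS h), if_pos h]; ring

/-- sums over a class are sums over subsets -/
lemma sum_cls {a c : V} (hac : a ≠ c) (x : St d) (g : St d → ℝ) :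
    ∑ y ∈ cls (pairRel a c) x, g y =
      ∑ S ∈ (Us a c x).powersetCard (On a c x x).card, g (mk hac x S) := by
  refine sum_bij' (fun y _ => On a c x y) (fun S _ => mk hac x S) ?_ ?_ ?_ ?_ ?_
  · intro y hy
    obtain ⟨h1, h2, -⟩ := eq_mk hac (mem_cls.mp hy)
    exact mem_powersetCard.mpr ⟨h1, h2⟩
  · intro S hS
    obtain ⟨h1, h2⟩ := mem_powersetCard.mp hS
    exact mem_cls.mpr (mk_rel hac x h1 h2)
  · intro y hy
    exact (eq_mk hac (mem_cls.mp hy)).2.2
  · intro S hS
    obtain ⟨h1, h2⟩ := mem_powersetCard.mp hS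
    exact On_mk hac x h1 h2
  · intro y hy
    rw [(eq_mk hac (mem_cls.mp hy)).2.2]

section
variable {a c : V} (hac : a ≠ c) (x : St d) {S : Finset V} (hS : S ⊆ Us a c x)
  (hc : S.card = (On a c x x).card)
include hac hS hc

lemma mk_left_mem {z : V} (hz : z ∈ Us a c x) :
    (mk hac x S).1 a z = if z ∈ S then 1 else 0 := by
  rw [mk_val hac x hS hc, mkM_left hac]
  unfold dl
  rw [if_pos hz]; ring

lemma mk_right_mem {z : V} (hz : z ∈ Us a c x) :
    (mk hac x S).1 c z = if z ∈ S then 0 else 1 := by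
  rw [mk_val hac x hS hc, mkM_right hac]
  unfold dl
  rw [if_pos hz]
  have h1 := x.2.1 a z
  have h2 := x.2.1 c z
  have h3 := (mem_Us.mp hz).2.2
  split_ifs <;> omega

lemma mk_not_mem {z : V} (hza : z ≠ a) (hzc : z ≠ c) (hz : z ∉ Us a c x) :
    (mk hac x S).1 a z = (mk hac x S).1 c z := by
  rw [mk_val hac x hS hc, mkM_left hac, mkM_right hac]
  unfold dl
  rw [if_neg hz, add_zero, sub_zero]
  by_contra h
  exact hz (mem_Us.mpr ⟨hza, hzc, h⟩)

lemma isX_mk {b e : V} (hb : b ∈ Us a c x) (he : e ∈ Us a c x) (hbe : b ≠ e) :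
    IsX a c b e (mk hac x S) ↔ ¬ (b ∈ S ↔ e ∈ S) := by
  have hb' := mem_Us.mp hb
  have he' := mem_Us.mp he
  have h4 : Four a c b e :=
    ⟨hac, hbe, hb'.1.symm, he'.1.symm, hb'.2.1.symm, he'.2.1.symm⟩
  unfold IsX
  rw [mk_left_mem hac x hS hc hb, mk_left_mem hac x hS hc he, mk_right_mem hac x hS hc hb,
    mk_right_mem hac x hS hc he]
  by_cases h1 : b ∈ S <;> by_cases h2 : e ∈ S <;> simp [h1, h2, h4]

lemma not_isX_mk {b e : V} (h : ¬ (b ∈ Us a c x ∧ e ∈ Us a c x ∧ b ≠ e)) :
    ¬ IsX a c b e (mk hac x S) := by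
  rintro ⟨h4, h1, h2, h3⟩
  by_cases hb : b ∈ Us a c x
  · have he : e ∉ Us a c x := fun he => h ⟨hb, he, h4.be⟩
    have e1 := mk_not_mem hac x hS hc h4.ae.symm h4.ce.symm he
    apply h3
    rw [h1, ← e1]
  · have e1 := mk_not_mem hac x hS hc h4.ab.symm h4.cb.symm hb
    apply h3
    rw [h2, ← e1]

end

omit [Fintype V] in
lemma card_sw (b e : V) (S : Finset V) : (sw b e S).card = S.card := by
  unfold sw; rw [card_map]

omit [Fintype V] in
lemma sw_subset {b e : V} {S U : Finset V} (hb : b ∈ U) (he : e ∈ U) (hS : S ⊆ U) :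
    sw b e S ⊆ U := by
  intro z hz
  rw [Johnson.mem_sw] at hz
  by_cases h1 : z = b
  · rw [h1]; exact hb
  · by_cases h2 : z = e
    · rw [h2]; exact he
    · rw [Equiv.swap_apply_of_ne_of_ne h1 h2] at hz
      exact hS hz

lemma swp_mk {a c : V} (hac : a ≠ c) (x : St d) {S : Finset V} (hS : S ⊆ Us a c x)
    (hc : S.card = (On a c x x).card) {b e : V} (hb : b ∈ Us a c x) (he : e ∈ Us a c x)
    (hbe : b ≠ e) (hX : ¬ (b ∈ S ↔ e ∈ S)) :
    swp a c b e (mk hac x S) = mk hac x (sw b e S) := by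
  have hS' := sw_subset hb he hS
  have hc' : (sw b e S).card = (On a c x x).card := by rw [card_sw, hc]
  have hIs := (isX_mk hac x hS hc hb he hbe).mpr hX
  apply Subtype.ext
  rw [swp_val hIs, mk_left_mem hac x hS hc hb, mk_left_mem hac x hS hc he,
    mk_val hac x hS hc, mk_val hac x hS' hc']
  funext i j
  have key : ∀ z, dl a c x (sw b e S) z = dl a c x S z +
      ((if e ∈ S then 1 else 0) - (if b ∈ S then 1 else 0)) *
        ((if z = b then 1 else 0) - (if z = e then 1 else 0)) := by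
    intro z
    unfold dl
    by_cases hzb : z = b
    · subst hzb
      rw [if_pos hb, if_pos hb]
      have : (z ∈ sw z e S) ↔ e ∈ S := by
        rw [Johnson.mem_sw, Equiv.swap_apply_left]
      simp only [this, hbe, if_true, if_false]
      ring
    · by_cases hze : z = e
      · subst hze
        rw [if_pos he, if_pos he]
        have : (z ∈ sw b z S) ↔ b ∈ S := by
          rw [Johnson.mem_sw, Equiv.swap_apply_right]
        simp only [this, hzb, if_true, if_false]
        ring
      · have : (z ∈ sw b e S) ↔ z ∈ S := by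
          rw [Johnson.mem_sw, Equiv.swap_apply_of_ne_of_ne hzb hze]
        simp only [this, hzb, hze, if_false]
        ring
  simp only [mkM, key, bm]
  ring

/-- sums over the part of the class on which the block is alternating -/
lemma sum_cls_isX {a c : V} (hac : a ≠ c) (x : St d) {b e : V} (hb : b ∈ Us a c x)
    (he : e ∈ Us a c x) (hbe : b ≠ e) {y : St d} (hy : (pairRel a c : Setoid (St d)) x y)
    (hyX : IsX a c b e y) (g : St d → ℝ) :
    ∑ z ∈ cls (xRel a c b e) y, g z =
      ∑ S ∈ XX (Us a c x) (On a c x x).card b e, g (mk hac x S) := by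
  classical
  have h1 : ∑ z ∈ cls (xRel a c b e) y, g z =
      ∑ z ∈ cls (pairRel a c) x, if IsX a c b e z then g z else 0 := by
    rw [← sum_filter]
    refine sum_congr ?_ fun _ _ => rfl
    ext z
    rw [mem_cls, mem_filter, mem_cls]
    constructor
    · rintro ⟨h2, h3⟩
      exact ⟨Setoid.trans' _ hy h2, h3.mp hyX⟩
    · rintro ⟨h2, h3⟩
      exact ⟨Setoid.trans' _ (Setoid.symm' _ hy) h2, fun _ => h3, fun _ => hyX⟩
  rw [h1, sum_cls hac]
  unfold XX
  rw [sum_filter]
  refine sum_congr rfl fun S hS => ?_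
  obtain ⟨hS1, hS2⟩ := mem_powersetCard.mp hS
  by_cases h : b ∈ S ↔ e ∈ S
  · rw [if_neg (not_not.mpr h), if_neg]
    rw [isX_mk hac x hS1 hS2 hb he hbe]
    exact not_not.mpr h
  · rw [if_pos h, if_pos ((isX_mk hac x hS1 hS2 hb he hbe).mpr h)]

/-- the inequality on one class -/
lemma class_ineq {a c : V} (hac : a ≠ c) (x : St d) (f : St d → ℝ) :
    2 * ∑ y ∈ cls (pairRel a c) x, Dev a c f y ^ 2 ≤
      ∑ b, ∑ e, ∑ y ∈ cls (pairRel a c) x,
        (Pi2 a c b e f y ^ 2 - xdiff a c b e f y ^ 2) := by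
  classical
  set U := Us a c x with hU
  set s := (On a c x x).card with hs
  set P := U.powersetCard s with hP
  set F : Finset V → ℝ := fun S => f (mk hac x S) with hF
  set μ : ℝ := cavg (pairRel a c) f x with hμ
  have hμ' : μ = (∑ S ∈ P, F S) / (P.card : ℝ) := by
    rw [hμ]
    unfold cavg
    rw [sum_cls hac]
    have : ((cls (pairRel a c) x).card : ℝ) = (P.card : ℝ) := by
      have h := sum_cls hac x (fun _ => (1 : ℝ))
      rw [← hU, ← hs, ← hP] at h
      rw [sum_const, sum_const, nsmul_eq_mul, nsmul_eq_mul, mul_one, mul_one] at h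
      exact h
    rw [this]
  have hμy : ∀ y ∈ cls (pairRel a c) x, cavg (pairRel a c) f y = μ := by
    intro y hy
    exact (cavg_congr (mem_cls.mp hy) f).symm
  have hL : ∑ y ∈ cls (pairRel a c) x, Dev a c f y ^ 2 = ∑ S ∈ P, (F S - μ) ^ 2 := by
    rw [← sum_cls hac x (fun y => (f y - μ) ^ 2)]
    refine sum_congr rfl fun y hy => ?_
    unfold Dev
    rw [cdev_apply, hμy y hy]
  -- the terms outside `U` vanish
  have hterm0 : ∀ b e, ¬ (b ∈ U ∧ e ∈ U ∧ b ≠ e) → ∑ y ∈ cls (pairRel a c) x,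
        (Pi2 a c b e f y ^ 2 - xdiff a c b e f y ^ 2) = 0 := by
    intro b e h
    rw [sum_cls hac]
    refine sum_eq_zero fun S hS => ?_
    obtain ⟨hS1, hS2⟩ := mem_powersetCard.mp hS
    have hn := not_isX_mk hac x hS1 hS2 h
    unfold Pi2 xdiff res
    rw [swp_of_not hn, if_neg hn]
    ring
  have hterm : ∀ b e, b ∈ U → e ∈ U → b ≠ e → ∑ y ∈ cls (pairRel a c) x,
        (Pi2 a c b e f y ^ 2 - xdiff a c b e f y ^ 2) =
        (1 / 2) * ((1 / 2) * ∑ S ∈ XX U s b e, (F S - F (sw b e S)) ^ 2) -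
        ((XX U s b e).card : ℝ) *
          ((∑ S ∈ XX U s b e, F S) / ((XX U s b e).card : ℝ) - μ) ^ 2 := by
    intro b e hb he hbe
    rw [sum_cls hac]
    have h1 : ∀ S ∈ P, Pi2 a c b e f (mk hac x S) ^ 2 - xdiff a c b e f (mk hac x S) ^ 2 =
        if ¬ (b ∈ S ↔ e ∈ S) then (1 / 4) * (F S - F (sw b e S)) ^ 2 -
          ((∑ S ∈ XX U s b e, F S) / ((XX U s b e).card : ℝ) - μ) ^ 2 else 0 := by
      intro S hS
      obtain ⟨hS1, hS2⟩ := mem_powersetCard.mp hS
      by_cases h : b ∈ S ↔ e ∈ S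
      · rw [if_neg (not_not.mpr h)]
        have hn : ¬ IsX a c b e (mk hac x S) := by
          rw [isX_mk hac x hS1 hS2 hb he hbe]; exact not_not.mpr h
        unfold Pi2 xdiff res
        rw [swp_of_not hn, if_neg hn]
        ring
      · rw [if_pos h]
        have hx := (isX_mk hac x hS1 hS2 hb he hbe).mpr h
        have hrel := mk_rel hac x hS1 hS2
        unfold Pi2 xdiff res
        rw [swp_mk hac x hS1 hS2 hb he hbe h, if_pos hx, Pi.sub_apply,
          hμy _ (mem_cls.mpr hrel)]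
        have e1 : cavg (xRel a c b e) f (mk hac x S) =
            (∑ S ∈ XX U s b e, F S) / ((XX U s b e).card : ℝ) := by
          unfold cavg
          rw [sum_cls_isX hac x hb he hbe hrel hx]
          have e2 : ((cls (xRel a c b e) (mk hac x S)).card : ℝ) = ((XX U s b e).card : ℝ) := by
            have := sum_cls_isX hac x hb he hbe hrel hx (fun _ => (1 : ℝ))
            simpa only [Nat.cast_inj, sum_const, nsmul_eq_mul, mul_one] using this
          rw [e2]
        rw [e1]
        simp only [hF]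
        ring
    rw [sum_congr rfl h1, ← sum_filter]
    have h2 : P.filter (fun S => ¬ (b ∈ S ↔ e ∈ S)) = XX U s b e := rfl
    rw [h2, sum_sub_distrib, sum_const, nsmul_eq_mul, ← mul_sum]
    ring
  have hR : ∑ b, ∑ e, ∑ y ∈ cls (pairRel a c) x,
        (Pi2 a c b e f y ^ 2 - xdiff a c b e f y ^ 2) =
      ∑ p ∈ U.offDiag, ∑ y ∈ cls (pairRel a c) x,
        (Pi2 a c p.1 p.2 f y ^ 2 - xdiff a c p.1 p.2 f y ^ 2) := by
    rw [← sum_product']
    symm
    refine sum_subset (fun p _ => mem_product.mpr ⟨mem_univ _, mem_univ _⟩) ?_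
    intro p _ hp
    apply hterm0
    rintro ⟨h1, h2, h3⟩
    exact hp (mem_offDiag.mpr ⟨h1, h2, h3⟩)
  rw [hL, hR]
  by_cases hs1 : 1 ≤ s ∧ s + 1 ≤ U.card
  · refine (Johnson.lemmaB' U s hs1.1 hs1.2 F μ hμ').trans (le_of_eq ?_)
    refine sum_congr rfl fun p hp => ?_
    obtain ⟨hp1, hp2, hp3⟩ := mem_offDiag.mp hp
    rw [hterm p.1 p.2 hp1 hp2 hp3]
  · -- a single state
    have hsU : s ≤ U.card := card_le_card (filter_subset _ _)
    have hP1 : P.card = 1 := by
      rw [hP, card_powersetCard]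
      rcases Nat.eq_zero_or_pos s with h | h
      · rw [h, Nat.choose_zero_right]
      · have : s = U.card := by omega
        rw [this, Nat.choose_self]
    obtain ⟨T, hT⟩ := card_eq_one.mp hP1
    have hl0 : ∑ S ∈ P, (F S - μ) ^ 2 = 0 := by
      rw [hμ', hT]; simp only [sum_singleton, card_singleton, Nat.cast_one, div_one, sub_self, ne_eq, OfNat.ofNat_ne_zero, not_false_eq_true, zero_pow]
    rw [hl0, mul_zero]
    apply sum_nonneg
    intro p hp
    obtain ⟨hp1, hp2, hp3⟩ := mem_offDiag.mp hp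
    rw [hterm p.1 p.2 hp1 hp2 hp3]
    have hXe : XX U s p.1 p.2 = ∅ := by
      rw [eq_empty_iff_forall_notMem]
      intro S hS
      obtain ⟨⟨h1, h2⟩, h3⟩ := Johnson.mem_XX.mp hS
      apply h3
      rcases Nat.eq_zero_or_pos s with h | h
      · have : S = ∅ := card_eq_zero.mp (h2.trans h)
        rw [this]; simp
      · have h5 : s = U.card := by omega
        have : S = U := eq_of_subset_of_card_le h1 (by rw [h2, h5])
        rw [this]; simp [hp1, hp2]
    rw [hXe]; simp only [one_div, sum_empty, mul_zero, card_empty, CharP.cast_eq_zero, div_zero, zero_sub, even_two, Even.neg_pow, zero_mul, sub_self, Std.le_refl]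

omit [DecidableEq V] in
lemma sum_eq_sum_cavg (r : Setoid (St d)) (g : St d → ℝ) : ∑ x, g x = ∑ x, cavg r g x := by
  have := ip_cavg r g (fun _ => 1)
  rw [cavg_const] at this
  unfold ip at this
  simpa only [mul_one] using this.symm

/-- **Lemma B** summed over all classes. -/
theorem classB {a c : V} (hac : a ≠ c) (f : St d → ℝ) :
    2 * ip (Dev a c f) (Dev a c f) ≤
      ∑ b, ∑ e, (ip (Pi2 a c b e f) (Pi2 a c b e f) - ip (xdiff a c b e f) (xdiff a c b e f)) := by
  have h1 : ∑ b, ∑ e, (ip (Pi2 a c b e f) (Pi2 a c b e f) -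
      ip (xdiff a c b e f) (xdiff a c b e f)) =
      ∑ x, ∑ b, ∑ e, (Pi2 a c b e f x ^ 2 - xdiff a c b e f x ^ 2) := by
    rw [sum_comm]
    rw [sum_comm' (s := univ) (t := fun _ => univ) (s' := fun _ => univ) (t' := univ)
      (by simp only [mem_univ, and_self, implies_true])]
    rw [sum_comm (s := (univ : Finset (St d)))]
    refine sum_congr rfl fun b _ => ?_
    rw [sum_comm (s := (univ : Finset (St d)))]
    refine sum_congr rfl fun e _ => ?_
    rw [ip_self_eq_sum_sq, ip_self_eq_sum_sq, ← sum_sub_distrib]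
  have h2 : 2 * ip (Dev a c f) (Dev a c f) = ∑ x, 2 * Dev a c f x ^ 2 := by
    rw [ip_self_eq_sum_sq, mul_sum]
  rw [h1, h2, sum_eq_sum_cavg (pairRel a c),
    sum_eq_sum_cavg (pairRel a c) (fun x => ∑ b, ∑ e, (Pi2 a c b e f x ^ 2 -
      xdiff a c b e f x ^ 2))]
  refine sum_le_sum fun x _ => ?_
  unfold cavg
  refine div_le_div_of_nonneg_right ?_ (Nat.cast_nonneg _)
  rw [← mul_sum]
  refine (class_ineq hac x f).trans (le_of_eq ?_)
  rw [sum_comm (s := cls (pairRel a c) x)]
  refine sum_congr rfl fun b _ => ?_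
  rw [sum_comm (s := cls (pairRel a c) x)]

end Vale.Agent.P335.RA
end
end

section

section

namespace Vale.Agent.P335.RA

open Finset

set_option linter.unusedSectionVars false

variable {V : Type*} [Fintype V] [DecidableEq V]

/-- the edge set of a matrix state -/
def eset {d : V → ℕ} (x : St d) : Finset (Sym2 V) :=
  ((univ ×ˢ univ).filter (fun p : V × V => x.1 p.1 p.2 = 1)).image (fun p => s(p.1, p.2))

theorem mem_eset {d : V → ℕ} (x : St d) (i j : V) : s(i, j) ∈ eset x ↔ x.1 i j = 1 := by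
  unfold eset
  simp only [mem_image, mem_filter, mem_product, mem_univ, true_and, Prod.exists, Sym2.eq_iff]
  constructor
  · rintro ⟨a, b, h, ⟨rfl, rfl⟩ | ⟨rfl, rfl⟩⟩
    · exact h
    · rw [x.2.2.1]; exact h
  · intro h; exact ⟨i, j, h, Or.inl ⟨rfl, rfl⟩⟩

theorem eset_mem {d : V → ℕ} (x : St d) : eset x ∈ Om d := by
  rw [mem_Om']
  refine ⟨?_, ?_⟩
  · intro v h
    rw [mem_eset, x.2.2.2.1] at h
    exact absurd h (by norm_num)
  · intro v
    have h1 := x.2.2.2.2 v
    have h2 : ∑ j, x.1 v j = ∑ j, (if s(v, j) ∈ eset x then (1 : ℤ) else 0) := by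
      apply sum_congr rfl
      intro j _
      by_cases h : x.1 v j = 1
      · rw [if_pos ((mem_eset x v j).mpr h), h]
      · rw [if_neg (fun h' => h ((mem_eset x v j).mp h'))]
        rcases x.2.1 v j with h' | h'
        · exact h'
        · exact absurd h' h
    rw [h2, Finset.sum_boole] at h1
    unfold deg nb
    exact_mod_cast h1

/-- the matrix of an edge set -/
def ofEset {d : V → ℕ} (A : Finset (Sym2 V)) (hA : A ∈ Om d) : St d :=
  ⟨fun i j => if s(i, j) ∈ A then 1 else 0, by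
    have hA' := (mem_Om' d A).mp hA
    refine ⟨?_, ?_, ?_, ?_⟩
    · intro i j; dsimp only; split_ifs
      · right; rfl
      · left; rfl
    · intro i j; dsimp only; rw [Sym2.eq_swap]
    · intro i; dsimp only; rw [if_neg (hA'.1 i)]
    · intro i; dsimp only; rw [Finset.sum_boole]
      have := hA'.2 i
      unfold deg nb at this
      exact_mod_cast this⟩

theorem eset_ofEset {d : V → ℕ} (A : Finset (Sym2 V)) (hA : A ∈ Om d) :
    eset (ofEset A hA) = A := by
  ext z
  induction z using Sym2.ind with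
  | _ i j =>
    rw [mem_eset]
    show (if s(i, j) ∈ A then (1 : ℤ) else 0) = 1 ↔ _
    split_ifs with h <;> simp [h]

theorem eset_injective {d : V → ℕ} : Function.Injective (eset (d := d)) := by
  intro x y h
  apply Subtype.ext
  funext i j
  have h1 := mem_eset x i j
  have h2 := mem_eset y i j
  rw [h] at h1
  have h3 : x.1 i j = 1 ↔ y.1 i j = 1 := h1.symm.trans h2
  rcases x.2.1 i j with hx | hx <;> rcases y.2.1 i j with hy | hy
  · rw [hx, hy]
  · exact absurd (h3.mpr hy) (by rw [hx]; norm_num)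
  · exact absurd (h3.mp hx) (by rw [hy]; norm_num)
  · rw [hx, hy]

/-- matrix states and edge-set states -/
def stEquiv (d : V → ℕ) : St d ≃ P335.St d where
  toFun x := ⟨eset x, eset_mem x⟩
  invFun A := ofEset A.1 A.2
  left_inv x := eset_injective (eset_ofEset _ _)
  right_inv A := Subtype.ext (eset_ofEset _ _)

theorem sum_eset {d : V → ℕ} (F : Finset (Sym2 V) → ℝ) : ∑ x : St d, F (eset x) = ∑ A ∈ Om d, F A := by
  rw [← Finset.sum_coe_sort (Om d) F]
  exact Fintype.sum_equiv (stEquiv d) _ _ (fun x => rfl)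

/-- states joined by a switch lie in one class of a pair -/
theorem pairRel_of_Sw {d : V → ℕ} (x y : St d) (h : Sw (eset x) (eset y)) :
    ∃ a c : V, a ≠ c ∧ (pairRel a c : Setoid (St d)) x y := by
  obtain ⟨a, b, c, e, hab, hac, hae, hbc, hbe, hce, h1, h2, h3, h4, hy⟩ := h
  refine ⟨a, e, hae, ?_⟩
  intro i j hij
  have hmem : s(i, j) ∈ eset x ↔ s(i, j) ∈ eset y := by
    rw [hy]
    have hne : s(i, j) ≠ s(a, b) ∧ s(i, j) ≠ s(c, e) ∧ s(i, j) ≠ s(a, c) ∧ s(i, j) ≠ s(b, e) := by
      refine ⟨?_, ?_, ?_, ?_⟩ <;> intro h <;> apply hij <;> unfold starPair <;>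
        rw [Sym2.eq_iff] at h <;> rcases h with ⟨rfl, rfl⟩ | ⟨rfl, rfl⟩
      · left; exact ⟨Or.inl rfl, fun h => h.elim (fun h => hab h.symm) hbe⟩
      · right; exact ⟨Or.inl rfl, fun h => h.elim (fun h => hab h.symm) hbe⟩
      · right; exact ⟨Or.inr rfl, fun h => h.elim (fun h => hac h.symm) hce⟩
      · left; exact ⟨Or.inr rfl, fun h => h.elim (fun h => hac h.symm) hce⟩
      · left; exact ⟨Or.inl rfl, fun h => h.elim (fun h => hac h.symm) hce⟩
      · right; exact ⟨Or.inl rfl, fun h => h.elim (fun h => hac h.symm) hce⟩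
      · right; exact ⟨Or.inr rfl, fun h => h.elim (fun h => hab h.symm) hbe⟩
      · left; exact ⟨Or.inr rfl, fun h => h.elim (fun h => hab h.symm) hbe⟩
    simp only [mem_union, mem_sdiff, mem_insert, mem_singleton, not_or]
    (clear * - hne; tauto)
  rw [mem_eset, mem_eset] at hmem
  rcases x.2.1 i j with hx | hx <;> rcases y.2.1 i j with hy' | hy'
  · rw [hx, hy']
  · exact absurd (hmem.mpr hy') (by rw [hx]; norm_num)
  · exact absurd (hmem.mp hx) (by rw [hy']; norm_num)
  · rw [hx, hy']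

/-- connectivity -/
theorem const_of_Sw {d : V → ℕ} (f : St d → ℝ) (h : ∀ x y : St d, Sw (eset x) (eset y) → f x = f y)
    (x y : St d) : f x = f y := by
  have key : ∀ (n : ℕ) (x y : St d), (symmDiff (eset x) (eset y)).card ≤ n → f x = f y := by
    intro n
    induction n with
    | zero =>
      intro x y hn
      have h0 : symmDiff (eset x) (eset y) = ∅ := card_eq_zero.mp (Nat.le_zero.mp hn)
      have h1 : eset x = eset y := symmDiff_eq_bot.mp h0
      rw [eset_injective h1]
    | succ n ih =>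
      intro x y hn
      by_cases hxy : eset x = eset y
      · rw [eset_injective hxy]
      · rcases reduce_switch d _ _ (eset_mem x) (eset_mem y) hxy with
          ⟨W, hW, hS, hc⟩ | ⟨W, hW, hS, hc⟩
        · have e := eset_ofEset W hW
          rw [h x (ofEset W hW) (by rw [e]; exact hS)]
          exact ih (ofEset W hW) y (by rw [e]; omega)
        · have e := eset_ofEset W hW
          rw [h y (ofEset W hW) (by rw [e]; exact hS)]
          exact ih x (ofEset W hW) (by rw [e]; omega)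
  exact key _ x y le_rfl

theorem const_of_Dev {d : V → ℕ} (f : St d → ℝ) (h : ∀ a c : V, a ≠ c → Dev a c f = 0)
    (x y : St d) : f x = f y := by
  apply const_of_Sw f
  intro x y hxy
  obtain ⟨a, c, hac, hr⟩ := pairRel_of_Sw x y hxy
  have h1 := h a c hac
  have h2 : ∀ z, f z = cavg (pairRel a c) f z := by
    intro z
    have := congrFun h1 z
    simp only [Dev, cdev, Pi.sub_apply, Pi.zero_apply] at this
    linarith only [this]
  rw [h2 x, h2 y]
  exact cavg_congr hr f

end Vale.Agent.P335.RA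
end
end

section

section

namespace Vale.Agent.P335

open Finset

section Bridge

variable {n : ℕ}

open Classical in
/-- the edge set of a graph as a finset -/
noncomputable def eF (G : SimpleGraph (Fin n)) : Finset (Sym2 (Fin n)) := G.edgeFinset

theorem mem_eF (G : SimpleGraph (Fin n)) (e : Sym2 (Fin n)) : e ∈ eF G ↔ e ∈ G.edgeSet := by
  classical
  unfold eF
  rw [SimpleGraph.mem_edgeFinset]

theorem coe_eF (G : SimpleGraph (Fin n)) : ((eF G : Finset (Sym2 (Fin n))) : Set (Sym2 (Fin n)))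
    = G.edgeSet := by
  ext e; rw [Finset.mem_coe, mem_eF]

theorem eF_injective : Function.Injective (eF (n := n)) := by
  intro G H h
  rw [← SimpleGraph.edgeSet_inj, ← coe_eF, ← coe_eF, h]

theorem deg_eF (G : SimpleGraph (Fin n)) (v : Fin n) :
    deg (eF G) v = (G.neighborSet v).ncard := by
  classical
  unfold deg
  rw [← Set.ncard_coe_finset]
  congr 1
  ext w
  rw [Finset.mem_coe, mem_nb', mem_eF, SimpleGraph.mem_edgeSet, SimpleGraph.mem_neighborSet]

theorem eF_mem_Om {d : Fin n → ℕ} {G : SimpleGraph (Fin n)} :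
    eF G ∈ Om d ↔ HasDegrees d G := by
  rw [mem_Om']
  constructor
  · rintro ⟨_, h⟩ v
    rw [← deg_eF, h]
  · intro h
    refine ⟨fun v hv => ?_, fun v => ?_⟩
    · rw [mem_eF, SimpleGraph.mem_edgeSet] at hv
      exact hv.ne rfl
    · rw [deg_eF, h]

theorem eF_fromEdgeSet {A : Finset (Sym2 (Fin n))} (hA : ∀ v, s(v, v) ∉ A) :
    eF (SimpleGraph.fromEdgeSet (A : Set (Sym2 (Fin n)))) = A := by
  ext e
  rw [mem_eF, SimpleGraph.edgeSet_fromEdgeSet]
  simp only [Set.mem_sdiff, Finset.mem_coe]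
  constructor
  · rintro ⟨h, _⟩; exact h
  · intro h
    refine ⟨h, ?_⟩
    intro h'
    induction e with
    | h x y =>
      have hxy : x = y := by simpa using h'
      subst hxy
      exact hA _ h

/-- realizations are the same as members of `Om d` -/
noncomputable def omEquiv (d : Fin n → ℕ) : Realization d ≃ {A // A ∈ Om d} where
  toFun G := ⟨eF G.1, eF_mem_Om.mpr G.2⟩
  invFun A := ⟨SimpleGraph.fromEdgeSet (A.1 : Set (Sym2 (Fin n))), by
    have hA := A.2
    rw [← eF_fromEdgeSet ((mem_Om' d A.1).mp hA).1] at hA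
    exact eF_mem_Om.mp hA⟩
  left_inv G := by
    apply Subtype.ext
    simp only
    rw [coe_eF, SimpleGraph.fromEdgeSet_edgeSet]
  right_inv A := by
    apply Subtype.ext
    simp only
    exact eF_fromEdgeSet ((mem_Om' d A.1).mp A.2).1

theorem omEquiv_val (d : Fin n → ℕ) (G : Realization d) : (omEquiv d G).1 = eF G.1 := rfl

theorem switchAdj_iff (G H : SimpleGraph (Fin n)) : SwitchAdj G H ↔ Sw (eF G) (eF H) := by
  classical
  unfold SwitchAdj Sw
  refine exists_congr fun a => exists_congr fun b => exists_congr fun c => exists_congr fun e => ?_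
  refine and_congr_right fun hab => and_congr_right fun hac => and_congr_right fun hae =>
    and_congr_right fun hbc => and_congr_right fun hbe => and_congr_right fun hce => ?_
  simp only [mem_eF, SimpleGraph.mem_edgeSet]
  refine and_congr_right fun _ => and_congr_right fun _ => and_congr_right fun _ =>
    and_congr_right fun _ => ?_
  have hA : ∀ v, s(v, v) ∉ (eF G \ {s(a, b), s(c, e)}) ∪ {s(a, c), s(b, e)} := by
    intro v hv
    simp only [Finset.mem_union, Finset.mem_sdiff, mem_eF, SimpleGraph.mem_edgeSet,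
      Finset.mem_insert, Finset.mem_singleton, Sym2.eq_iff] at hv
    rcases hv with ⟨hv, _⟩ | hv
    · exact hv.ne rfl
    · grind
  have hset : (G.edgeSet \ {s(a, b), s(c, e)}) ∪ {s(a, c), s(b, e)} =
      (((eF G \ {s(a, b), s(c, e)}) ∪ {s(a, c), s(b, e)} : Finset (Sym2 (Fin n))) :
        Set (Sym2 (Fin n))) := by
    push_cast
    rw [coe_eF]
  rw [hset]
  constructor
  · intro h
    rw [h, eF_fromEdgeSet hA]
  · intro h
    apply eF_injective
    rw [h, eF_fromEdgeSet hA]

open Classical in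
/-- TASK T7: Poincare at the level of `Om d` implies `Poincare d K`. -/
theorem poincare_of_Om (d : Fin n → ℕ) (K : ℝ)
    (h : ∀ f : Finset (Sym2 (Fin n)) → ℝ,
      ∑ A ∈ Om d, ∑ B ∈ Om d, (f A - f B) ^ 2 ≤
        K * ((Om d).card : ℝ) * ∑ A ∈ Om d, ∑ B ∈ (Om d).filter (fun B => Sw A B),
          (f A - f B) ^ 2) : Poincare d K := by
  intro f
  set f' : Finset (Sym2 (Fin n)) → ℝ :=
    fun A => if hA : A ∈ Om d then f ((omEquiv d).symm ⟨A, hA⟩) else 0 with hf'
  have hff : ∀ G : Realization d, f' (eF G.1) = f G := by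
    intro G
    rw [hf']
    simp only
    rw [dif_pos (eF_mem_Om.mpr G.2)]
    congr 1
    rw [Equiv.symm_apply_eq]
    rfl
  have hsum : ∀ F : Finset (Sym2 (Fin n)) → ℝ,
      ∑ A ∈ Om d, F A = ∑ G : Realization d, F (eF G.1) := by
    intro F
    rw [← Finset.sum_coe_sort]
    exact (Equiv.sum_comp (omEquiv d) (fun A => F A.1)).symm
  have hcard : ((Om d).card : ℝ) = (Fintype.card (Realization d) : ℝ) := by
    have : Fintype.card (Realization d) = Fintype.card {A // A ∈ Om d} :=
      Fintype.card_congr (omEquiv d)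
    rw [this, Fintype.card_coe]
  have h1 := h f'
  rw [hcard] at h1
  simp_rw [Finset.sum_filter] at h1
  rw [hsum, hsum] at h1
  simp_rw [hsum] at h1
  simp only [hff] at h1
  simp only [switchAdj_iff]
  exact h1

/-- The same with an arbitrary decidability instance. -/
theorem poincare_of_Om' (d : Fin n → ℕ) (K : ℝ) [DecidableRel (Sw (V := Fin n))]
    (h : ∀ f : Finset (Sym2 (Fin n)) → ℝ,
      ∑ A ∈ Om d, ∑ B ∈ Om d, (f A - f B) ^ 2 ≤
        K * ((Om d).card : ℝ) * ∑ A ∈ Om d, ∑ B ∈ (Om d).filter (fun B => Sw A B),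
          (f A - f B) ^ 2) : Poincare d K := by
  apply poincare_of_Om
  intro f
  have := h f
  convert this

end Bridge

end Vale.Agent.P335
end
end

section

section

namespace Vale.Agent.P335.RA

open Finset

set_option linter.unusedSectionVars false

variable {V : Type*} [Fintype V] [DecidableEq V] {d : V → ℕ}

lemma isX_rev {a c b e : V} {x : St d} (h : IsX a c b e x) : IsX a c e b x := by
  obtain ⟨⟨h1, h2, h3, h5, h6, h7⟩, q1, q2, q3⟩ := h
  exact ⟨⟨h1, h2.symm, h5, h3, h7, h6⟩, q2, q1, q3.symm⟩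

lemma bm_rev (a c b e i j : V) : bm a c e b i j = - bm a c b e i j := by
  unfold bm; ring

lemma swp_rev {a c b e : V} {x : St d} (h : IsX a c b e x) : swp a c e b x = swp a c b e x := by
  apply Subtype.ext
  rw [swp_val h, swp_val (isX_rev h)]
  funext i j
  rw [bm_rev]; ring

/-- The entries of the switched state in the block. -/
lemma swp_ne_iff {a c b e : V} {x : St d} (h : IsX a c b e x) (i j : V) :
    (swp a c b e x).1 i j ≠ x.1 i j ↔ blk a c b e i j := by
  constructor
  · intro h1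
    by_contra h2
    exact h1 (swp_off x h2)
  · have key : ∀ i j, (i = a ∨ i = c) ∧ (j = b ∨ j = e) → (swp a c b e x).1 i j ≠ x.1 i j := by
      obtain ⟨-, q1, q2, q3⟩ := id h
      rintro i j ⟨rfl | rfl, rfl | rfl⟩
      · rw [swp_ab h]; exact q3.symm
      · rw [swp_ae h]; exact q3
      · rw [swp_cb h, ← q2]; exact q3
      · rw [swp_ce h, ← q1]; exact q3.symm
    rintro (hb | hb)
    · exact key i j hb
    · rw [(swp a c b e x).2.2.1, x.2.2.1 i j]
      exact key j i ⟨hb.2, hb.1⟩

lemma Sw_swp_aux {a c b e : V} {x : St d} (h : IsX a c b e x) (h1 : x.1 a b = 1) :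
    Sw (eset x) (eset (swp a c b e x)) := by
  obtain ⟨⟨n1, n2, n3, n5, n6, n7⟩, q1, q2, q3⟩ := id h
  have w2 := x.2.1 a e
  have h2 : x.1 a e = 0 := by omega
  have h3 : x.1 c e = 1 := by omega
  have h5 : x.1 c b = 0 := by omega
  refine ⟨a, b, e, c, n3, n5, n1, n2, n6.symm, n7.symm, ?_, ?_, ?_, ?_, ?_⟩
  · rw [mem_eset]; exact h1
  · rw [mem_eset, x.2.2.1]; exact h3
  · rw [mem_eset, h2]; norm_num
  · rw [mem_eset, x.2.2.1, h5]; norm_num
  · ext z
    induction z using Sym2.ind with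
    | _ i j =>
      rw [mem_eset]
      simp only [mem_union, mem_sdiff, mem_insert, mem_singleton, mem_eset, Sym2.eq_iff]
      by_cases hb : blk a c b e i j
      · have s1 := swp_ab h
        have s2 := swp_ae h
        have s3 := swp_cb h
        have s5 := swp_ce h
        have t1 := (swp a c b e x).2.2.1
        rcases hb with ⟨rfl | rfl, rfl | rfl⟩ | ⟨rfl | rfl, rfl | rfl⟩
        · rw [s1, h2]
          constructor
          · intro h; norm_num at h
          · rintro (⟨-, h⟩ | h)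
            · exact absurd (Or.inl (Or.inl ⟨rfl, rfl⟩)) h
            · rcases h with (⟨-, h⟩ | ⟨-, h⟩) | (⟨h, -⟩ | ⟨h, -⟩)
              · exact absurd h n2
              · exact absurd h n3.symm
              · exact absurd h n3
              · exact absurd h n1
        · rw [s2, h1]
          simp only [true_and, and_true, not_or, not_and, and_self, true_or, or_true]
        · rw [s3, h1]
          simp only [and_true, true_and, not_or, not_and, and_self, or_true]
        · rw [s5, h2]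
          constructor
          · intro h; norm_num at h
          · rintro (⟨-, h⟩ | h)
            · exact absurd (Or.inr (Or.inr ⟨rfl, rfl⟩)) h
            · rcases h with (⟨h, -⟩ | ⟨h, -⟩) | (⟨h, -⟩ | ⟨-, h⟩)
              · exact absurd h n1.symm
              · exact absurd h n7
              · exact absurd h n6
              · exact absurd h n2.symm
        · rw [t1, s1, h2]
          constructor
          · intro h; norm_num at h
          · rintro (⟨-, h⟩ | h)
            · exact absurd (Or.inl (Or.inr ⟨rfl, rfl⟩)) h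
            · rcases h with (⟨h, -⟩ | ⟨h, -⟩) | (⟨-, h⟩ | ⟨h, -⟩)
              · exact absurd h n3.symm
              · exact absurd h n2
              · exact absurd h n1
              · exact absurd h n6.symm
        · rw [t1, s3, h1]
          simp only [true_and, and_true, not_or, not_and, and_self, true_or, or_true]
        · rw [t1, s2, h1]
          simp only [and_true, true_and, not_or, not_and, and_self, or_true, true_or]
        · rw [t1, s5, h2]
          constructor
          · intro h; norm_num at h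
          · rintro (⟨-, h⟩ | h)
            · exact absurd (Or.inr (Or.inl ⟨rfl, rfl⟩)) h
            · rcases h with (⟨h, -⟩ | ⟨-, h⟩) | (⟨h, -⟩ | ⟨h, -⟩)
              · exact absurd h n5.symm
              · exact absurd h n1.symm
              · exact absurd h n2.symm
              · exact absurd h n7.symm
      · rw [swp_off x hb]
        constructor
        · intro hx
          left
          refine ⟨hx, ?_⟩
          rintro ((⟨rfl, rfl⟩ | ⟨rfl, rfl⟩) | (⟨rfl, rfl⟩ | ⟨rfl, rfl⟩))
          · exact hb (Or.inl ⟨Or.inl rfl, Or.inl rfl⟩)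
          · exact hb (Or.inr ⟨Or.inl rfl, Or.inl rfl⟩)
          · exact hb (Or.inr ⟨Or.inr rfl, Or.inr rfl⟩)
          · exact hb (Or.inl ⟨Or.inr rfl, Or.inr rfl⟩)
        · rintro (⟨hx, -⟩ | h)
          · exact hx
          · exfalso
            rcases h with (⟨rfl, rfl⟩ | ⟨rfl, rfl⟩) | (⟨rfl, rfl⟩ | ⟨rfl, rfl⟩)
            · exact hb (Or.inl ⟨Or.inl rfl, Or.inr rfl⟩)
            · exact hb (Or.inr ⟨Or.inr rfl, Or.inl rfl⟩)
            · exact hb (Or.inr ⟨Or.inl rfl, Or.inr rfl⟩)
            · exact hb (Or.inl ⟨Or.inr rfl, Or.inl rfl⟩)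

lemma Sw_swp {a c b e : V} {x : St d} (h : IsX a c b e x) :
    Sw (eset x) (eset (swp a c b e x)) := by
  rcases x.2.1 a b with h1 | h1
  · have h2 : x.1 a e = 1 := by
      rcases x.2.1 a e with h2 | h2
      · exact absurd (h1.trans h2.symm) h.2.2.2
      · exact h2
    rw [← swp_rev h]
    exact Sw_swp_aux (isX_rev h) h2
  · exact Sw_swp_aux h h1

/-- At most eight tuples give the same switch. -/
lemma card_tuples_le (x y : St d) [DecidablePred (fun t : V × V × V × V =>
    IsX t.1 t.2.1 t.2.2.1 t.2.2.2 x ∧ swp t.1 t.2.1 t.2.2.1 t.2.2.2 x = y)] :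
    ((univ : Finset (V × V × V × V)).filter (fun t =>
      IsX t.1 t.2.1 t.2.2.1 t.2.2.2 x ∧ swp t.1 t.2.1 t.2.2.1 t.2.2.2 x = y)).card ≤ 8 := by
  classical
  rcases ((univ : Finset (V × V × V × V)).filter (fun t =>
      IsX t.1 t.2.1 t.2.2.1 t.2.2.2 x ∧ swp t.1 t.2.1 t.2.2.1 t.2.2.2 x = y)).eq_empty_or_nonempty
    with h0 | ⟨⟨a, c, b, e⟩, h0⟩
  · rw [h0]; simp
  · simp only [mem_filter, mem_univ, true_and] at h0
    obtain ⟨hX, hy⟩ := h0
    have hsub : (univ : Finset (V × V × V × V)).filter (fun t =>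
        IsX t.1 t.2.1 t.2.2.1 t.2.2.2 x ∧ swp t.1 t.2.1 t.2.2.1 t.2.2.2 x = y) ⊆
        [(a, c, b, e), (c, a, b, e), (a, c, e, b), (c, a, e, b), (b, e, a, c), (e, b, a, c),
          (b, e, c, a), (e, b, c, a)].toFinset := by
      rintro ⟨a', c', b', e'⟩ ht
      simp only [mem_filter, mem_univ, true_and] at ht
      obtain ⟨hX', hy'⟩ := ht
      have hiff : ∀ i j, blk a' c' b' e' i j → blk a c b e i j := by
        intro i j hij
        rw [← swp_ne_iff hX, hy]
        rw [← swp_ne_iff hX', hy'] at hij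
        exact hij
      have k1 := hiff a' b' (Or.inl ⟨Or.inl rfl, Or.inl rfl⟩)
      have k2 := hiff a' e' (Or.inl ⟨Or.inl rfl, Or.inr rfl⟩)
      have k3 := hiff c' b' (Or.inl ⟨Or.inr rfl, Or.inl rfl⟩)
      obtain ⟨⟨m1, m2, m3, m5, m6, m7⟩, -⟩ := hX'
      obtain ⟨⟨n1, n2, n3, n5, n6, n7⟩, -⟩ := hX
      unfold blk at k1 k2 k3
      simp only [List.mem_toFinset, List.mem_cons, Prod.mk.injEq, List.not_mem_nil, or_false]
      rcases k1 with ⟨ha, hb⟩ | ⟨ha, hb⟩
      · have hc : c' = a ∨ c' = c := by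
          rcases k3 with h | h
          · exact h.1
          · exfalso
            rcases hb with rfl | rfl <;> rcases h.2 with h | h
            · exact n3 h.symm
            · exact n6 h.symm
            · exact n5 h.symm
            · exact n7 h.symm
        have he : e' = b ∨ e' = e := by
          rcases k2 with h | h
          · exact h.2
          · exfalso
            rcases ha with rfl | rfl <;> rcases h.1 with h | h
            · exact n3 h
            · exact n5 h
            · exact n6 h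
            · exact n7 h
        rcases ha with rfl | rfl <;> rcases hb with rfl | rfl <;> rcases hc with rfl | rfl <;>
          rcases he with rfl | rfl <;> first | (exact absurd rfl m1) | (exact absurd rfl m2) | simp
      · have hc : c' = b ∨ c' = e := by
          rcases k3 with h | h
          · exfalso
            rcases hb with rfl | rfl <;> rcases h.2 with h | h
            · exact n3 h
            · exact n5 h
            · exact n6 h
            · exact n7 h
          · exact h.1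
        have he : e' = a ∨ e' = c := by
          rcases k2 with h | h
          · exfalso
            rcases ha with rfl | rfl <;> rcases h.1 with h | h
            · exact n3 h.symm
            · exact n6 h.symm
            · exact n5 h.symm
            · exact n7 h.symm
          · exact h.2
        rcases ha with rfl | rfl <;> rcases hb with rfl | rfl <;> rcases hc with rfl | rfl <;>
          rcases he with rfl | rfl <;> first | (exact absurd rfl m1) | (exact absurd rfl m2) | simp
    exact (card_le_card hsub).trans ((List.toFinset_card_le _).trans (by simp))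

open Classical in
/-- The energy of all switches, counted by tuples. -/
theorem energy_tuples (f : St d → ℝ) :
    ∑ a, ∑ c, ∑ b, ∑ e, ip (Pi2 a c b e f) (Pi2 a c b e f) ≤
      2 * ∑ x : St d, ∑ y : St d, (if Sw (eset x) (eset y) then (f x - f y) ^ 2 else 0) := by
  have h1 : ∑ a, ∑ c, ∑ b, ∑ e, ip (Pi2 a c b e f) (Pi2 a c b e f) =
      ∑ t : V × V × V × V, ip (Pi2 t.1 t.2.1 t.2.2.1 t.2.2.2 f) (Pi2 t.1 t.2.1 t.2.2.1 t.2.2.2 f) := by
    rw [Fintype.sum_prod_type]
    refine Finset.sum_congr rfl (fun a _ => ?_)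
    rw [Fintype.sum_prod_type]
    refine Finset.sum_congr rfl (fun c _ => ?_)
    rw [Fintype.sum_prod_type]
  rw [h1]
  unfold ip
  rw [Finset.sum_comm, Finset.mul_sum]
  refine Finset.sum_le_sum (fun x _ => ?_)
  set T : Finset (V × V × V × V) := univ.filter (fun t => IsX t.1 t.2.1 t.2.2.1 t.2.2.2 x) with hT
  have h2 : ∑ t : V × V × V × V, Pi2 t.1 t.2.1 t.2.2.1 t.2.2.2 f x *
      Pi2 t.1 t.2.1 t.2.2.1 t.2.2.2 f x =
      ∑ t ∈ T, (1 / 4) * (f x - f (swp t.1 t.2.1 t.2.2.1 t.2.2.2 x)) ^ 2 := by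
    rw [hT, Finset.sum_filter]
    refine Finset.sum_congr rfl (fun t _ => ?_)
    by_cases h : IsX t.1 t.2.1 t.2.2.1 t.2.2.2 x
    · rw [if_pos h]; unfold Pi2; ring
    · rw [if_neg h]; unfold Pi2; rw [swp_of_not h]; ring
  rw [h2, ← Finset.sum_fiberwise (s := T) (g := fun t => swp t.1 t.2.1 t.2.2.1 t.2.2.2 x),
    Finset.mul_sum]
  refine Finset.sum_le_sum (fun y _ => ?_)
  have h3 : ∑ t ∈ T.filter (fun t => swp t.1 t.2.1 t.2.2.1 t.2.2.2 x = y),
      (1 / 4) * (f x - f (swp t.1 t.2.1 t.2.2.1 t.2.2.2 x)) ^ 2 =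
      ((T.filter (fun t => swp t.1 t.2.1 t.2.2.1 t.2.2.2 x = y)).card : ℝ) *
        ((1 / 4) * (f x - f y) ^ 2) := by
    rw [← nsmul_eq_mul, ← Finset.sum_const]
    refine Finset.sum_congr rfl (fun t ht => ?_)
    rw [(mem_filter.mp ht).2]
  rw [h3]
  by_cases hs : Sw (eset x) (eset y)
  · rw [if_pos hs]
    have h5 : ((T.filter (fun t => swp t.1 t.2.1 t.2.2.1 t.2.2.2 x = y)).card : ℝ) ≤ 8 := by
      have := card_tuples_le x y
      rw [← Finset.filter_filter, ← hT] at this
      exact_mod_cast this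
    have h6 : 0 ≤ (1 / 4) * (f x - f y) ^ 2 := by (clear * -; positivity)
    calc _ ≤ 8 * ((1 / 4) * (f x - f y) ^ 2) := mul_le_mul_of_nonneg_right h5 h6
      _ = 2 * (f x - f y) ^ 2 := by ring
  · rw [if_neg hs, mul_zero]
    have h5 : (T.filter (fun t => swp t.1 t.2.1 t.2.2.1 t.2.2.2 x = y)).card = 0 := by
      rw [Finset.card_eq_zero, Finset.filter_eq_empty_iff]
      intro t ht hty
      apply hs
      rw [← hty]
      exact Sw_swp (mem_filter.mp ht).2
    rw [h5]; simp only [CharP.cast_eq_zero, one_div, zero_mul, Std.le_refl]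

end Vale.Agent.P335.RA
end
end

section

section

namespace Vale.Agent.P335

open Finset

/-! ### Abstract part: a lazy symmetric chain with a Poincare inequality mixes -/

section Abstract

variable {Ω : Type*} [Fintype Ω]

/-- A symmetric stochastic matrix contracts the `ℓ²` norm. -/
theorem sum_sq_avg_le (Q : Ω → Ω → ℝ) (h0 : ∀ x y, 0 ≤ Q x y) (hs : ∀ x y, Q x y = Q y x)
    (h1 : ∀ x, ∑ y, Q x y = 1) (g : Ω → ℝ) :
    ∑ y, (∑ z, Q y z * g z) ^ 2 ≤ ∑ z, g z ^ 2 := by
  have key : 0 ≤ ∑ y, ∑ z, Q y z * (g z - ∑ w, Q y w * g w) ^ 2 :=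
    Finset.sum_nonneg fun y _ => Finset.sum_nonneg fun z _ => mul_nonneg (h0 y z) (sq_nonneg _)
  have e1 : ∀ y, ∑ z, Q y z * (g z - ∑ w, Q y w * g w) ^ 2
      = ∑ z, Q y z * g z ^ 2 - (∑ z, Q y z * g z) ^ 2 := by
    intro y
    set m := ∑ w, Q y w * g w with hm
    have : ∀ z, Q y z * (g z - m) ^ 2 = Q y z * g z ^ 2 - 2 * m * (Q y z * g z) + m ^ 2 * Q y z := by
      intro z; ring
    simp_rw [this]
    rw [Finset.sum_add_distrib, Finset.sum_sub_distrib, ← Finset.mul_sum, ← Finset.mul_sum, h1,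
      ← hm]
    ring
  simp_rw [e1] at key
  rw [Finset.sum_sub_distrib] at key
  have e2 : ∑ y, ∑ z, Q y z * g z ^ 2 = ∑ z, g z ^ 2 := by
    rw [Finset.sum_comm]
    refine Finset.sum_congr rfl fun z _ => ?_
    rw [← Finset.sum_mul]
    have : ∑ y, Q y z = 1 := by
      rw [← h1 z]; exact Finset.sum_congr rfl fun y _ => hs y z
    rw [this, one_mul]
  linarith

/-- One step of a lazy symmetric chain with spectral gap `γ` contracts mean zero functions. -/
theorem lazy_step (Q P : Ω → Ω → ℝ) [DecidableEq Ω] (h0 : ∀ x y, 0 ≤ Q x y)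
    (hs : ∀ x y, Q x y = Q y x) (h1 : ∀ x, ∑ y, Q x y = 1)
    (hP : ∀ x y, P x y = (1 / 2) * (if x = y then 1 else 0) + (1 / 2) * Q x y) (γ : ℝ)
    (hgap : ∀ f : Ω → ℝ, ∑ x, f x = 0 →
      γ * ∑ x, f x ^ 2 ≤ ∑ x, ∑ y, (1 / 2) * (P x y * (f x - f y) ^ 2))
    (g : Ω → ℝ) (hg : ∑ x, g x = 0) :
    ∑ y, (∑ z, P y z * g z) ^ 2 ≤ (1 - γ) * ∑ z, g z ^ 2 := by
  have hPg : ∀ y, ∑ z, P y z * g z = (1 / 2) * g y + (1 / 2) * ∑ z, Q y z * g z := by
    intro y
    simp_rw [hP]
    simp only [add_mul, mul_assoc, Finset.sum_add_distrib, ← Finset.mul_sum, ite_mul, one_mul,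
      zero_mul, Finset.sum_ite_eq, Finset.mem_univ, if_true]
  have hD : ∑ x, ∑ y, (1 / 2) * (P x y * (g x - g y) ^ 2)
      = (1 / 2) * ∑ x, g x ^ 2 - (1 / 2) * ∑ x, g x * ∑ y, Q x y * g y := by
    have e1 : ∀ x y, (1 / 2) * (P x y * (g x - g y) ^ 2)
        = (1 / 4) * (Q x y * g x ^ 2) + (1 / 4) * (Q x y * g y ^ 2)
          - (1 / 2) * (g x * (Q x y * g y)) := by
      intro x y
      rw [hP]
      by_cases hxy : x = y
      · subst hxy; simp only [one_div, ↓reduceIte, mul_one, sub_self, ne_eq, OfNat.ofNat_ne_zero, not_false_eq_true, zero_pow, mul_zero]; ring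
      · simp only [one_div, hxy, ↓reduceIte, mul_zero, zero_add]; ring
    simp_rw [e1]
    simp only [Finset.sum_add_distrib, Finset.sum_sub_distrib, ← Finset.mul_sum, ← Finset.sum_mul,
      h1, one_mul]
    have e2 : ∑ x, ∑ y, Q x y * g y ^ 2 = ∑ z, g z ^ 2 := by
      rw [Finset.sum_comm]
      refine Finset.sum_congr rfl fun z _ => ?_
      rw [← Finset.sum_mul]
      have : ∑ y, Q y z = 1 := by
        rw [← h1 z]; exact Finset.sum_congr rfl fun y _ => hs y z
      rw [this, one_mul]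
    rw [e2]
    ring
  have hg1 := hgap g hg
  rw [hD] at hg1
  have hQ := sum_sq_avg_le Q h0 hs h1 g
  simp_rw [hPg]
  have e3 : ∀ y, ((1 / 2) * g y + (1 / 2) * ∑ z, Q y z * g z) ^ 2
      = (1 / 4) * g y ^ 2 + (1 / 2) * (g y * ∑ z, Q y z * g z)
        + (1 / 4) * (∑ z, Q y z * g z) ^ 2 := by
    intro y; ring
  simp_rw [e3]
  rw [Finset.sum_add_distrib, Finset.sum_add_distrib, ← Finset.mul_sum, ← Finset.mul_sum,
    ← Finset.mul_sum]
  linarith only [hg1, hQ]

theorem lazy_mixing [DecidableEq Ω] [Nonempty Ω] (Q : Ω → Ω → ℝ) (P : Matrix Ω Ω ℝ)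
    (h0 : ∀ x y, 0 ≤ Q x y)
    (hs : ∀ x y, Q x y = Q y x) (h1 : ∀ x, ∑ y, Q x y = 1)
    (hP : ∀ x y, P x y = (1 / 2) * (if x = y then 1 else 0) + (1 / 2) * Q x y) (γ : ℝ)
    (hgap : ∀ f : Ω → ℝ, ∑ x, f x = 0 →
      γ * ∑ x, f x ^ 2 ≤ ∑ x, ∑ y, (1 / 2) * (P x y * (f x - f y) ^ 2)) (t : ℕ) (x : Ω) :
    ∑ y, ((P ^ t) x y - 1 / (Fintype.card Ω : ℝ)) = 0 ∧
    ∑ y, ((P ^ t) x y - 1 / (Fintype.card Ω : ℝ)) ^ 2 ≤ Real.exp (-(γ * t)) := by
  have hN : (0 : ℝ) < Fintype.card Ω := by exact_mod_cast Fintype.card_pos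
  have hPs : ∀ x y, P x y = P y x := by
    intro x y
    rw [hP, hP, hs x y]
    by_cases hxy : x = y
    · subst hxy; rfl
    · simp [hxy, Ne.symm hxy]
  have hP1 : ∀ x, ∑ y, P x y = 1 := by
    intro x
    simp_rw [hP]
    rw [Finset.sum_add_distrib, ← Finset.mul_sum, ← Finset.mul_sum, h1]
    simp
    norm_num
  induction t with
  | zero =>
    constructor
    · rw [pow_zero]
      simp only [Matrix.one_apply, Finset.sum_sub_distrib, Finset.sum_ite_eq, Finset.mem_univ,
        if_true, Finset.sum_const, Finset.card_univ, nsmul_eq_mul]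
      field_simp
      ring
    · rw [pow_zero]
      have : ∀ y, ((1 : Matrix Ω Ω ℝ) x y - 1 / (Fintype.card Ω : ℝ)) ^ 2
          = (if x = y then 1 else 0) * (1 - 2 / (Fintype.card Ω : ℝ))
            + (1 / (Fintype.card Ω : ℝ)) ^ 2 := by
        intro y
        rw [Matrix.one_apply]
        split_ifs <;> ring
      simp_rw [this]
      rw [Finset.sum_add_distrib, ← Finset.sum_mul]
      simp only [Finset.sum_ite_eq, Finset.mem_univ,
        if_true, Finset.sum_const, Finset.card_univ, nsmul_eq_mul]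
      simp only [Nat.cast_zero, mul_zero, neg_zero, Real.exp_zero, one_mul]
      have : (Fintype.card Ω : ℝ) * (1 / (Fintype.card Ω : ℝ)) ^ 2 = 1 / (Fintype.card Ω : ℝ) := by
        (clear Q P h0 hs h1 hP γ hgap x hN hPs hP1 this; field_simp)
      rw [this]
      have h2 : 0 < 1 / (Fintype.card Ω : ℝ) := by positivity
      have h3 : 2 / (Fintype.card Ω : ℝ) = 2 * (1 / (Fintype.card Ω : ℝ)) := by ring
      rw [h3]
      linarith only [h2]
  | succ t ih =>
    obtain ⟨ih1, ih2⟩ := ih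
    have hstep : ∀ y, (P ^ (t + 1)) x y - 1 / (Fintype.card Ω : ℝ)
        = ∑ z, P y z * ((P ^ t) x z - 1 / (Fintype.card Ω : ℝ)) := by
      intro y
      rw [pow_succ, Matrix.mul_apply]
      simp_rw [mul_sub]
      rw [Finset.sum_sub_distrib, ← Finset.sum_mul, hP1, one_mul]
      congr 1
      refine Finset.sum_congr rfl fun z _ => ?_
      rw [hPs z y, mul_comm]
    constructor
    · simp_rw [hstep]
      rw [Finset.sum_comm]
      have : ∀ z, ∑ y, P y z * ((P ^ t) x z - 1 / (Fintype.card Ω : ℝ))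
          = (P ^ t) x z - 1 / (Fintype.card Ω : ℝ) := by
        intro z
        rw [← Finset.sum_mul]
        have : ∑ y, P y z = 1 := by
          rw [← hP1 z]; exact Finset.sum_congr rfl fun y _ => hPs y z
        rw [this, one_mul]
      simp_rw [this]
      exact ih1
    · simp_rw [hstep]
      have h2 := lazy_step Q P h0 hs h1 hP γ hgap
        (fun z => (P ^ t) x z - 1 / (Fintype.card Ω : ℝ)) ih1
      refine h2.trans ?_
      have hS : 0 ≤ ∑ z, ((P ^ t) x z - 1 / (Fintype.card Ω : ℝ)) ^ 2 :=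
        Finset.sum_nonneg fun _ _ => sq_nonneg _
      have h3 : 1 - γ ≤ Real.exp (-γ) := by
        have := Real.add_one_le_exp (-γ)
        linarith only [this]
      calc (1 - γ) * ∑ z, ((P ^ t) x z - 1 / (Fintype.card Ω : ℝ)) ^ 2
          ≤ Real.exp (-γ) * ∑ z, ((P ^ t) x z - 1 / (Fintype.card Ω : ℝ)) ^ 2 :=
            mul_le_mul_of_nonneg_right h3 hS
        _ ≤ Real.exp (-γ) * Real.exp (-(γ * t)) :=
            mul_le_mul_of_nonneg_left ih2 (Real.exp_pos _).le
        _ = Real.exp (-(γ * (t + 1 : ℕ))) := by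
            rw [← Real.exp_add]; congr 1; push_cast; ring

end Abstract

section PM

variable {n : ℕ}

theorem mem_PM {S : Finset (Fin n)} {F : Finset (Sym2 (Fin n))} :
    F ∈ perfectMatchings S ↔ F ⊆ S.sym2 ∧ (∀ e ∈ F, ¬ e.IsDiag) ∧
      ∀ v ∈ S, ∃ x, x ≠ v ∧ ∀ w, s(v, w) ∈ F ↔ w = x := by
  classical
  unfold perfectMatchings
  rw [Finset.mem_filter, Finset.mem_powerset]
  refine and_congr_right fun hF => and_congr_right fun hd => ?_
  refine forall_congr' fun v => forall_congr' fun hv => ?_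
  constructor
  · intro hc
    rw [Finset.card_eq_one] at hc
    obtain ⟨e0, he0⟩ := hc
    have h1 : e0 ∈ F ∧ v ∈ e0 := by
      have : e0 ∈ ({e0} : Finset (Sym2 (Fin n))) := Finset.mem_singleton_self _
      rw [← he0, Finset.mem_filter] at this
      exact this
    obtain ⟨x, rfl⟩ := Sym2.mem_iff_exists.mp h1.2
    refine ⟨x, ?_, ?_⟩
    · rintro rfl
      exact hd _ h1.1 (by simp)
    · intro w
      constructor
      · intro hw
        have : s(v, w) ∈ ({s(v, x)} : Finset (Sym2 (Fin n))) := by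
          rw [← he0, Finset.mem_filter]
          exact ⟨hw, Sym2.mem_mk_left v w⟩
        rw [Finset.mem_singleton] at this
        exact Sym2.congr_right.mp this
      · rintro rfl
        exact h1.1
  · rintro ⟨x, hx, hw⟩
    rw [Finset.card_eq_one]
    refine ⟨s(v, x), ?_⟩
    ext e
    rw [Finset.mem_filter, Finset.mem_singleton]
    constructor
    · rintro ⟨he, hve⟩
      obtain ⟨y, rfl⟩ := Sym2.mem_iff_exists.mp hve
      rw [(hw y).mp he]
    · rintro rfl
      exact ⟨(hw x).mpr rfl, Sym2.mem_mk_left v x⟩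

theorem PM_unique {S : Finset (Fin n)} {F : Finset (Sym2 (Fin n))} (h : F ∈ perfectMatchings S)
    {v w w' : Fin n} (h1 : s(v, w) ∈ F) (h2 : s(v, w') ∈ F) : w = w' := by
  obtain ⟨hF, hd, hv⟩ := mem_PM.mp h
  have hvS : v ∈ S := by
    have := hF h1
    rw [Finset.mk_mem_sym2_iff] at this
    exact this.1
  obtain ⟨x, hx, hw⟩ := hv v hvS
  rw [(hw w).mp h1, (hw w').mp h2]

theorem PM_mem {S : Finset (Fin n)} {F : Finset (Sym2 (Fin n))} (h : F ∈ perfectMatchings S)
    {v w : Fin n} (h1 : s(v, w) ∈ F) : v ∈ S ∧ w ∈ S ∧ v ≠ w := by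
  obtain ⟨hF, hd, hv⟩ := mem_PM.mp h
  have := hF h1
  rw [Finset.mk_mem_sym2_iff] at this
  refine ⟨this.1, this.2, ?_⟩
  rintro rfl
  exact hd _ h1 (by simp)

theorem PM_of_mem {a b c e : Fin n} {F : Finset (Sym2 (Fin n))}
    (hab : a ≠ b) (hac : a ≠ c) (hae : a ≠ e) (hbc : b ≠ c) (hbe : b ≠ e) (hce : c ≠ e)
    (h : F ∈ perfectMatchings {a, b, c, e}) (h1 : s(a, b) ∈ F) : F = {s(a, b), s(c, e)} := by
  classical
  obtain ⟨hF, hd, hv⟩ := mem_PM.mp h
  have hce' : s(c, e) ∈ F := by
    obtain ⟨x, hx, hw⟩ := hv c (by simp)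
    have hcx : s(c, x) ∈ F := (hw x).mpr rfl
    have hxS := (PM_mem h hcx).2.1
    simp only [Finset.mem_insert, Finset.mem_singleton] at hxS
    rcases hxS with rfl | rfl | rfl | rfl
    · exfalso
      rw [Sym2.eq_swap] at hcx
      exact hbc (PM_unique h h1 hcx)
    · exfalso
      rw [Sym2.eq_swap] at hcx h1
      exact hac (PM_unique h h1 hcx)
    · exact absurd rfl hx
    · exact hcx
  ext f
  simp only [Finset.mem_insert, Finset.mem_singleton]
  constructor
  · induction f with
    | h p q =>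
      intro hf
      obtain ⟨hp, hq, hpq⟩ := PM_mem h hf
      simp only [Finset.mem_insert, Finset.mem_singleton] at hp
      rcases hp with rfl | rfl | rfl | rfl
      · left; rw [PM_unique h hf h1]
      · left; rw [Sym2.eq_swap] at h1; rw [PM_unique h hf h1, Sym2.eq_swap]
      · right; rw [PM_unique h hf hce']
      · right; rw [Sym2.eq_swap] at hce'; rw [PM_unique h hf hce', Sym2.eq_swap]
  · rintro (rfl | rfl)
    · exact h1
    · exact hce'

theorem PM_pair_mem {a b c e : Fin n}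
    (hab : a ≠ b) (hac : a ≠ c) (hae : a ≠ e) (hbc : b ≠ c) (hbe : b ≠ e) (hce : c ≠ e) :
    ({s(a, b), s(c, e)} : Finset (Sym2 (Fin n))) ∈ perfectMatchings {a, b, c, e} := by
  classical
  rw [mem_PM]
  refine ⟨?_, ?_, ?_⟩
  · intro f hf
    simp only [Finset.mem_insert, Finset.mem_singleton] at hf
    rcases hf with rfl | rfl <;> simp
  · intro f hf
    simp only [Finset.mem_insert, Finset.mem_singleton] at hf
    rcases hf with rfl | rfl
    · simpa using hab
    · simpa using hce
  · intro v hv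
    simp only [Finset.mem_insert, Finset.mem_singleton] at hv
    rcases hv with rfl | rfl | rfl | rfl
    · refine ⟨b, hab.symm, fun w => ?_⟩
      simp only [Finset.mem_insert, Finset.mem_singleton, Sym2.eq_iff]
      grind
    · refine ⟨a, hab, fun w => ?_⟩
      simp only [Finset.mem_insert, Finset.mem_singleton, Sym2.eq_iff]
      grind
    · refine ⟨e, hce.symm, fun w => ?_⟩
      simp only [Finset.mem_insert, Finset.mem_singleton, Sym2.eq_iff]
      grind
    · refine ⟨c, hce, fun w => ?_⟩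
      simp only [Finset.mem_insert, Finset.mem_singleton, Sym2.eq_iff]
      grind

theorem PM_eq {a b c e : Fin n}
    (hab : a ≠ b) (hac : a ≠ c) (hae : a ≠ e) (hbc : b ≠ c) (hbe : b ≠ e) (hce : c ≠ e) :
    perfectMatchings ({a, b, c, e} : Finset (Fin n)) =
      {{s(a, b), s(c, e)}, {s(a, c), s(b, e)}, {s(a, e), s(b, c)}} := by
  classical
  have p1 : ({a, b, c, e} : Finset (Fin n)) = {a, c, b, e} := by
    ext x; simp only [Finset.mem_insert, Finset.mem_singleton]; (clear * -; tauto)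
  have p2 : ({a, b, c, e} : Finset (Fin n)) = {a, e, b, c} := by
    ext x; simp only [Finset.mem_insert, Finset.mem_singleton]; (clear * -; tauto)
  ext F
  simp only [Finset.mem_insert, Finset.mem_singleton]
  constructor
  · intro h
    obtain ⟨hF, hd, hv⟩ := mem_PM.mp h
    obtain ⟨x, hx, hw⟩ := hv a (by simp)
    have hax : s(a, x) ∈ F := (hw x).mpr rfl
    have hxS := (PM_mem h hax).2.1
    simp only [Finset.mem_insert, Finset.mem_singleton] at hxS
    rcases hxS with rfl | rfl | rfl | rfl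
    · exact absurd rfl hx
    · left; exact PM_of_mem hab hac hae hbc hbe hce h hax
    · right; left
      rw [p1] at h
      exact PM_of_mem hac hab hae hbc.symm hce hbe h hax
    · right; right
      rw [p2] at h
      exact PM_of_mem hae hab hac hbe.symm hce.symm hbc h hax
  · rintro (rfl | rfl | rfl)
    · exact PM_pair_mem hab hac hae hbc hbe hce
    · rw [p1]; exact PM_pair_mem hac hab hae hbc.symm hce hbe
    · rw [p2]; exact PM_pair_mem hae hab hac hbe.symm hce.symm hbc

theorem PM_ne {a b c e : Fin n} (hab : a ≠ b) (hae : a ≠ e) (hbc : b ≠ c) :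
    ({s(a, b), s(c, e)} : Finset (Sym2 (Fin n))) ≠ {s(a, c), s(b, e)} := by
  intro h
  have h1 : s(a, b) ∈ ({s(a, b), s(c, e)} : Finset (Sym2 (Fin n))) := by simp
  rw [h] at h1
  simp only [Finset.mem_insert, Finset.mem_singleton, Sym2.eq_iff] at h1
  grind

theorem PM_card {S : Finset (Fin n)} (hS : S.card = 4) : (perfectMatchings S).card = 3 := by
  classical
  obtain ⟨a, T, haT, rfl, hT⟩ := Finset.card_eq_succ.mp hS
  obtain ⟨b, c, e, hbc, hbe, hce, rfl⟩ := Finset.card_eq_three.mp hT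
  simp only [Finset.mem_insert, Finset.mem_singleton, not_or] at haT
  obtain ⟨hab, hac, hae⟩ := haT
  rw [PM_eq hab hac hae hbc hbe hce]
  rw [Finset.card_eq_three]
  refine ⟨_, _, _, ?_, ?_, ?_, rfl⟩
  · exact PM_ne hab hae hbc
  · have := PM_ne hab hac hbe
    rw [Sym2.eq_swap (a := e) (b := c)] at this
    exact this
  · have := PM_ne hac hab hce
    rw [Sym2.eq_swap (a := e) (b := b), Sym2.eq_swap (a := c) (b := b)] at this
    exact this

theorem PM_offDiag_card {S : Finset (Fin n)} (hS : S.card = 4) :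
    (perfectMatchings S).offDiag.card = 6 := by
  classical
  rw [Finset.offDiag_card, PM_card hS]

end PM

section Move

variable {n : ℕ}

theorem switchMove_hasDegrees {d : Fin n → ℕ} {G : SimpleGraph (Fin n)} (hG : HasDegrees d G)
    {S : Finset (Fin n)} {F F' : Finset (Sym2 (Fin n))} (hF : F ∈ perfectMatchings S)
    (hF' : F' ∈ perfectMatchings S) : HasDegrees d (switchMove G F F') := by
  classical
  unfold switchMove
  split_ifs with hc
  swap
  · exact hG
  obtain ⟨hc1, hc2⟩ := hc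
  intro v
  rw [← hG v]
  have hadj : ∀ w, (SimpleGraph.fromEdgeSet ((G.edgeSet \ (F : Set (Sym2 (Fin n)))) ∪
      (F' : Set (Sym2 (Fin n))))).Adj v w ↔ (G.Adj v w ∧ s(v, w) ∉ F) ∨ s(v, w) ∈ F' := by
    intro w
    rw [SimpleGraph.fromEdgeSet_adj]
    simp only [Set.mem_union, Set.mem_sdiff, SimpleGraph.mem_edgeSet, Finset.mem_coe]
    constructor
    · rintro ⟨h, _⟩; exact h
    · intro h
      refine ⟨h, ?_⟩
      rcases h with h | h
      · exact h.1.ne
      · exact (PM_mem hF' h).2.2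
  by_cases hv : v ∈ S
  · obtain ⟨x, hx, hw⟩ := (mem_PM.mp hF).2.2 v hv
    obtain ⟨y, hy, hw'⟩ := (mem_PM.mp hF').2.2 v hv
    have hxN : x ∈ G.neighborSet v := hc1 _ ((hw x).mpr rfl)
    have hyN : y ∉ G.neighborSet v := hc2 _ ((hw' y).mpr rfl)
    rw [← Set.ncard_exchange hyN hxN]
    congr 1
    ext w
    rw [SimpleGraph.mem_neighborSet, hadj, hw, hw']
    simp only [Set.mem_insert_iff, Set.mem_sdiff, SimpleGraph.mem_neighborSet,
      Set.mem_singleton_iff]
    (clear * -; tauto)
  · congr 1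
    ext w
    rw [SimpleGraph.mem_neighborSet, hadj, SimpleGraph.mem_neighborSet]
    constructor
    · rintro (h | h)
      · exact h.1
      · exact absurd (PM_mem hF' h).1 hv
    · intro h
      exact Or.inl ⟨h, fun h' => hv (PM_mem hF h').1⟩

theorem switchMove_symm {G H : SimpleGraph (Fin n)} (hne : G ≠ H)
    {S : Finset (Fin n)} {F F' : Finset (Sym2 (Fin n))}
    (hF' : F' ∈ perfectMatchings S) (h : switchMove G F F' = H) : switchMove H F' F = G := by
  classical
  unfold switchMove at h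
  split_ifs at h with hc
  swap
  · exact absurd h hne
  obtain ⟨hc1, hc2⟩ := hc
  have hmem : ∀ e, e ∈ H.edgeSet ↔ (e ∈ G.edgeSet ∧ e ∉ F) ∨ e ∈ F' := by
    intro e
    rw [← h, SimpleGraph.edgeSet_fromEdgeSet]
    simp only [Set.mem_sdiff, Set.mem_union, Finset.mem_coe]
    constructor
    · rintro ⟨h, _⟩; exact h
    · intro h
      refine ⟨h, ?_⟩
      rcases h with h | h
      · exact G.not_isDiag_of_mem_edgeSet h.1
      · exact (mem_PM.mp hF').2.1 e h
  unfold switchMove
  rw [if_pos]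
  · rw [← SimpleGraph.edgeSet_inj, SimpleGraph.edgeSet_fromEdgeSet]
    ext e
    simp only [Set.mem_sdiff, Set.mem_union, Finset.mem_coe, hmem]
    constructor
    · rintro ⟨(⟨(h | h), h'⟩ | h), _⟩
      · exact h.1
      · exact absurd h h'
      · exact hc1 e h
    · intro he
      refine ⟨?_, G.not_isDiag_of_mem_edgeSet he⟩
      by_cases heF : e ∈ F
      · exact Or.inr heF
      · exact Or.inl ⟨Or.inl ⟨he, heF⟩, fun h' => hc2 e h' he⟩
  · constructor
    · intro e he
      exact (hmem e).mpr (Or.inr he)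
    · intro e he he'
      rcases (hmem e).mp he' with h | h
      · exact h.2 he
      · exact hc2 e h (hc1 e he)

end Move

section Chain

variable {n : ℕ}

open Classical in
/-- The non-lazy part of the switch chain. -/
noncomputable def Qmat (d : Fin n → ℕ) (G H : Realization d) : ℝ :=
  ∑ S ∈ (univ : Finset (Fin n)).powersetCard 4, (1 / (n.choose 4 : ℝ)) *
      ∑ p ∈ (perfectMatchings S).offDiag, (1 / 6) *
        (if switchMove G.1 p.1 p.2 = H.1 then 1 else 0)

open Classical in
theorem switchChain_eq (d : Fin n → ℕ) (G H : Realization d) :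
    switchChain d G H = (1 / 2) * (if G = H then 1 else 0) + (1 / 2) * Qmat d G H := rfl

theorem Qmat_nonneg (d : Fin n → ℕ) (G H : Realization d) : 0 ≤ Qmat d G H := by
  classical
  unfold Qmat
  refine Finset.sum_nonneg fun S _ => mul_nonneg (by positivity) ?_
  refine Finset.sum_nonneg fun p _ => mul_nonneg (by norm_num) ?_
  split_ifs <;> norm_num

theorem Qmat_symm (d : Fin n → ℕ) (G H : Realization d) : Qmat d G H = Qmat d H G := by
  classical
  by_cases hGH : G = H
  · rw [hGH]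
  have hne : G.1 ≠ H.1 := fun h => hGH (Subtype.ext h)
  unfold Qmat
  refine Finset.sum_congr rfl fun S _ => ?_
  congr 1
  refine Finset.sum_nbij' Prod.swap Prod.swap ?_ ?_ ?_ ?_ ?_
  · intro p hp
    simp only [Finset.mem_offDiag, Prod.fst_swap, Prod.snd_swap] at hp ⊢
    exact ⟨hp.2.1, hp.1, hp.2.2.symm⟩
  · intro p hp
    simp only [Finset.mem_offDiag, Prod.fst_swap, Prod.snd_swap] at hp ⊢
    exact ⟨hp.2.1, hp.1, hp.2.2.symm⟩
  · intro p _; simp
  · intro p _; simp
  · intro p hp
    simp only [Finset.mem_offDiag] at hp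
    congr 1
    refine if_congr ?_ rfl rfl
    simp only [Prod.fst_swap, Prod.snd_swap]
    exact ⟨fun h => switchMove_symm hne hp.2.1 h, fun h => switchMove_symm hne.symm hp.1 h⟩

open Classical in
theorem Qmat_row (hn : 4 ≤ n) (d : Fin n → ℕ) (G : Realization d) : ∑ H, Qmat d G H = 1 := by
  classical
  unfold Qmat
  rw [Finset.sum_comm]
  have hC : (0 : ℝ) < (n.choose 4 : ℝ) := by exact_mod_cast Nat.choose_pos hn
  have h1 : ∀ S ∈ (univ : Finset (Fin n)).powersetCard 4,
      ∑ H : Realization d, (1 / (n.choose 4 : ℝ)) *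
      ∑ p ∈ (perfectMatchings S).offDiag, (1 / 6) *
        (if switchMove G.1 p.1 p.2 = H.1 then (1 : ℝ) else 0) = 1 / (n.choose 4 : ℝ) := by
    intro S hS
    rw [Finset.mem_powersetCard] at hS
    rw [← Finset.mul_sum, Finset.sum_comm]
    have h2 : ∀ p ∈ (perfectMatchings S).offDiag, ∑ H : Realization d, (1 / 6) *
        (if switchMove G.1 p.1 p.2 = H.1 then (1 : ℝ) else 0) = 1 / 6 := by
      intro p hp
      rw [Finset.mem_offDiag] at hp
      rw [← Finset.mul_sum]
      have : ∀ H : Realization d, (if switchMove G.1 p.1 p.2 = H.1 then (1 : ℝ) else 0)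
          = if (⟨switchMove G.1 p.1 p.2, switchMove_hasDegrees G.2 hp.1 hp.2.1⟩ :
            Realization d) = H then 1 else 0 := by
        intro H
        refine if_congr ?_ rfl rfl
        rw [Subtype.ext_iff]
      simp_rw [this]
      rw [Finset.sum_ite_eq]
      simp only [one_div, mem_univ, ↓reduceIte, mul_one]
    rw [Finset.sum_congr rfl h2, Finset.sum_const, PM_offDiag_card hS.2]
    norm_num
  rw [Finset.sum_congr rfl h1, Finset.sum_const, Finset.card_powersetCard, Finset.card_univ,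
    Fintype.card_fin, nsmul_eq_mul]
  field_simp

theorem chain_ge_of_switchAdj (hn : 4 ≤ n) (d : Fin n → ℕ) (G H : Realization d)
    (h : SwitchAdj G.1 H.1) : 1 / (12 * (n.choose 4 : ℝ)) ≤ switchChain d G H := by
  classical
  have hC : (0 : ℝ) < (n.choose 4 : ℝ) := by exact_mod_cast Nat.choose_pos hn
  obtain ⟨a, b, c, e, hab, hac, hae, hbc, hbe, hce, h1, h2, h3, h4, h5⟩ := h
  have hSc : ({a, b, c, e} : Finset (Fin n)) ∈ (univ : Finset (Fin n)).powersetCard 4 := by
    rw [Finset.mem_powersetCard]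
    refine ⟨Finset.subset_univ _, ?_⟩
    rw [Finset.card_insert_of_notMem, Finset.card_insert_of_notMem, Finset.card_pair hce]
    · simp [hbc, hbe]
    · simp [hab, hac, hae]
  have p1 : ({a, b, c, e} : Finset (Fin n)) = {a, c, b, e} := by
    ext x; simp only [Finset.mem_insert, Finset.mem_singleton]; (clear * -; tauto)
  have hF := PM_pair_mem hab hac hae hbc hbe hce
  have hF' := PM_pair_mem hac hab hae hbc.symm hce hbe
  rw [← p1] at hF'
  have hmem : (({s(a, b), s(c, e)}, {s(a, c), s(b, e)}) :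
      Finset (Sym2 (Fin n)) × Finset (Sym2 (Fin n))) ∈
      (perfectMatchings ({a, b, c, e} : Finset (Fin n))).offDiag := by
    rw [Finset.mem_offDiag]
    exact ⟨hF, hF', PM_ne hab hae hbc⟩
  have hmove : switchMove G.1 {s(a, b), s(c, e)} {s(a, c), s(b, e)} = H.1 := by
    unfold switchMove
    rw [if_pos, h5]
    · push_cast
      rfl
    · constructor
      · intro f hf
        simp only [Finset.mem_insert, Finset.mem_singleton] at hf
        rcases hf with rfl | rfl
        · exact h1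
        · exact h2
      · intro f hf
        simp only [Finset.mem_insert, Finset.mem_singleton] at hf
        rcases hf with rfl | rfl
        · exact h3
        · exact h4
  have hQ : 1 / (6 * (n.choose 4 : ℝ)) ≤ Qmat d G H := by
    unfold Qmat
    have hnn : ∀ S : Finset (Fin n), (0 : ℝ) ≤ (1 / (n.choose 4 : ℝ)) *
      ∑ p ∈ (perfectMatchings S).offDiag, (1 / 6) *
        (if switchMove G.1 p.1 p.2 = H.1 then 1 else 0) := by
      intro S
      refine mul_nonneg (by (clear * - hC; positivity)) ?_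
      refine Finset.sum_nonneg fun p _ => mul_nonneg (by norm_num) ?_
      split_ifs <;> norm_num
    refine le_trans ?_ (Finset.single_le_sum (fun S _ => hnn S) hSc)
    have h6 : (1 / 6 : ℝ) ≤ ∑ p ∈ (perfectMatchings ({a, b, c, e} : Finset (Fin n))).offDiag,
        (1 / 6) * (if switchMove G.1 p.1 p.2 = H.1 then 1 else 0) := by
      refine le_trans ?_ (Finset.single_le_sum
        (f := fun p : Finset (Sym2 (Fin n)) × Finset (Sym2 (Fin n)) =>
          (1 / 6 : ℝ) * (if switchMove G.1 p.1 p.2 = H.1 then 1 else 0))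
        (fun p _ => ?_) hmem)
      · simp only [hmove, if_true]; norm_num
      · exact mul_nonneg (by norm_num) (by split_ifs <;> norm_num)
    calc 1 / (6 * (n.choose 4 : ℝ)) = (1 / (n.choose 4 : ℝ)) * (1 / 6) := by (clear * - hC; field_simp)
      _ ≤ _ := mul_le_mul_of_nonneg_left h6 (by (clear * - hC; positivity))
  rw [switchChain_eq]
  have h7 : (0 : ℝ) ≤ (1 / 2) * (if G = H then 1 else 0) := by split_ifs <;> norm_num
  have h8 : 1 / (12 * (n.choose 4 : ℝ)) = (1 / 2) * (1 / (6 * (n.choose 4 : ℝ))) := by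
    field_simp; norm_num
  rw [h8]
  linarith only [hQ, h7]

theorem chain_nonneg (d : Fin n → ℕ) (G H : Realization d) : 0 ≤ switchChain d G H := by
  classical
  rw [switchChain_eq]
  have := Qmat_nonneg d G H
  have h7 : (0 : ℝ) ≤ (1 / 2) * (if G = H then 1 else 0) := by split_ifs <;> norm_num
  linarith

open Classical in
theorem card_realization_le (d : Fin n → ℕ) :
    Fintype.card (Realization d) ≤ 2 ^ (n.choose 2) := by
  classical
  have h1 : Fintype.card (Realization d) ≤
      ((⊤ : SimpleGraph (Fin n)).edgeFinset.powerset).card := by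
    rw [← Finset.card_univ]
    refine Finset.card_le_card_of_injOn (fun G => G.1.edgeFinset) ?_ ?_
    · intro G _
      simp only [Finset.coe_powerset, Set.mem_preimage, Set.mem_powerset_iff, Finset.coe_subset]
      exact SimpleGraph.edgeFinset_mono le_top
    · intro G _ H _ h
      exact Subtype.ext (SimpleGraph.edgeFinset_inj.mp h)
  rw [Finset.card_powerset, SimpleGraph.card_edgeFinset_top_eq_card_choose_two,
    Fintype.card_fin] at h1
  exact h1

end Chain

section Final

variable {n : ℕ}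

open Classical in
theorem gap_of_poincare (hn : 4 ≤ n) (d : Fin n → ℕ) {K : ℝ} (hK : 0 < K) (h : Poincare d K)
    [Nonempty (Realization d)] (f : Realization d → ℝ) (hf : ∑ x, f x = 0) :
    (1 / (12 * (n.choose 4 : ℝ) * K)) * ∑ x, f x ^ 2 ≤
      ∑ x, ∑ y, (1 / 2) * (switchChain d x y * (f x - f y) ^ 2) := by
  have hC : (0 : ℝ) < (n.choose 4 : ℝ) := by exact_mod_cast Nat.choose_pos hn
  have hN : (0 : ℝ) < Fintype.card (Realization d) := by exact_mod_cast Fintype.card_pos
  have h1 := h f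
  have h2 : ∑ G : Realization d, ∑ H : Realization d, (f G - f H) ^ 2
      = 2 * (Fintype.card (Realization d) : ℝ) * ∑ x, f x ^ 2 := by
    have e : ∀ G H : Realization d, (f G - f H) ^ 2 = f G ^ 2 + f H ^ 2 - 2 * (f G * f H) := by
      intro G H; ring
    simp_rw [e]
    simp only [Finset.sum_add_distrib, Finset.sum_sub_distrib, ← Finset.mul_sum, hf,
      Finset.sum_const, Finset.card_univ, nsmul_eq_mul, mul_zero, Finset.sum_const_zero]
    ring
  rw [h2] at h1
  have h3 : ∑ G : Realization d, ∑ H : Realization d,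
      (if SwitchAdj G.1 H.1 then (f G - f H) ^ 2 else 0) ≤
      12 * (n.choose 4 : ℝ) * ∑ x, ∑ y, (switchChain d x y * (f x - f y) ^ 2) := by
    rw [Finset.mul_sum]
    refine Finset.sum_le_sum fun G _ => ?_
    rw [Finset.mul_sum]
    refine Finset.sum_le_sum fun H _ => ?_
    split_ifs with hsw
    · have h4 := chain_ge_of_switchAdj hn d G H hsw
      have h5 : 1 ≤ 12 * (n.choose 4 : ℝ) * switchChain d G H := by
        rw [div_le_iff₀ (by (clear * - hC; positivity))] at h4
        linarith only [h4]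
      calc (f G - f H) ^ 2 = 1 * (f G - f H) ^ 2 := by ring
        _ ≤ (12 * (n.choose 4 : ℝ) * switchChain d G H) * (f G - f H) ^ 2 :=
            mul_le_mul_of_nonneg_right h5 (sq_nonneg _)
        _ = _ := by ring
    · exact mul_nonneg (by (clear * - hC; positivity)) (mul_nonneg (chain_nonneg d G H) (sq_nonneg _))
  have h6 : 2 * ∑ x, f x ^ 2 ≤ K * (12 * (n.choose 4 : ℝ) *
      ∑ x, ∑ y, (switchChain d x y * (f x - f y) ^ 2)) := by
    have h7 : (Fintype.card (Realization d) : ℝ) * (2 * ∑ x, f x ^ 2) ≤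
        (Fintype.card (Realization d) : ℝ) * (K * ∑ G : Realization d, ∑ H : Realization d,
          (if SwitchAdj G.1 H.1 then (f G - f H) ^ 2 else 0)) := by
      linarith only [h1]
    have h8 := le_of_mul_le_mul_left h7 hN
    exact h8.trans (mul_le_mul_of_nonneg_left h3 hK.le)
  simp_rw [← Finset.mul_sum]
  rw [div_mul_eq_mul_div, one_mul, div_le_iff₀ (by (clear * - hC hK; positivity))]
  linarith only [h6]

end Final

/-- TASK T1: end game. (`K = 1/2` corresponds to spectral gap `>= 2` of the unnormalised switch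
Laplacian, i.e. gap of the chain `>= 1/(6*C(n,4))`.) -/
theorem mixed_of_poincare {n : ℕ} (hn : 4 ≤ n) (d : Fin n → ℕ) (_hd : Graphical d) {K : ℝ}
    (hK : 0 < K) (h : Poincare d K) (t : ℕ)
    (ht : 12 * (n.choose 4 : ℝ) * K * (Real.log 4 + (n.choose 2 : ℝ) * Real.log 2) ≤ t) :
    MixedBy d t := by
  classical
  intro G
  have : Nonempty (Realization d) := ⟨G⟩
  have hC : (0 : ℝ) < (n.choose 4 : ℝ) := by exact_mod_cast Nat.choose_pos hn
  have hN : (0 : ℝ) < Fintype.card (Realization d) := by exact_mod_cast Fintype.card_pos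
  obtain ⟨_, h2⟩ := lazy_mixing (Qmat d) (switchChain d) (Qmat_nonneg d) (Qmat_symm d)
    (Qmat_row hn d) (switchChain_eq d) _ (gap_of_poincare hn d hK h) t G
  have h3 : (∑ H : Realization d,
      |(switchChain d ^ t) G H - 1 / (Fintype.card (Realization d) : ℝ)|) ^ 2 ≤
      (Fintype.card (Realization d) : ℝ) * ∑ H : Realization d,
        ((switchChain d ^ t) G H - 1 / (Fintype.card (Realization d) : ℝ)) ^ 2 := by
    have := sq_sum_le_card_mul_sum_sq (s := (univ : Finset (Realization d)))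
      (f := fun H => |(switchChain d ^ t) G H - 1 / (Fintype.card (Realization d) : ℝ)|)
    simpa only [sq_abs, Finset.card_univ] using this
  have hNle : (Fintype.card (Realization d) : ℝ) ≤ 2 ^ (n.choose 2) := by
    exact_mod_cast card_realization_le d
  have h4 : Real.exp (-(1 / (12 * (n.choose 4 : ℝ) * K) * t)) ≤
      1 / (4 * 2 ^ (n.choose 2)) := by
    have h5 : Real.log 4 + (n.choose 2 : ℝ) * Real.log 2 ≤ 1 / (12 * (n.choose 4 : ℝ) * K) * t := by
      rw [div_mul_eq_mul_div, one_mul, le_div_iff₀ (by positivity)]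
      linarith only [ht]
    have h6 : Real.exp (-(Real.log 4 + (n.choose 2 : ℝ) * Real.log 2)) =
        1 / (4 * 2 ^ (n.choose 2)) := by
      rw [Real.exp_neg, Real.exp_add, Real.exp_log (by norm_num), ← Real.log_pow,
        Real.exp_log (by positivity), one_div]
    rw [← h6]
    exact Real.exp_le_exp.mpr (by linarith only [h5])
  have h7 : (∑ H : Realization d,
      |(switchChain d ^ t) G H - 1 / (Fintype.card (Realization d) : ℝ)|) ^ 2 ≤ (1 / 2) ^ 2 := by
    calc _ ≤ _ := h3
      _ ≤ (Fintype.card (Realization d) : ℝ) * (1 / (4 * 2 ^ (n.choose 2))) :=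
          mul_le_mul_of_nonneg_left (h2.trans h4) hN.le
      _ ≤ 2 ^ (n.choose 2) * (1 / (4 * 2 ^ (n.choose 2))) :=
          mul_le_mul_of_nonneg_right hNle (by positivity)
      _ = (1 / 2) ^ 2 := by
          field_simp; norm_num
  have h8 := (le_abs_self _).trans (abs_le_of_sq_le_sq h7 (by norm_num))
  linarith only [h8]

end Vale.Agent.P335
end
end

section

section

namespace Vale.Agent.P335

open Finset

theorem num_bound {n : ℕ} (hn : 4 ≤ n) {K : ℝ} (hK : 0 ≤ K) :
    12 * (n.choose 4 : ℝ) * K * (Real.log 4 + (n.choose 2 : ℝ) * Real.log 2) ≤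
      2 * K * (n : ℝ) ^ 6 := by
  have h4 : (n.choose 4 : ℝ) ≤ (n : ℝ) ^ 4 / 24 := by
    have := Nat.choose_le_pow_div (α := ℝ) 4 n
    simpa only [ge_iff_le, Nat.factorial, Nat.succ_eq_add_one, Nat.reduceAdd, zero_add, mul_one, Nat.reduceMul,     Nat.cast_ofNat] using this
  have h2 : (n.choose 2 : ℝ) ≤ (n : ℝ) ^ 2 / 2 := by
    have := Nat.choose_le_pow_div (α := ℝ) 2 n
    simpa only [ge_iff_le, Nat.factorial, Nat.succ_eq_add_one, Nat.reduceAdd, zero_add, mul_one,     Nat.cast_ofNat] using this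
  have hl2 : Real.log 2 ≤ 1 := by
    have := Real.log_two_lt_d9; linarith only [this]
  have hl20 : 0 ≤ Real.log 2 := Real.log_nonneg (by norm_num)
  have hl4 : Real.log 4 ≤ 2 := by
    have : (4 : ℝ) = 2 ^ 2 := by norm_num
    rw [this, Real.log_pow]; push_cast; linarith only [hl2]
  have hl40 : 0 ≤ Real.log 4 := Real.log_nonneg (by norm_num)
  have hn' : (4 : ℝ) ≤ n := by exact_mod_cast hn
  have h5 : Real.log 4 + (n.choose 2 : ℝ) * Real.log 2 ≤ 4 * (n : ℝ) ^ 2 := by
    have : (n.choose 2 : ℝ) * Real.log 2 ≤ (n : ℝ) ^ 2 / 2 * 1 :=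
      mul_le_mul h2 hl2 hl20 (by positivity)
    nlinarith only [hl4, hn', this]
  have h50 : 0 ≤ Real.log 4 + (n.choose 2 : ℝ) * Real.log 2 := by positivity
  calc 12 * (n.choose 4 : ℝ) * K * (Real.log 4 + (n.choose 2 : ℝ) * Real.log 2)
      ≤ 12 * ((n : ℝ) ^ 4 / 24) * K * (4 * (n : ℝ) ^ 2) := by gcongr
    _ = 2 * K * (n : ℝ) ^ 6 := by ring

theorem mixed_of_poincare' {n : ℕ} (hn : 4 ≤ n) (d : Fin n → ℕ) (hd : Graphical d) {K : ℝ}
    (hK : 0 < K) (h : Poincare d K) (t : ℕ) (ht : 2 * K * (n : ℝ) ^ 6 ≤ t) : MixedBy d t :=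
  mixed_of_poincare hn d hd hK h t ((num_bound hn hK.le).trans ht)

/-- With spectral gap `≥ 2` of the unnormalised switch Laplacian, the chain is mixed at every
time `t ≥ n ^ 6`. -/
theorem mixed_of_half {n : ℕ} (hn : 4 ≤ n) (d : Fin n → ℕ) (hd : Graphical d)
    (h : Poincare d (1 / 2)) (t : ℕ) (ht : n ^ 6 ≤ t) : MixedBy d t := by
  refine mixed_of_poincare' hn d hd (by norm_num) h t ?_
  have : ((n ^ 6 : ℕ) : ℝ) ≤ t := by exact_mod_cast ht
  push_cast at this
  linarith only [this]

theorem isLeast_tmix {n : ℕ} {d : Fin n → ℕ} {t : ℕ} (h : MixedBy d t) :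
    IsLeast {t | MixedBy d t} (tmix d) :=
  ⟨Nat.sInf_mem ⟨t, h⟩, fun _ hs => Nat.sInf_le hs⟩

theorem tmix_le {n : ℕ} {d : Fin n → ℕ} {t : ℕ} (h : MixedBy d t) : tmix d ≤ t :=
  Nat.sInf_le h

theorem final_of_half (h : ∀ n : ℕ, 4 ≤ n → ∀ d : Fin n → ℕ, Graphical d → Poincare d (1 / 2)) :
    ∀ n : ℕ, 4 ≤ n → ∀ d : Fin n → ℕ, Graphical d →
      IsLeast {t | MixedBy d t} (tmix d) ∧ tmix d ≤ n ^ 6 ∧ ∀ t, n ^ 6 ≤ t → MixedBy d t := by
  intro n hn d hd
  have h1 := mixed_of_half hn d hd (h n hn d hd)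
  exact ⟨isLeast_tmix (h1 _ le_rfl), tmix_le (h1 _ le_rfl), h1⟩

theorem final_of_poincare (q : Polynomial ℕ)
    (h : ∀ n : ℕ, 4 ≤ n → ∀ d : Fin n → ℕ, Graphical d →
      ∃ K : ℝ, 0 < K ∧ K ≤ (q.eval n : ℕ) ∧ Poincare d K) :
    ∃ p : Polynomial ℕ, ∀ n : ℕ, 4 ≤ n → ∀ d : Fin n → ℕ, Graphical d →
      IsLeast {t | MixedBy d t} (tmix d) ∧ tmix d ≤ p.eval n := by
  refine ⟨2 * q * Polynomial.X ^ 6, ?_⟩
  intro n hn d hd
  obtain ⟨K, hK0, hKq, hP⟩ := h n hn d hd
  have h1 : MixedBy d ((2 * q * Polynomial.X ^ 6).eval n) := by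
    refine mixed_of_poincare' hn d hd hK0 hP _ ?_
    simp only [Polynomial.eval_mul, Polynomial.eval_ofNat, Polynomial.eval_pow, Polynomial.eval_X]
    push_cast
    gcongr
  exact ⟨isLeast_tmix h1, tmix_le h1⟩

end Vale.Agent.P335
end
end

section

section

namespace Vale.Agent.P335.RA

open Finset

set_option linter.unusedSectionVars false

variable {V : Type*} [Fintype V] [DecidableEq V] {d : V → ℕ}

/-- The statement of the triple inequality. -/
def TripleNonneg (d : V → ℕ) : Prop :=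
  ∀ (a b c : V), a ≠ b → b ≠ c → a ≠ c → ∀ f : St d → ℝ,
    0 ≤ ip (Dev a b f) (Dev a c f) + ip (Dev b a f) (Dev b c f) + ip (Dev c a f) (Dev c b f)

section sums

variable {β : Type*} [AddCommMonoid β]

open Classical in
/-- Decomposition of a sum over ordered pairs of distinct vertices relative to a given pair. -/
lemma sum_pairs {a c : V} (hac : a ≠ c) (G : V → V → ℝ) :
    ∑ b, ∑ e, (if b ≠ e then G b e else 0) =
      ∑ b, ∑ e, (if Four a c b e then G b e else 0) +
      ∑ e, (if e ≠ a ∧ e ≠ c then G a e else 0) + ∑ e, (if e ≠ a ∧ e ≠ c then G c e else 0) +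
      ∑ b, (if b ≠ a ∧ b ≠ c then G b a else 0) + ∑ b, (if b ≠ a ∧ b ≠ c then G b c else 0) +
      G a c + G c a := by
  have h1 : ∀ b e, (if b ≠ e then G b e else 0) = (if Four a c b e then G b e else 0) +
      (if b = a then (if e ≠ a ∧ e ≠ c then G a e else 0) else 0) +
      (if b = c then (if e ≠ a ∧ e ≠ c then G c e else 0) else 0) +
      (if e = a then (if b ≠ a ∧ b ≠ c then G b a else 0) else 0) +
      (if e = c then (if b ≠ a ∧ b ≠ c then G b c else 0) else 0) +
      (if b = a then (if e = c then G a c else 0) else 0) +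
      (if b = c then (if e = a then G c a else 0) else 0) := by
    intro b e
    by_cases hba : b = a
    · subst hba
      have hF : ¬ Four b c b e := fun h => h.ab rfl
      by_cases heb : e = b
      · subst heb
        simp [hF, hac]
      · by_cases hec : e = c
        · subst hec
          simp [hF, hac, hac.symm]
        · simp [hF, hac, heb, hec, Ne.symm heb]
    · by_cases hbc : b = c
      · subst hbc
        have hF : ¬ Four a b b e := fun h => h.cb rfl
        by_cases hea : e = a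
        · subst hea
          simp [hF, hba]
        · by_cases heb : e = b
          · subst heb
            simp [hF, hba]
          · simp [hF, hba, hea, heb, Ne.symm heb]
      · by_cases hea : e = a
        · subst hea
          have hF : ¬ Four e c b e := fun h => h.ae rfl
          simp [hF, hba, hbc, hac]
        · by_cases hec : e = c
          · subst hec
            have hF : ¬ Four a e b e := fun h => h.ce rfl
            simp [hF, hba, hbc, hea]
          · by_cases hbe : b = e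
            · subst hbe
              have hF : ¬ Four a c b b := fun h => h.be rfl
              simp [hF, hba, hbc]
            · have hF : Four a c b e :=
                ⟨hac, hbe, Ne.symm hba, Ne.symm hea, Ne.symm hbc, Ne.symm hec⟩
              simp [hF, hba, hbc, hea, hec, hbe]
  simp_rw [h1]
  simp only [Finset.sum_add_distrib]
  have h2 : ∀ (u : V) (g : V → ℝ), ∑ b, ∑ e, (if b = u then g e else 0) = ∑ e, g e := by
    intro u g
    rw [Finset.sum_comm]
    refine Finset.sum_congr rfl (fun e _ => ?_)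
    rw [Finset.sum_ite_eq' univ u (fun _ => g e), if_pos (mem_univ u)]
  have h3 : ∀ (u : V) (g : V → ℝ), ∑ b, ∑ e, (if e = u then g b else 0) = ∑ b, g b := by
    intro u g
    refine Finset.sum_congr rfl (fun b _ => ?_)
    rw [Finset.sum_ite_eq' univ u (fun _ => g b), if_pos (mem_univ u)]
  rw [h2 a (fun e => if e ≠ a ∧ e ≠ c then G a e else 0),
    h2 c (fun e => if e ≠ a ∧ e ≠ c then G c e else 0),
    h3 a (fun b => if b ≠ a ∧ b ≠ c then G b a else 0),
    h3 c (fun b => if b ≠ a ∧ b ≠ c then G b c else 0),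
    h2 a (fun e => if e = c then G a c else 0), h2 c (fun e => if e = a then G c a else 0)]
  rw [Finset.sum_ite_eq' univ c (fun _ => G a c), if_pos (mem_univ c),
    Finset.sum_ite_eq' univ a (fun _ => G c a), if_pos (mem_univ a)]

end sums

open Classical in
/-- The sum over disjoint pairs. -/
lemma disj_ge (f : St d → ℝ) :
    2 * ∑ a, ∑ c, (if a ≠ c then ip (Dev a c f) (Dev a c f) else 0) ≤
      ∑ a, ∑ c, ∑ b, ∑ e, (if Four a c b e then ip (Dev a c f) (Dev b e f) else 0) := by
  have h1 : ∀ a c b e : V, ip (Pi2 a c b e f) (Pi2 a c b e f) -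
      (1 / 2) * ip (xdiff a c b e f) (xdiff a c b e f) -
      (1 / 2) * ip (xdiff b e a c f) (xdiff b e a c f) ≤
      (if Four a c b e then ip (Dev a c f) (Dev b e f) else 0) := by
    intro a c b e
    by_cases h4 : Four a c b e
    · rw [if_pos h4]; exact pair_ineq h4 f
    · rw [if_neg h4, Pi2_of_not_four h4, xdiff_of_not_four h4,
        xdiff_of_not_four (fun h => h4 h.swap)]
      unfold ip; simp only [Pi.zero_apply, mul_zero, sum_const_zero, one_div, sub_self, Std.le_refl]
  have h2 : ∑ a, ∑ c, ∑ b, ∑ e, (ip (Pi2 a c b e f) (Pi2 a c b e f) -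
      (1 / 2) * ip (xdiff a c b e f) (xdiff a c b e f) -
      (1 / 2) * ip (xdiff b e a c f) (xdiff b e a c f)) ≤
      ∑ a, ∑ c, ∑ b, ∑ e, (if Four a c b e then ip (Dev a c f) (Dev b e f) else 0) :=
    Finset.sum_le_sum fun a _ => Finset.sum_le_sum fun c _ => Finset.sum_le_sum fun b _ =>
      Finset.sum_le_sum fun e _ => h1 a c b e
  have h3 : ∑ a, ∑ c, ∑ b, ∑ e, ip (xdiff b e a c f) (xdiff b e a c f) =
      ∑ a : V, ∑ c, ∑ b, ∑ e, ip (xdiff a c b e f) (xdiff a c b e f) := by
    have s1 : ∀ F : V → V → V → V → ℝ, ∑ a, ∑ c, ∑ b, ∑ e, F a c b e =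
        ∑ p : V × V, ∑ q : V × V, F p.1 p.2 q.1 q.2 := by
      intro F
      rw [Fintype.sum_prod_type]
      refine Finset.sum_congr rfl fun a _ => Finset.sum_congr rfl fun c _ => ?_
      rw [Fintype.sum_prod_type]
    rw [s1, s1 (fun a c b e => ip (xdiff a c b e f) (xdiff a c b e f)), Finset.sum_comm]
  have h4 : ∑ a, ∑ c, ∑ b, ∑ e, (ip (Pi2 a c b e f) (Pi2 a c b e f) -
      (1 / 2) * ip (xdiff a c b e f) (xdiff a c b e f) -
      (1 / 2) * ip (xdiff b e a c f) (xdiff b e a c f)) =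
      ∑ a, ∑ c, ∑ b, ∑ e, (ip (Pi2 a c b e f) (Pi2 a c b e f) -
        ip (xdiff a c b e f) (xdiff a c b e f)) := by
    simp only [Finset.sum_sub_distrib, ← Finset.mul_sum]
    rw [h3]
    ring
  rw [h4] at h2
  refine le_trans ?_ h2
  rw [Finset.mul_sum]
  refine Finset.sum_le_sum fun a _ => ?_
  rw [Finset.mul_sum]
  refine Finset.sum_le_sum fun c _ => ?_
  by_cases hac : a = c
  · subst hac
    rw [if_neg (by simp), mul_zero]
    refine le_of_eq (Eq.symm ?_)
    refine Finset.sum_eq_zero fun b _ => Finset.sum_eq_zero fun e _ => ?_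
    have h4 : ¬ Four a a b e := fun h => h.ac rfl
    rw [Pi2_of_not_four h4, xdiff_of_not_four h4]
    unfold ip; simp only [Pi.zero_apply, mul_zero, sum_const_zero, sub_self]
  · rw [if_pos hac]
    exact classB hac f

/-- The operator `Γ = ∑_p D_p` (over unordered pairs, written as half the sum over ordered
pairs). -/
noncomputable def Gam (d : V → ℕ) : (St d → ℝ) →ₗ[ℝ] (St d → ℝ) :=
  (1 / 2 : ℝ) • ∑ a : V, ∑ c : V, (if a ≠ c then cdevL (pairRel a c) else 0)

lemma Gam_apply (f : St d → ℝ) :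
    Gam d f = (1 / 2 : ℝ) • ∑ a : V, ∑ c : V, (if a ≠ c then Dev a c f else 0) := by
  unfold Gam
  rw [LinearMap.smul_apply, LinearMap.sum_apply]
  congr 1
  refine Finset.sum_congr rfl fun a _ => ?_
  rw [LinearMap.sum_apply]
  refine Finset.sum_congr rfl fun c _ => ?_
  split_ifs <;> simp [Dev]

lemma ip_sum_left {ι : Type*} (s : Finset ι) (F : ι → St d → ℝ) (g : St d → ℝ) :
    ip (∑ i ∈ s, F i) g = ∑ i ∈ s, ip (F i) g := by
  unfold ip
  rw [Finset.sum_comm]
  refine Finset.sum_congr rfl fun x _ => ?_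
  rw [Finset.sum_apply, Finset.sum_mul]

lemma ip_sum_right {ι : Type*} (s : Finset ι) (F : ι → St d → ℝ) (g : St d → ℝ) :
    ip g (∑ i ∈ s, F i) = ∑ i ∈ s, ip g (F i) := by
  rw [ip_comm, ip_sum_left]
  exact Finset.sum_congr rfl fun i _ => ip_comm _ _

lemma ip_ite_left (P : Prop) [Decidable P] (f g : St d → ℝ) :
    ip (if P then f else 0) g = if P then ip f g else 0 := by
  split_ifs
  · rfl
  · unfold ip; simp only [Pi.zero_apply, zero_mul, sum_const_zero]

lemma ip_ite_right (P : Prop) [Decidable P] (f g : St d → ℝ) :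
    ip g (if P then f else 0) = if P then ip g f else 0 := by
  split_ifs
  · rfl
  · unfold ip; simp only [Pi.zero_apply, mul_zero, sum_const_zero]

/-- The total deviation. -/
noncomputable def CC (f : St d → ℝ) : ℝ :=
  ∑ a : V, ∑ c : V, (if a ≠ c then ip (Dev a c f) (Dev a c f) else 0)

lemma ip_Gam (f g : St d → ℝ) : ip (Gam d f) g =
    (1 / 2) * ∑ a : V, ∑ c : V, (if a ≠ c then ip (Dev a c f) g else 0) := by
  rw [Gam_apply, ip_smul_left, ip_sum_left]
  congr 1
  refine Finset.sum_congr rfl fun a _ => ?_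
  rw [ip_sum_left]
  exact Finset.sum_congr rfl fun c _ => ip_ite_left _ _ _

lemma Gam_symm (f g : St d → ℝ) : ip (Gam d f) g = ip f (Gam d g) := by
  rw [ip_Gam, ip_comm f, ip_Gam]
  congr 1
  refine Finset.sum_congr rfl fun a _ => Finset.sum_congr rfl fun c _ => ?_
  split_ifs
  · unfold Dev; rw [ip_cdev, ip_comm]
  · rfl

lemma ip_Gam_self (f : St d → ℝ) : ip f (Gam d f) = (1 / 2) * CC f := by
  rw [ip_comm, ip_Gam]
  congr 1
  refine Finset.sum_congr rfl fun a _ => Finset.sum_congr rfl fun c _ => ?_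
  split_ifs
  · unfold Dev; rw [ip_comm, ip_cdev_self]
  · rfl

lemma CC_nonneg (f : St d → ℝ) : 0 ≤ CC f := by
  unfold CC
  refine Finset.sum_nonneg fun a _ => Finset.sum_nonneg fun c _ => ?_
  split_ifs
  · exact ip_self_nonneg _
  · exact le_rfl

open Classical in
lemma adj_nonneg (hT : TripleNonneg d) (f : St d → ℝ) :
    0 ≤ ∑ a : V, ∑ b : V, ∑ c : V, (if a ≠ b ∧ b ≠ c ∧ a ≠ c then
      ip (Dev a b f) (Dev a c f) else 0) := by
  set F : V → V → V → ℝ := fun a b c => if a ≠ b ∧ b ≠ c ∧ a ≠ c then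
      ip (Dev a b f) (Dev a c f) else 0 with hF
  have h1 : ∀ a b c, 0 ≤ F a b c + F b a c + F c a b := by
    intro a b c
    rw [hF]
    by_cases h : a ≠ b ∧ b ≠ c ∧ a ≠ c
    · have e2 : b ≠ a ∧ a ≠ c ∧ b ≠ c := ⟨h.1.symm, h.2.2, h.2.1⟩
      have e3 : c ≠ a ∧ a ≠ b ∧ c ≠ b := ⟨h.2.2.symm, h.1, h.2.1.symm⟩
      simp only [if_pos h, if_pos e2, if_pos e3]
      exact hT a b c h.1 h.2.1 h.2.2 f
    · have e2 : ¬ (b ≠ a ∧ a ≠ c ∧ b ≠ c) := fun h' => h ⟨h'.1.symm, h'.2.2, h'.2.1⟩
      have e3 : ¬ (c ≠ a ∧ a ≠ b ∧ c ≠ b) := fun h' => h ⟨h'.2.1, h'.2.2.symm, h'.1.symm⟩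
      simp only [if_neg h, if_neg e2, if_neg e3]
      norm_num
  have h2 : 0 ≤ ∑ a, ∑ b, ∑ c, (F a b c + F b a c + F c a b) :=
    Finset.sum_nonneg fun a _ => Finset.sum_nonneg fun b _ => Finset.sum_nonneg fun c _ => h1 a b c
  simp only [Finset.sum_add_distrib] at h2
  have h3 : ∑ a, ∑ b, ∑ c, F b a c = ∑ a, ∑ b, ∑ c, F a b c := Finset.sum_comm
  have h4 : ∑ a, ∑ b, ∑ c, F c a b = ∑ a, ∑ b, ∑ c, F a b c := by
    have : ∑ a, ∑ b, ∑ c, F c a b = ∑ a, ∑ c, ∑ b, F c a b :=
      Finset.sum_congr rfl fun a _ => Finset.sum_comm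
    rw [this, Finset.sum_comm]
  rw [h3, h4] at h2
  linarith only [h2]

open Classical in
lemma Gam_sq_ge (hT : TripleNonneg d) (f : St d → ℝ) : CC f ≤ ip (Gam d f) (Gam d f) := by
  have e1 : ip (Gam d f) (Gam d f) = (1 / 4) * ∑ a : V, ∑ c : V, (if a ≠ c then
      ∑ b : V, ∑ e : V, (if b ≠ e then ip (Dev a c f) (Dev b e f) else 0) else 0) := by
    rw [ip_Gam]
    have : ∀ a c : V, (if a ≠ c then ip (Dev a c f) (Gam d f) else 0) =
        (1 / 2) * (if a ≠ c then
          ∑ b : V, ∑ e : V, (if b ≠ e then ip (Dev a c f) (Dev b e f) else 0) else 0) := by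
      intro a c
      split_ifs with h
      · rw [ip_comm, ip_Gam]
        congr 1
        refine Finset.sum_congr rfl fun b _ => Finset.sum_congr rfl fun e _ => ?_
        split_ifs
        · rw [ip_comm]
        · rfl
      · ring
    simp_rw [this, ← Finset.mul_sum]
    ring
  have e2 : ∀ a c : V, (if a ≠ c then
      ∑ b : V, ∑ e : V, (if b ≠ e then ip (Dev a c f) (Dev b e f) else 0) else 0) =
      ∑ b, ∑ e, (if Four a c b e then ip (Dev a c f) (Dev b e f) else 0) +
      2 * ∑ x, (if a ≠ c ∧ c ≠ x ∧ a ≠ x then ip (Dev a c f) (Dev a x f) else 0) +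
      2 * ∑ x, (if c ≠ a ∧ a ≠ x ∧ c ≠ x then ip (Dev c a f) (Dev c x f) else 0) +
      2 * (if a ≠ c then ip (Dev a c f) (Dev a c f) else 0) := by
    intro a c
    by_cases hac : a = c
    · subst hac
      have h4 : ∀ b e : V, ¬ Four a a b e := fun b e h => h.ac rfl
      simp only [ne_eq, not_true_eq_false, ↓reduceIte, h4, sum_const_zero, and_self, false_and, mul_zero, add_zero]
    · rw [if_pos hac, sum_pairs hac (fun b e => ip (Dev a c f) (Dev b e f)), if_pos hac]
      have s1 : ∑ e, (if e ≠ a ∧ e ≠ c then ip (Dev a c f) (Dev a e f) else 0) =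
          ∑ x, (if a ≠ c ∧ c ≠ x ∧ a ≠ x then ip (Dev a c f) (Dev a x f) else 0) := by
        refine Finset.sum_congr rfl fun x _ => ?_
        refine if_congr ?_ rfl rfl
        constructor
        · exact fun h => ⟨hac, h.2.symm, h.1.symm⟩
        · exact fun h => ⟨h.2.2.symm, h.2.1.symm⟩
      have s2 : ∑ e, (if e ≠ a ∧ e ≠ c then ip (Dev a c f) (Dev c e f) else 0) =
          ∑ x, (if c ≠ a ∧ a ≠ x ∧ c ≠ x then ip (Dev c a f) (Dev c x f) else 0) := by
        refine Finset.sum_congr rfl fun x _ => ?_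
        rw [Dev_comm a c]
        refine if_congr ?_ rfl rfl
        constructor
        · exact fun h => ⟨Ne.symm hac, h.1.symm, h.2.symm⟩
        · exact fun h => ⟨h.2.1.symm, h.2.2.symm⟩
      have s3 : ∑ b, (if b ≠ a ∧ b ≠ c then ip (Dev a c f) (Dev b a f) else 0) =
          ∑ e, (if e ≠ a ∧ e ≠ c then ip (Dev a c f) (Dev a e f) else 0) := by
        refine Finset.sum_congr rfl fun x _ => ?_
        rw [Dev_comm x a]
      have s4 : ∑ b, (if b ≠ a ∧ b ≠ c then ip (Dev a c f) (Dev b c f) else 0) =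
          ∑ e, (if e ≠ a ∧ e ≠ c then ip (Dev a c f) (Dev c e f) else 0) := by
        refine Finset.sum_congr rfl fun x _ => ?_
        rw [Dev_comm x c]
      rw [s3, s4, s1, s2, Dev_comm c a]
      ring
  have e3 : ip (Gam d f) (Gam d f) = (1 / 4) *
      (∑ a : V, ∑ c : V, ∑ b, ∑ e, (if Four a c b e then ip (Dev a c f) (Dev b e f) else 0) +
      2 * ∑ a : V, ∑ c : V, ∑ x, (if a ≠ c ∧ c ≠ x ∧ a ≠ x then
        ip (Dev a c f) (Dev a x f) else 0) +
      2 * ∑ a : V, ∑ c : V, ∑ x, (if c ≠ a ∧ a ≠ x ∧ c ≠ x then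
        ip (Dev c a f) (Dev c x f) else 0) + 2 * CC f) := by
    rw [e1]
    simp_rw [e2]
    simp only [Finset.sum_add_distrib, ← Finset.mul_sum]
    rfl
  have e4 : ∑ a : V, ∑ c : V, ∑ x, (if c ≠ a ∧ a ≠ x ∧ c ≠ x then
        ip (Dev c a f) (Dev c x f) else 0) =
      ∑ a : V, ∑ c : V, ∑ x, (if a ≠ c ∧ c ≠ x ∧ a ≠ x then
        ip (Dev a c f) (Dev a x f) else 0) := Finset.sum_comm
  have h1 := adj_nonneg hT f
  have h2 : 2 * CC f ≤ _ := disj_ge f
  rw [e3, e4]
  linarith only [h1, h2]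

/-- The kernel of `Γ` consists of the constants. -/
lemma Gam_ker (f : St d → ℝ) (h : Gam d f = 0) : ∀ x y, f x = f y := by
  have h1 : CC f = 0 := by
    have := ip_Gam_self f
    rw [h] at this
    have h0 : ip f (0 : St d → ℝ) = 0 := by unfold ip; simp only [Pi.zero_apply, mul_zero, sum_const_zero]
    rw [h0] at this
    linarith
  unfold CC at h1
  rw [Finset.sum_eq_zero_iff_of_nonneg] at h1
  · refine const_of_Dev f (fun a c hac => ?_)
    have h2 := h1 a (mem_univ a)
    rw [Finset.sum_eq_zero_iff_of_nonneg] at h2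
    · have h3 := h2 c (mem_univ c)
      rw [if_pos hac] at h3
      rw [ip_self_eq_sum_sq, Finset.sum_eq_zero_iff_of_nonneg (fun _ _ => sq_nonneg _)] at h3
      funext x
      have := h3 x (mem_univ x)
      exact pow_eq_zero_iff (two_ne_zero) |>.mp this
    · intro c _
      split_ifs
      · exact ip_self_nonneg _
      · exact le_rfl
  · intro a _
    refine Finset.sum_nonneg fun c _ => ?_
    split_ifs
    · exact ip_self_nonneg _
    · exact le_rfl

open Classical in
/-- The variance bound on the matrix states. -/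
theorem var_le (hT : TripleNonneg d) (f : St d → ℝ) :
    4 * ∑ x : St d, (f x - (∑ y, f y) / (Fintype.card (St d) : ℝ)) ^ 2 ≤
      ∑ x : St d, ∑ y : St d, (if Sw (eset x) (eset y) then (f x - f y) ^ 2 else 0) := by
  have h1 := spectral_gap (Gam d) (fun f g => Gam_symm f g) (fun f => by
      change 0 ≤ ip f (Gam d f)
      rw [ip_Gam_self]
      have := CC_nonneg f
      linarith) (fun f => by
      change 2 * ip f (Gam d f) ≤ _
      rw [ip_Gam_self, ← ip_self_eq_sum_sq]
      have := Gam_sq_ge hT f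
      linarith only [this]) Gam_ker f
  change _ ≤ ip f (Gam d f) at h1
  rw [ip_Gam_self] at h1
  have h2 := energy_tuples f
  have h3 : 2 * CC f ≤ ∑ a, ∑ c, ∑ b, ∑ e, ip (Pi2 a c b e f) (Pi2 a c b e f) := by
    unfold CC
    rw [Finset.mul_sum]
    refine Finset.sum_le_sum fun a _ => ?_
    rw [Finset.mul_sum]
    refine Finset.sum_le_sum fun c _ => ?_
    by_cases hac : a = c
    · subst hac
      rw [if_neg (by simp), mul_zero]
      exact Finset.sum_nonneg fun b _ => Finset.sum_nonneg fun e _ => ip_self_nonneg _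
    · rw [if_pos hac]
      refine (classB hac f).trans ?_
      refine Finset.sum_le_sum fun b _ => Finset.sum_le_sum fun e _ => ?_
      have := ip_self_nonneg (xdiff a c b e f)
      linarith only [this]
  linarith

/-- The double sum of squared differences. -/
lemma sum_sum_sq {Ω : Type*} [Fintype Ω] [Nonempty Ω] (f : Ω → ℝ) :
    ∑ x : Ω, ∑ y : Ω, (f x - f y) ^ 2 = 2 * (Fintype.card Ω : ℝ) *
      ∑ x : Ω, (f x - (∑ y, f y) / (Fintype.card Ω : ℝ)) ^ 2 := by
  have hN : (Fintype.card Ω : ℝ) ≠ 0 := by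
    have := Fintype.card_pos (α := Ω)
    positivity
  set N : ℝ := (Fintype.card Ω : ℝ) with hNdef
  set S : ℝ := ∑ y, f y with hS
  have h1 : ∑ x : Ω, ∑ y : Ω, (f x - f y) ^ 2 = 2 * N * ∑ x, f x ^ 2 - 2 * S ^ 2 := by
    have : ∀ x y, (f x - f y) ^ 2 = f x ^ 2 - 2 * (f x * f y) + f y ^ 2 := fun x y => by ring
    simp_rw [this, Finset.sum_add_distrib, Finset.sum_sub_distrib, ← Finset.mul_sum,
      Finset.sum_const, Finset.card_univ, nsmul_eq_mul]
    rw [← Finset.mul_sum, ← Finset.sum_mul, ← hS, ← hNdef]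
    ring
  have h2 : ∑ x : Ω, (f x - S / N) ^ 2 = ∑ x, f x ^ 2 - S ^ 2 / N := by
    have : ∀ x, (f x - S / N) ^ 2 = f x ^ 2 - 2 * (S / N) * f x + (S / N) ^ 2 :=
      fun x => by ring
    simp_rw [this, Finset.sum_add_distrib, Finset.sum_sub_distrib, ← Finset.mul_sum,
      Finset.sum_const, Finset.card_univ, nsmul_eq_mul]
    rw [← hS, ← hNdef]
    field_simp
    ring
  rw [h1, h2]
  field_simp

/-- Poincare inequality with constant `1/2`, given the triple inequality. -/
theorem poincare_half_of {n : ℕ} (d : Fin n → ℕ) (hT : TripleNonneg d) : Poincare d (1 / 2) := by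
  classical
  apply poincare_of_Om
  intro F
  have e1 : ∑ A ∈ Om d, ∑ B ∈ Om d, (F A - F B) ^ 2 =
      ∑ x : St d, ∑ y : St d, (F (eset x) - F (eset y)) ^ 2 := by
    rw [← sum_eset]
    refine Finset.sum_congr rfl fun x _ => ?_
    rw [← sum_eset]
  have e2 : ∑ A ∈ Om d, ∑ B ∈ (Om d).filter (fun B => Sw A B), (F A - F B) ^ 2 =
      ∑ x : St d, ∑ y : St d, (if Sw (eset x) (eset y) then
        (F (eset x) - F (eset y)) ^ 2 else 0) := by
    simp_rw [Finset.sum_filter]
    rw [← sum_eset]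
    refine Finset.sum_congr rfl fun x _ => ?_
    rw [← sum_eset]
  have e3 : ((Om d).card : ℝ) = (Fintype.card (St d) : ℝ) := by
    have := sum_eset (d := d) (fun _ => (1 : ℝ))
    rw [Finset.sum_const, Finset.sum_const, nsmul_eq_mul, nsmul_eq_mul, mul_one, mul_one,
      Finset.card_univ] at this
    exact this.symm
  rw [e1, e2, e3]
  rcases isEmpty_or_nonempty (St d) with hE | hE
  · simp only [univ_eq_empty, sum_empty, sum_const_zero, one_div, Fintype.card_eq_zero, CharP.cast_eq_zero, mul_zero, Std.le_refl]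
  · rw [sum_sum_sq (fun x : St d => F (eset x))]
    have h1 := var_le hT (fun x : St d => F (eset x))
    have hN : (0 : ℝ) ≤ (Fintype.card (St d) : ℝ) := by positivity
    nlinarith only [h1]

end Vale.Agent.P335.RA
end
end

section

section

namespace Vale.Agent.P335

open Finset Function

set_option linter.unusedSectionVars false

variable {V : Type*} [Fintype V] [DecidableEq V]

theorem mem_nb {A : Finset (Sym2 V)} {v w : V} : w ∈ nb A v ↔ s(v, w) ∈ A := by
  simp only [nb, mem_filter, mem_univ, true_and]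

theorem mem_rd {X Y : Finset (Sym2 V)} {v w : V} :
    w ∈ rd X Y v ↔ s(v, w) ∈ X ∧ s(v, w) ∉ Y := by
  simp [rd, mem_nb]

theorem mem_Om {d : V → ℕ} {A : Finset (Sym2 V)} :
    A ∈ Om d ↔ (∀ v, s(v, v) ∉ A) ∧ ∀ v, deg A v = d v := by
  simp only [Om, mem_filter, mem_univ, true_and]

theorem mem_Pr {R B : V → Finset V} {σ : V → V → V} :
    σ ∈ Pr R B ↔ ∀ v, (∀ w ∈ R v, σ v w ∈ B v) ∧ (∀ w ∈ B v, σ v w ∈ R v) ∧
    (∀ w, σ v (σ v w) = w) ∧ (∀ w, w ∉ R v → w ∉ B v → σ v w = w) := by
  simp only [Pr, mem_filter, mem_univ, true_and]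

theorem Pr_symm {R B : V → Finset V} {σ : V → V → V} (h : σ ∈ Pr R B) : σ ∈ Pr B R := by
  rw [mem_Pr] at h ⊢
  intro v
  obtain ⟨h1, h2, h3, h4⟩ := h v
  exact ⟨h2, h1, h3, fun w hb hr => h4 w hr hb⟩

theorem Pr_invol {R B : V → Finset V} {σ : V → V → V} (h : σ ∈ Pr R B) (v w : V) :
    σ v (σ v w) = w := (mem_Pr.1 h v).2.2.1 w

section basic

variable {X Y : Finset (Sym2 V)} {σ : V → V → V}

theorem pr_XY (h : σ ∈ Pr (rd X Y) (rd Y X)) {v w : V} (hX : s(v, w) ∈ X) (hY : s(v, w) ∉ Y) :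
    s(v, σ v w) ∈ Y ∧ s(v, σ v w) ∉ X :=
  mem_rd.1 ((mem_Pr.1 h v).1 w (mem_rd.2 ⟨hX, hY⟩))

theorem pr_YX (h : σ ∈ Pr (rd X Y) (rd Y X)) {v w : V} (hX : s(v, w) ∉ X) (hY : s(v, w) ∈ Y) :
    s(v, σ v w) ∈ X ∧ s(v, σ v w) ∉ Y :=
  mem_rd.1 ((mem_Pr.1 h v).2.1 w (mem_rd.2 ⟨hY, hX⟩))

/-- previous dart -/
def prv (σ : V → V → V) (p : V × V) : V × V := (σ p.1 p.2, p.1)

/-- partner dart -/
def prt (σ : V → V → V) (p : V × V) : V × V := (p.1, σ p.1 p.2)

theorem nxt_prv (hi : ∀ v w, σ v (σ v w) = w) (p : V × V) : nxt σ (prv σ p) = p := by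
  simp [nxt, prv, hi]

theorem prv_nxt (hi : ∀ v w, σ v (σ v w) = w) (p : V × V) : prv σ (nxt σ p) = p := by
  simp [nxt, prv, hi]

theorem prt_prt (hi : ∀ v w, σ v (σ v w) = w) (p : V × V) : prt σ (prt σ p) = p := by
  simp [prt, hi]

theorem nxt_inj (hi : ∀ v w, σ v (σ v w) = w) : Injective (nxt σ) :=
  LeftInverse.injective (g := prv σ) (prv_nxt hi)

theorem nxt_swap (p : V × V) : nxt σ p.swap = (prv σ p).swap := by
  simp [nxt, prv]

/-- `i`-th vertex of the walk -/
def vx (σ : V → V → V) (p : V × V) (i : ℕ) : V := (((nxt σ)^[i]) p).1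

theorem snd_it (p : V × V) (i : ℕ) : (((nxt σ)^[i]) p).2 = vx σ p (i + 1) := by
  rw [vx, iterate_succ_apply']; rfl

theorem it_eq (p : V × V) (i : ℕ) : ((nxt σ)^[i]) p = (vx σ p i, vx σ p (i + 1)) := by
  rw [← snd_it]; rfl

theorem we_eq (p : V × V) (i : ℕ) : we σ p i = s(vx σ p i, vx σ p (i + 1)) := by
  rw [we, it_eq]

theorem vx_add_two (p : V × V) (i : ℕ) :
    vx σ p (i + 2) = σ (vx σ p (i + 1)) (vx σ p i) := by
  have h := snd_it (σ := σ) p (i + 1)
  rw [← h, iterate_succ_apply', it_eq]; rfl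

theorem we_shift (p : V × V) (i j : ℕ) : we σ (((nxt σ)^[i]) p) j = we σ p (j + i) := by
  rw [we, we, ← iterate_add_apply]

theorem vx_shift (p : V × V) (i j : ℕ) : vx σ (((nxt σ)^[i]) p) j = vx σ p (j + i) := by
  rw [vx, vx, ← iterate_add_apply]

/-- minimal period of the walk -/
noncomputable def per (σ : V → V → V) (p : V × V) : ℕ := minimalPeriod (nxt σ) p

theorem per_pos (hi : ∀ v w, σ v (σ v w) = w) (p : V × V) : 0 < per σ p :=
  minimalPeriod_pos_of_mem_periodicPts ((nxt_inj hi).mem_periodicPts p)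

theorem it_per (p : V × V) : ((nxt σ)^[per σ p]) p = p :=
  iterate_minimalPeriod

theorem per_shift (hi : ∀ v w, σ v (σ v w) = w) (p : V × V) (i : ℕ) :
    per σ (((nxt σ)^[i]) p) = per σ p :=
  minimalPeriod_apply_iterate ((nxt_inj hi).mem_periodicPts p) i

theorem we_add_per (p : V × V) (i : ℕ) : we σ p (i + per σ p) = we σ p i := by
  rw [we, we, iterate_add_apply, it_per]

theorem per_le (p : V × V) : per σ p ≤ (Fintype.card V) ^ 2 := by
  have hinj := iterate_injOn_Iio_minimalPeriod (f := nxt σ) (x := p)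
  have : (range (per σ p)).card ≤ (univ : Finset (V × V)).card := by
    apply card_le_card_of_injOn (fun i => ((nxt σ)^[i]) p)
    · intro i _; simp only [coe_univ, Set.mem_univ]
    · intro i hI j hJ hij
      exact hinj (by simpa only [Set.mem_Iio, per, coe_range] using hI) (by simpa [per] using hJ) hij
  simpa only [sq, ge_iff_le, card_range, card_univ, Fintype.card_prod] using this

end basic

section walk

variable {X Y : Finset (Sym2 V)} {σ : V → V → V} (hσ : σ ∈ Pr (rd X Y) (rd Y X)) {p : V × V}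

include hσ

/-- the colours alternate, R step -/
theorem col_XY {i : ℕ} (h1 : we σ p i ∈ X) (h2 : we σ p i ∉ Y) :
    we σ p (i + 1) ∉ X ∧ we σ p (i + 1) ∈ Y := by
  rw [we_eq] at h1 h2 ⊢
  rw [vx_add_two]
  rw [Sym2.eq_swap] at h1 h2
  have := pr_XY hσ h1 h2
  exact ⟨this.2, this.1⟩

theorem col_YX {i : ℕ} (h1 : we σ p i ∉ X) (h2 : we σ p i ∈ Y) :
    we σ p (i + 1) ∈ X ∧ we σ p (i + 1) ∉ Y := by
  rw [we_eq] at h1 h2 ⊢
  rw [vx_add_two]
  rw [Sym2.eq_swap] at h1 h2
  exact pr_YX hσ h1 h2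

theorem we_mem (hp : s(p.1, p.2) ∈ symmDiff X Y) (i : ℕ) : we σ p i ∈ symmDiff X Y := by
  induction i with
  | zero => simpa [we] using hp
  | succ i ih =>
    rw [mem_symmDiff] at ih ⊢
    rcases ih with ⟨h1, h2⟩ | ⟨h1, h2⟩
    · have := col_XY hσ h1 h2; exact Or.inr ⟨this.2, this.1⟩
    · have := col_YX hσ h2 h1; exact Or.inl ⟨this.1, this.2⟩

/-- type of the `i`-th vertex: `true` iff the `i`-th edge is in `X` -/
theorem ty_succ (hp : s(p.1, p.2) ∈ symmDiff X Y) (i : ℕ) :
    (we σ p (i + 1) ∈ X) ↔ ¬ (we σ p i ∈ X) := by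
  have := we_mem hσ hp i
  rw [mem_symmDiff] at this
  rcases this with ⟨h1, h2⟩ | ⟨h1, h2⟩
  · have := col_XY hσ h1 h2; simp [h1, this.1]
  · have := col_YX hσ h2 h1; simp [h2, this.1]

theorem ty_add (hp : s(p.1, p.2) ∈ symmDiff X Y) (i k : ℕ) :
    (we σ p (i + 2 * k) ∈ X) ↔ (we σ p i ∈ X) := by
  induction k with
  | zero => simp
  | succ k ih =>
    have h1 := ty_succ hσ hp (i + 2 * k)
    have h2 := ty_succ hσ hp (i + 2 * k + 1)
    have e : i + 2 * (k + 1) = i + 2 * k + 1 + 1 := by ring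
    rw [e, h2, h1, not_not, ih]

theorem ty_add_odd (hp : s(p.1, p.2) ∈ symmDiff X Y) (i k : ℕ) :
    (we σ p (i + 2 * k + 1) ∈ X) ↔ ¬ (we σ p i ∈ X) := by
  rw [ty_succ hσ hp, ty_add hσ hp]

/-- no dart of the walk is followed by its reverse -/
theorem no_swap (hX : ∀ v, s(v, v) ∉ X) (hY : ∀ v, s(v, v) ∉ Y)
    (hp : s(p.1, p.2) ∈ symmDiff X Y) (k : ℕ) : ∀ i j : ℕ, i + 2 * k = j →
    ((nxt σ)^[i]) p ≠ (((nxt σ)^[j]) p).swap := by
  have hi := Pr_invol hσ
  induction k with
  | zero =>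
    intro i j hij h
    have hij' : i = j := by omega
    subst hij'
    have hm := we_mem hσ hp i
    rw [we] at hm
    have h1 : (((nxt σ)^[i]) p).1 = (((nxt σ)^[i]) p).2 := by
      have := congrArg Prod.fst h
      simpa using this
    rw [h1, mem_symmDiff] at hm
    rcases hm with h | h
    · exact hX _ h.1
    · exact hY _ h.1
  | succ k ih =>
    intro i j hij h
    obtain ⟨j', rfl⟩ : ∃ j', j = j' + 1 := ⟨j - 1, by omega⟩
    apply ih (i + 1) j' (by omega)
    rw [iterate_succ_apply', h, nxt_swap, iterate_succ_apply', prv_nxt hi]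

theorem we_inj (hX : ∀ v, s(v, v) ∉ X) (hY : ∀ v, s(v, v) ∉ Y)
    (hp : s(p.1, p.2) ∈ symmDiff X Y) {i j : ℕ} (h : we σ p i = we σ p j) :
    ((nxt σ)^[i]) p = ((nxt σ)^[j]) p := by
  wlog hij : i ≤ j generalizing i j
  · exact (this h.symm (by omega)).symm
  have hpar : ∃ k, i + 2 * k = j := by
    rcases Nat.even_or_odd' (j - i) with ⟨k, hk | hk⟩
    · exact ⟨k, by omega⟩
    · exfalso
      have h1 := ty_add_odd hσ hp i k
      have e : i + 2 * k + 1 = j := by omega
      rw [e, ← h] at h1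
      (clear * - h1; tauto)
  obtain ⟨k, hk⟩ := hpar
  rw [we, we, Sym2.eq_iff] at h
  rcases h with h | h
  · exact Prod.ext h.1 h.2
  · exact absurd (Prod.ext h.1 h.2 : ((nxt σ)^[i]) p = (((nxt σ)^[j]) p).swap)
      (no_swap hσ hX hY hp k i j hk)

theorem we_injOn (hX : ∀ v, s(v, v) ∉ X) (hY : ∀ v, s(v, v) ∉ Y)
    (hp : s(p.1, p.2) ∈ symmDiff X Y) {i j : ℕ} (hi : i < per σ p) (hj : j < per σ p)
    (h : we σ p i = we σ p j) : i = j :=
  iterate_injOn_Iio_minimalPeriod hi hj (we_inj hσ hX hY hp h)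

theorem we_notMem_arc (hX : ∀ v, s(v, v) ∉ X) (hY : ∀ v, s(v, v) ∉ Y)
    (hp : s(p.1, p.2) ∈ symmDiff X Y) {l : ℕ} (hl : l < per σ p) :
    we σ p l ∉ arc σ p l := by
  intro h
  rw [arc, mem_image] at h
  obtain ⟨i, hi, h⟩ := h
  rw [mem_range] at hi
  have := we_injOn hσ hX hY hp (hi.trans hl) hl h
  omega

end walk

theorem arc_succ (σ : V → V → V) (p : V × V) (l : ℕ) :
    arc σ p (l + 1) = insert (we σ p l) (arc σ p l) := by
  rw [arc, arc, range_add_one, image_insert]

theorem arc_zero (σ : V → V → V) (p : V × V) : arc σ p 0 = ∅ := by simp [arc]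

end Vale.Agent.P335
end
end

section

section

namespace Vale.Agent.P335

/-- the height intervals of steps `x` and `y` meet -/
def Val (f : ℕ → ℤ) (x y : ℕ) : Prop :=
  min (f x) (f (x + 1)) ≤ max (f y) (f (y + 1)) ∧ min (f y) (f (y + 1)) ≤ max (f x) (f (x + 1))

/-- one move of the two climbers -/
def MStep (f : ℕ → ℤ) (m L : ℕ) (p q : ℕ × ℕ) : Prop :=
  (p.1 < m ∧ m ≤ p.2 ∧ p.2 < L ∧ Val f p.1 p.2) ∧ (q.1 < m ∧ m ≤ q.2 ∧ q.2 < L ∧ Val f q.1 q.2) ∧
  ((p.1 = q.1 ∧ (p.2 = q.2 + 1 ∨ q.2 = p.2 + 1)) ∨ (p.2 = q.2 ∧ (p.1 = q.1 + 1 ∨ q.1 = p.1 + 1)))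

/-- strict betweenness -/
def Btw (a c d : ℤ) : Prop := (c < a ∧ a < d) ∨ (d < a ∧ a < c)

instance (a c d : ℤ) : Decidable (Btw a c d) := by unfold Btw; infer_instance

theorem btw_parity (a b c d : ℤ) (_hab : a ≠ b) (hac : a ≠ c) (had : a ≠ d) (hbc : b ≠ c)
    (hbd : b ≠ d) (hcd : c ≠ d) :
    ∃ k : ℕ, (if Btw a c d then 1 else 0) + (if Btw b c d then 1 else 0) +
      (if Btw c a b then 1 else 0) + (if Btw d a b then 1 else 0) = 2 * k := by
  unfold Btw
  have : ((if (c < a ∧ a < d) ∨ (d < a ∧ a < c) then 1 else 0) +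
    (if (c < b ∧ b < d) ∨ (d < b ∧ b < c) then 1 else 0) +
      (if (a < c ∧ c < b) ∨ (b < c ∧ c < a) then 1 else 0) +
      (if (a < d ∧ d < b) ∨ (b < d ∧ d < a) then 1 else 0) = 0) ∨
    ((if (c < a ∧ a < d) ∨ (d < a ∧ a < c) then 1 else 0) +
    (if (c < b ∧ b < d) ∨ (d < b ∧ b < c) then 1 else 0) +
      (if (a < c ∧ c < b) ∨ (b < c ∧ c < a) then 1 else 0) +
      (if (a < d ∧ d < b) ∨ (b < d ∧ d < a) then 1 else 0) = 2) := by
    split_ifs <;> omega
  rcases this with h | h
  · exact ⟨0, h⟩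
  · exact ⟨1, h⟩

theorem btw_start (a b d : ℤ) (h1 : b < a) (h2 : b < d) (h3 : a ≠ d) :
    (if Btw a b d then 1 else 0) + (if Btw b b d then 1 else 0) +
      (if Btw b a b then 1 else 0) + (if Btw d a b then 1 else 0) = 1 := by
  have hb1 : ¬ Btw b b d := by unfold Btw; omega
  have hb2 : ¬ Btw b a b := by unfold Btw; omega
  rw [if_neg hb1, if_neg hb2]
  rcases lt_or_gt_of_ne h3 with h | h
  · have hb3 : Btw a b d := by unfold Btw; omega
    have hb4 : ¬ Btw d a b := by unfold Btw; omega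
    rw [if_pos hb3, if_neg hb4]
  · have hb3 : ¬ Btw a b d := by unfold Btw; omega
    have hb4 : Btw d a b := by unfold Btw; omega
    rw [if_neg hb3, if_pos hb4]

theorem val_of_btw_left (g : ℕ → ℤ) (x y z : ℕ) (hz : z = x ∨ z = x + 1)
    (h : Btw (g z) (g y) (g (y + 1))) : Val g x y := by
  unfold Btw at h; unfold Val
  rcases hz with rfl | rfl <;> rcases h with h | h <;> constructor <;>
    simp only [min_le_iff, le_max_iff] <;> omega

theorem val_of_btw_right (g : ℕ → ℤ) (x y z : ℕ) (hz : z = y ∨ z = y + 1)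
    (h : Btw (g z) (g x) (g (x + 1))) : Val g x y := by
  unfold Btw at h; unfold Val
  rcases hz with rfl | rfl <;> rcases h with h | h <;> constructor <;>
    simp only [min_le_iff, le_max_iff] <;> omega

open Classical in
/-- mountain climbing for generic profiles -/
theorem mountain_gen (g : ℕ → ℤ) (m L : ℕ) (h0 : 0 < m) (hL : m < L)
    (hmax : ∀ i ≤ L, g i ≤ g 0) (hmaxL : g L = g 0) (hmin : ∀ i ≤ L, g m ≤ g i)
    (hd : ∀ i ≤ L, ∀ j ≤ L, g i = g j → i = j ∨ (i = 0 ∧ j = L) ∨ (i = L ∧ j = 0)) :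
    Relation.ReflTransGen (MStep g m L) (m - 1, m) (0, L - 1) := by
  by_contra hcon
  set C : Finset (ℕ × ℕ) := (Finset.range m ×ˢ Finset.Ico m L).filter
    (fun p => Relation.ReflTransGen (MStep g m L) (m - 1, m) p) with hC
  have memC : ∀ p, p ∈ C ↔ (p.1 < m ∧ m ≤ p.2 ∧ p.2 < L) ∧
      Relation.ReflTransGen (MStep g m L) (m - 1, m) p := by
    intro p
    rw [hC, Finset.mem_filter, Finset.mem_product, Finset.mem_range, Finset.mem_Ico]
  have hstart : (m - 1, m) ∈ C := by
    rw [memC]; exact ⟨⟨by omega, le_refl _, hL⟩, Relation.ReflTransGen.refl⟩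
  let l : ℕ × ℕ → ℕ := fun p => if Btw (g p.1) (g p.2) (g (p.2 + 1)) then 1 else 0
  let r : ℕ × ℕ → ℕ := fun p => if Btw (g (p.1 + 1)) (g p.2) (g (p.2 + 1)) then 1 else 0
  let dn : ℕ × ℕ → ℕ := fun p => if Btw (g p.2) (g p.1) (g (p.1 + 1)) then 1 else 0
  let u : ℕ × ℕ → ℕ := fun p => if Btw (g (p.2 + 1)) (g p.1) (g (p.1 + 1)) then 1 else 0
  -- left and right
  have hlr : ∑ p ∈ C, l p = ∑ p ∈ C, r p := by
    simp only [l, r, Finset.sum_boole, Nat.cast_id]
    apply Finset.card_nbij' (fun p => (p.1 - 1, p.2)) (fun p => (p.1 + 1, p.2))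
    · intro p hp
      simp only [Finset.coe_filter, Set.mem_ofPred_eq] at hp ⊢
      obtain ⟨hpC, hb⟩ := hp
      rw [memC] at hpC
      have hx : p.1 ≠ 0 := by
        intro h; rw [h] at hb
        have h1 := hmax p.2 (by omega)
        have h2 := hmax (p.2 + 1) (by omega)
        unfold Btw at hb; omega
      have he : p.1 - 1 + 1 = p.1 := by omega
      refine ⟨?_, by simp only [he]; exact hb⟩
      rw [memC]
      refine ⟨⟨by simp only; omega, hpC.1.2.1, hpC.1.2.2⟩, hpC.2.tail ?_⟩
      refine ⟨⟨hpC.1.1, hpC.1.2.1, hpC.1.2.2, val_of_btw_left g _ _ p.1 (Or.inl rfl) hb⟩,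
        ⟨by simp only; omega, hpC.1.2.1, hpC.1.2.2,
          val_of_btw_left g _ _ p.1 (Or.inr he.symm) hb⟩, Or.inr ⟨rfl, Or.inl he.symm⟩⟩
    · intro p hp
      simp only [Finset.coe_filter, Set.mem_ofPred_eq] at hp ⊢
      obtain ⟨hpC, hb⟩ := hp
      rw [memC] at hpC
      have hx : p.1 + 1 ≠ m := by
        intro h; rw [h] at hb
        have h1 := hmin p.2 (by omega)
        have h2 := hmin (p.2 + 1) (by omega)
        unfold Btw at hb; omega
      refine ⟨?_, hb⟩
      rw [memC]
      refine ⟨⟨by simp only; omega, hpC.1.2.1, hpC.1.2.2⟩, hpC.2.tail ?_⟩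
      refine ⟨⟨hpC.1.1, hpC.1.2.1, hpC.1.2.2,
        val_of_btw_left g _ _ (p.1 + 1) (Or.inr rfl) hb⟩,
        ⟨by simp only; omega, hpC.1.2.1, hpC.1.2.2,
          val_of_btw_left g _ _ (p.1 + 1) (Or.inl rfl) hb⟩, Or.inr ⟨rfl, Or.inr rfl⟩⟩
    · intro p hp
      simp only [Finset.coe_filter, Set.mem_ofPred_eq] at hp
      obtain ⟨hpC, hb⟩ := hp
      rw [memC] at hpC
      have hx : p.1 ≠ 0 := by
        intro h; rw [h] at hb
        have h1 := hmax p.2 (by omega)
        have h2 := hmax (p.2 + 1) (by omega)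
        unfold Btw at hb; omega
      ext
      · simp only; omega
      · rfl
    · intro p _
      rfl
  have hdu : ∑ p ∈ C, dn p = ∑ p ∈ C, u p := by
    simp only [dn, u, Finset.sum_boole, Nat.cast_id]
    apply Finset.card_nbij' (fun p => (p.1, p.2 - 1)) (fun p => (p.1, p.2 + 1))
    · intro p hp
      simp only [Finset.coe_filter, Set.mem_ofPred_eq] at hp ⊢
      obtain ⟨hpC, hb⟩ := hp
      rw [memC] at hpC
      have hx : p.2 ≠ m := by
        intro h; rw [h] at hb
        have h1 := hmin p.1 (by omega)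
        have h2 := hmin (p.1 + 1) (by omega)
        unfold Btw at hb; omega
      have he : p.2 - 1 + 1 = p.2 := by omega
      refine ⟨?_, by simp only [he]; exact hb⟩
      rw [memC]
      refine ⟨⟨hpC.1.1, by simp only; omega, by simp only; omega⟩, hpC.2.tail ?_⟩
      refine ⟨⟨hpC.1.1, hpC.1.2.1, hpC.1.2.2, val_of_btw_right g _ _ p.2 (Or.inl rfl) hb⟩,
        ⟨hpC.1.1, by simp only; omega, by simp only; omega,
          val_of_btw_right g _ _ p.2 (Or.inr he.symm) hb⟩, Or.inl ⟨rfl, Or.inl he.symm⟩⟩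
    · intro p hp
      simp only [Finset.coe_filter, Set.mem_ofPred_eq] at hp ⊢
      obtain ⟨hpC, hb⟩ := hp
      rw [memC] at hpC
      have hx : p.2 + 1 ≠ L := by
        intro h; rw [h, hmaxL] at hb
        have h1 := hmax p.1 (by omega)
        have h2 := hmax (p.1 + 1) (by omega)
        unfold Btw at hb; omega
      refine ⟨?_, hb⟩
      rw [memC]
      refine ⟨⟨hpC.1.1, by simp only; omega, by simp only; omega⟩, hpC.2.tail ?_⟩
      refine ⟨⟨hpC.1.1, hpC.1.2.1, hpC.1.2.2,
        val_of_btw_right g _ _ (p.2 + 1) (Or.inr rfl) hb⟩,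
        ⟨hpC.1.1, by simp only; omega, by simp only; omega,
          val_of_btw_right g _ _ (p.2 + 1) (Or.inl rfl) hb⟩, Or.inl ⟨rfl, Or.inr rfl⟩⟩
    · intro p hp
      simp only [Finset.coe_filter, Set.mem_ofPred_eq] at hp
      obtain ⟨hpC, hb⟩ := hp
      rw [memC] at hpC
      have hx : p.2 ≠ m := by
        intro h; rw [h] at hb
        have h1 := hmin p.1 (by omega)
        have h2 := hmin (p.1 + 1) (by omega)
        unfold Btw at hb; omega
      ext
      · rfl
      · simp only; omega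
    · intro p _
      rfl
  -- parity of each weight
  have hpar : ∀ p ∈ C, ((l p + r p + dn p + u p : ℕ) : ZMod 2) = if p = (m - 1, m) then 1 else 0 := by
    intro p hp
    have hpC := (memC p).mp hp
    have hend : p ≠ (0, L - 1) := by
      intro h; rw [h] at hpC; exact hcon hpC.2
    have hcd : g p.2 ≠ g (p.2 + 1) := by
      intro h
      rcases hd _ (by omega) _ (by omega) h with h | h | h <;> omega
    have hab : g p.1 ≠ g (p.1 + 1) := by
      intro h
      rcases hd _ (by omega) _ (by omega) h with h | h | h <;> omega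
    have hac : g p.1 ≠ g p.2 := by
      intro h
      rcases hd _ (by omega) _ (by omega) h with h | h | h <;> omega
    have had : g p.1 ≠ g (p.2 + 1) := by
      intro h
      rcases hd _ (by omega) _ (by omega) h with h | h | h
      · omega
      · apply hend
        ext
        · exact h.1
        · simp only; omega
      · omega
    have hbd : g (p.1 + 1) ≠ g (p.2 + 1) := by
      intro h
      rcases hd _ (by omega) _ (by omega) h with h | h | h <;> omega
    by_cases hps : p = (m - 1, m)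
    · rw [if_pos hps]
      have hb1 : p.1 + 1 = m := by rw [hps]; simp only; omega
      have hb2 : p.2 = m := by rw [hps]
      have hb : g (p.1 + 1) = g p.2 := by rw [hb1, hb2]
      have hlow1 := hmin p.1 (by omega)
      have hlow2 := hmin (p.2 + 1) (by omega)
      rw [← hb2] at hlow1 hlow2
      have : l p + r p + dn p + u p = 1 := by
        have := btw_start (g p.1) (g p.2) (g (p.2 + 1)) (lt_of_le_of_ne hlow1 (Ne.symm hac))
          (lt_of_le_of_ne hlow2 hcd) had
        simp only [l, r, dn, u, hb]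
        exact this
      rw [this]; norm_num
    · rw [if_neg hps]
      have hbc : g (p.1 + 1) ≠ g p.2 := by
        intro h
        rcases hd _ (by omega) _ (by omega) h with h | h | h
        · apply hps
          ext
          · simp only; omega
          · simp only; omega
        · omega
        · omega
      obtain ⟨k, hk⟩ := btw_parity (g p.1) (g (p.1 + 1)) (g p.2) (g (p.2 + 1)) hab hac had hbc
        hbd hcd
      have : l p + r p + dn p + u p = 2 * k := hk
      rw [this]
      push_cast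
      have h2 : (2 : ZMod 2) = 0 := by decide
      rw [h2, zero_mul]
  have htot : ((∑ p ∈ C, (l p + r p + dn p + u p) : ℕ) : ZMod 2) = 1 := by
    rw [Nat.cast_sum, Finset.sum_congr rfl hpar, Finset.sum_ite_eq' C (m - 1, m), if_pos hstart]
  have htot2 : (∑ p ∈ C, (l p + r p + dn p + u p) : ℕ) = 2 * (∑ p ∈ C, r p + ∑ p ∈ C, u p) := by
    simp only [Finset.sum_add_distrib]
    rw [hlr, hdu]; ring
  rw [htot2] at htot
  push_cast at htot
  have h2 : (2 : ZMod 2) = 0 := by decide
  rw [h2, zero_mul] at htot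
  exact absurd htot (by decide)

/-- TASK T4: mountain climbing. -/
theorem mountain (f : ℕ → ℤ) (m L : ℕ) (h0 : 0 < m) (hL : m < L)
    (hmax : ∀ i ≤ L, f i ≤ f 0) (hmaxL : f L = f 0) (hmin : ∀ i ≤ L, f m ≤ f i) :
    Relation.ReflTransGen (MStep f m L) (m - 1, m) (0, L - 1) := by
  let e : ℕ → ℤ := fun i => if i = m then 0 else if i = 0 ∨ i = L then (L : ℤ) + 1 else i
  let g : ℕ → ℤ := fun i => f i * ((L : ℤ) + 2) + e i
  have hem : e m = 0 := if_pos rfl
  have heZ : e 0 = (L : ℤ) + 1 := by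
    simp only [e]; rw [if_neg (by omega), if_pos (Or.inl trivial)]
  have heL : e L = (L : ℤ) + 1 := by
    simp only [e]; rw [if_neg (by omega), if_pos (Or.inr trivial)]
  have hei : ∀ i, i ≠ m → i ≠ 0 → i ≠ L → e i = i := by
    intro i h1 h2 h3; simp only [e]; rw [if_neg h1, if_neg (by omega)]
  have he0 : ∀ i ≤ L, 0 ≤ e i := by intro i hi; simp only [e]; split_ifs <;> omega
  have he1 : ∀ i ≤ L, e i < (L : ℤ) + 2 := by intro i hi; simp only [e]; split_ifs <;> omega
  have hmono : ∀ i ≤ L, ∀ j ≤ L, g i ≤ g j → f i ≤ f j := by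
    intro i hi j hj h
    by_contra hlt
    push Not at hlt
    have h1 := he0 i hi
    have h2 := he1 j hj
    simp only [g] at h
    nlinarith only [h, hlt, h1, h2]
  have hlt : ∀ i ≤ L, ∀ j ≤ L, f i ≤ f j → e i ≤ e j → g i ≤ g j := by
    intro i hi j hj h1 h2
    simp only [g]
    nlinarith only [h1, h2]
  have heq : ∀ i ≤ L, ∀ j ≤ L, g i = g j → e i = e j := by
    intro i hi j hj h
    have h1 := hmono i hi j hj h.le
    have h2 := hmono j hj i hi h.ge
    have h3 : f i = f j := le_antisymm h1 h2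
    simp only [g, h3] at h
    linarith only [h]
  have key := mountain_gen g m L h0 hL ?_ ?_ ?_ ?_
  · refine Relation.ReflTransGen.mono ?_ _ _ key
    intro p q hpq
    obtain ⟨⟨p1, p2, p3, p4⟩, ⟨q1, q2, q3, q4⟩, h⟩ := hpq
    have hval : ∀ x y : ℕ, x < m → m ≤ y → y < L → Val g x y → Val f x y := by
      intro x y hx hy hy' hv
      unfold Val at hv ⊢
      simp only [min_le_iff, le_max_iff] at hv ⊢
      refine ⟨?_, ?_⟩
      · rcases hv.1 with (h | h) | (h | h)
        · left; left; exact hmono _ (by omega) _ (by omega) h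
        · left; right; exact hmono _ (by omega) _ (by omega) h
        · right; left; exact hmono _ (by omega) _ (by omega) h
        · right; right; exact hmono _ (by omega) _ (by omega) h
      · rcases hv.2 with (h | h) | (h | h)
        · left; left; exact hmono _ (by omega) _ (by omega) h
        · left; right; exact hmono _ (by omega) _ (by omega) h
        · right; left; exact hmono _ (by omega) _ (by omega) h
        · right; right; exact hmono _ (by omega) _ (by omega) h
    exact ⟨⟨p1, p2, p3, hval _ _ p1 p2 p3 p4⟩, ⟨q1, q2, q3, hval _ _ q1 q2 q3 q4⟩, h⟩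
  · intro i hi
    apply hlt i hi 0 (by omega) (hmax i hi)
    rw [heZ]; have := he1 i hi; omega
  · simp only [g, hmaxL, heZ, heL]
  · intro i hi
    apply hlt m (by omega) i hi (hmin i hi)
    rw [hem]; exact he0 i hi
  · intro i hi j hj h
    have h1 := heq i hi j hj h
    simp only [e] at h1
    split_ifs at h1 <;> omega

end Vale.Agent.P335
end
end

section

section

namespace Vale.Agent.P335

open Finset

set_option linter.unusedSectionVars false

variable {V : Type*} [Fintype V] [DecidableEq V]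

/-- pairings of two finsets, as involutions of `V` -/
def PrOne (R B : Finset V) : Finset (V → V) :=
  univ.filter (fun τ => (∀ w ∈ R, τ w ∈ B) ∧ (∀ w ∈ B, τ w ∈ R) ∧ (∀ w, τ (τ w) = w) ∧
    (∀ w, w ∉ R → w ∉ B → τ w = w))

theorem mem_PrOne (R B : Finset V) (τ : V → V) : τ ∈ PrOne R B ↔
    (∀ w ∈ R, τ w ∈ B) ∧ (∀ w ∈ B, τ w ∈ R) ∧ (∀ w, τ (τ w) = w) ∧
    (∀ w, w ∉ R → w ∉ B → τ w = w) := by
  simp only [PrOne, mem_filter, mem_univ, true_and]

theorem Pr_eq (R B : V → Finset V) : Pr R B = Fintype.piFinset (fun v => PrOne (R v) (B v)) := by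
  ext σ
  rw [Fintype.mem_piFinset]
  simp only [mem_PrOne, Pr, mem_filter, mem_univ, true_and]

/-- the bijection between pairings and equivalences -/
def prEquiv (R B : Finset V) (hdisj : Disjoint R B) :
    {τ // τ ∈ PrOne R B} ≃ ({x // x ∈ R} ≃ {x // x ∈ B}) where
  toFun τ :=
    { toFun := fun x => ⟨τ.1 x.1, ((mem_PrOne R B τ.1).mp τ.2).1 x.1 x.2⟩
      invFun := fun y => ⟨τ.1 y.1, ((mem_PrOne R B τ.1).mp τ.2).2.1 y.1 y.2⟩
      left_inv := fun x => Subtype.ext (((mem_PrOne R B τ.1).mp τ.2).2.2.1 x.1)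
      right_inv := fun y => Subtype.ext (((mem_PrOne R B τ.1).mp τ.2).2.2.1 y.1) }
  invFun e := ⟨fun w => if h : w ∈ R then (e ⟨w, h⟩).1 else
      if h' : w ∈ B then (e.symm ⟨w, h'⟩).1 else w, by
    rw [mem_PrOne]
    have hRB : ∀ w, w ∈ B → w ∉ R := fun w hw hw' => disjoint_left.mp hdisj hw' hw
    refine ⟨?_, ?_, ?_, ?_⟩
    · intro w hw
      simp only [hw, dif_pos]
      exact (e ⟨w, hw⟩).2
    · intro w hw
      simp only [hRB w hw, hw, dif_pos, dif_neg, not_false_iff]
      exact (e.symm ⟨w, hw⟩).2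
    · intro w
      by_cases hw : w ∈ R
      · have h2 : (e ⟨w, hw⟩).1 ∈ B := (e ⟨w, hw⟩).2
        have h3 : (e ⟨w, hw⟩).1 ∉ R := hRB _ h2
        simp only [hw, dif_pos, h2, h3, dif_neg, not_false_iff]
        simp
      · by_cases hw' : w ∈ B
        · have h2 : (e.symm ⟨w, hw'⟩).1 ∈ R := (e.symm ⟨w, hw'⟩).2
          simp only [hw, hw', dif_pos, h2, dif_neg, not_false_iff]
          simp
        · simp only [hw, hw', dif_neg, not_false_iff]
    · intro w h1 h2
      simp only [h1, h2, dif_neg, not_false_iff]⟩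
  left_inv τ := by
    have h := (mem_PrOne R B τ.1).mp τ.2
    apply Subtype.ext
    funext w
    by_cases hw : w ∈ R
    · simp [hw]
    · by_cases hw' : w ∈ B
      · simp [hw, hw']
      · simp [hw, hw', h.2.2.2 w hw hw']
  right_inv e := by
    ext x
    simp

theorem card_PrOne (R B : Finset V) (hdisj : Disjoint R B) (hcard : R.card = B.card) :
    (PrOne R B).card = R.card.factorial := by
  have h1 : (PrOne R B).card = Fintype.card {τ // τ ∈ PrOne R B} := by
    rw [Fintype.card_coe]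
  have e : {x // x ∈ R} ≃ {x // x ∈ B} := by
    apply Fintype.equivOfCardEq
    rw [Fintype.card_coe, Fintype.card_coe]; exact hcard
  rw [h1, Fintype.card_congr (prEquiv R B hdisj), Fintype.card_equiv e, Fintype.card_coe]

/-- TASK T5a -/
theorem card_eq_of_mem_Pr (R B : V → Finset V)
    {σ : V → V → V} (hσ : σ ∈ Pr R B) (v : V) : (R v).card = (B v).card := by
  rw [Pr_eq, Fintype.mem_piFinset] at hσ
  have h := (mem_PrOne (R v) (B v) (σ v)).mp (hσ v)
  have hinj : Function.Injective (σ v) := by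
    intro x y hxy
    rw [← h.2.2.1 x, hxy, h.2.2.1 y]
  apply le_antisymm
  · exact card_le_card_of_injOn (σ v) (fun w hw => h.1 w hw) hinj.injOn
  · exact card_le_card_of_injOn (σ v) (fun w hw => h.2.1 w hw) hinj.injOn

/-- TASK T5b: number of pairings. -/
theorem card_Pr (R B : V → Finset V) (hdisj : ∀ v, Disjoint (R v) (B v))
    (hcard : ∀ v, (R v).card = (B v).card) :
    (Pr R B).card = ∏ v, ((R v ∪ B v).card / 2).factorial := by
  rw [Pr_eq, Fintype.card_piFinset]
  apply prod_congr rfl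
  intro v _
  rw [card_PrOne _ _ (hdisj v) (hcard v), card_union_of_disjoint (hdisj v), ← hcard v]
  congr 1
  omega

/-- TASK T5c: upper bound in all cases. -/
theorem card_Pr_le (R B : V → Finset V) (hdisj : ∀ v, Disjoint (R v) (B v)) :
    (Pr R B).card ≤ ∏ v, ((R v ∪ B v).card / 2).factorial := by
  by_cases h : ∀ v, (R v).card = (B v).card
  · exact (card_Pr R B hdisj h).le
  · have : Pr R B = ∅ := by
      rw [eq_empty_iff_forall_notMem]
      intro σ hσ
      exact h (fun v => card_eq_of_mem_Pr R B hσ v)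
    rw [this]; simp only [card_empty, zero_le]

end Vale.Agent.P335
end
end

section

section

namespace Vale.Agent.P335

open Finset

theorem sq_add_le_aux {a b B : ℝ} {L : ℕ} (hB : 0 ≤ B) (h : b ^ 2 ≤ L * B) :
    (a + b) ^ 2 ≤ ((L + 1 : ℕ) : ℝ) * (a ^ 2 + B) := by
  push_cast
  rcases Nat.eq_zero_or_pos L with hL | hL
  · subst hL
    simp only [Nat.cast_zero, zero_mul] at h
    have hb : b = 0 := by nlinarith only [h]
    subst hb
    simp only [add_zero, CharP.cast_eq_zero, zero_add, one_mul, le_add_iff_nonneg_right, ge_iff_le]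
    exact hB
  · have hL' : (0 : ℝ) < L := by exact_mod_cast hL
    have h1 : 2 * a * b ≤ L * a ^ 2 + B := by
      have h2 : L * (2 * a * b) ≤ L * (L * a ^ 2 + B) := by
        nlinarith only [h, sq_nonneg (L * a - b)]
      exact le_of_mul_le_mul_left h2 hL'
    linarith

theorem walk_ineq {α : Type*} (G : SimpleGraph α) (f : α → ℝ) {u v : α} (p : G.Walk u v) :
    (f u - f v) ^ 2 ≤ (p.length : ℝ) * (p.darts.map (fun d => (f d.fst - f d.snd) ^ 2)).sum := by
  induction p with
  | nil => simp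
  | @cons u w v hadj p ih =>
    have hB : 0 ≤ (p.darts.map (fun d => (f d.fst - f d.snd) ^ 2)).sum := by
      refine List.sum_nonneg ?_
      intro x hx
      rw [List.mem_map] at hx
      obtain ⟨d, _, rfl⟩ := hx
      exact sq_nonneg _
    have := sq_add_le_aux (a := f u - f w) (b := f w - f v) hB ih
    rw [SimpleGraph.Walk.length_cons, SimpleGraph.Walk.darts_cons, List.map_cons, List.sum_cons]
    have e : f u - f v = (f u - f w) + (f w - f v) := by ring
    rw [e]
    exact this

/-- TASK T6 -/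
theorem path_ineq {α : Type*} [DecidableEq α] (S : Finset α) (r : α → α → Prop) [DecidableRel r]
    (hr : ∀ a b, r a b → r b a) (f : α → ℝ) {u v : α}
    (h : Relation.ReflTransGen (fun a b => a ∈ S ∧ b ∈ S ∧ r a b) u v) :
    (f u - f v) ^ 2 ≤ (S.card : ℝ) *
      ∑ a ∈ S, ∑ b ∈ S.filter (fun b => r a b), (f a - f b) ^ 2 := by
  classical
  set G : SimpleGraph α :=
    { Adj := fun a b => a ≠ b ∧ a ∈ S ∧ b ∈ S ∧ r a b
      symm := ⟨fun a b hab => ⟨hab.1.symm, hab.2.2.1, hab.2.1, hr _ _ hab.2.2.2⟩⟩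
      loopless := ⟨fun a ha => ha.1 rfl⟩ } with hG
  have hreach : G.Reachable u v := by
    induction h with
    | refl => exact SimpleGraph.Reachable.refl _
    | @tail b c _ hbc ih =>
      by_cases hbc' : b = c
      · subst hbc'; exact ih
      · exact ih.trans (SimpleGraph.Adj.reachable (⟨hbc', hbc.1, hbc.2.1, hbc.2.2⟩ : G.Adj b c))
  obtain ⟨p0⟩ := hreach
  obtain ⟨p, hp⟩ := p0.toPath
  have h1 := walk_ineq G f p
  have hnd : (p.darts.map (·.snd)).Nodup := by
    rw [SimpleGraph.Walk.map_snd_darts]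
    exact hp.support_nodup.tail
  have hdS : ∀ d ∈ p.darts, d.fst ∈ S ∧ d.snd ∈ S ∧ r d.fst d.snd := by
    intro d _
    exact ⟨d.adj.2.1, d.adj.2.2.1, d.adj.2.2.2⟩
  have hlen : p.length ≤ S.card := by
    have e1 : p.length = (p.darts.map (·.snd)).toFinset.card := by
      rw [List.toFinset_card_of_nodup hnd, List.length_map, SimpleGraph.Walk.length_darts]
    rw [e1]
    refine Finset.card_le_card ?_
    intro x hx
    rw [List.mem_toFinset, List.mem_map] at hx
    obtain ⟨d, hd, rfl⟩ := hx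
    exact (hdS d hd).2.1
  set l : List (α × α) := p.darts.map (fun d => (d.fst, d.snd)) with hl
  have hlnd : l.Nodup := by
    have : (l.map Prod.snd).Nodup := by
      rw [hl, List.map_map]; exact hnd
    exact List.Nodup.of_map _ this
  have hsum : (p.darts.map (fun d => (f d.fst - f d.snd) ^ 2)).sum
      = ∑ z ∈ l.toFinset, (f z.1 - f z.2) ^ 2 := by
    rw [List.sum_toFinset _ hlnd, hl, List.map_map]
    rfl
  have hsub : ∑ z ∈ l.toFinset, (f z.1 - f z.2) ^ 2 ≤
      ∑ a ∈ S, ∑ b ∈ S.filter (fun b => r a b), (f a - f b) ^ 2 := by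
    have e2 : ∑ a ∈ S, ∑ b ∈ S.filter (fun b => r a b), (f a - f b) ^ 2
        = ∑ z ∈ (S ×ˢ S).filter (fun z => r z.1 z.2), (f z.1 - f z.2) ^ 2 := by
      rw [Finset.sum_filter, Finset.sum_product]
      refine Finset.sum_congr rfl fun a _ => ?_
      rw [Finset.sum_filter]
    rw [e2]
    refine Finset.sum_le_sum_of_subset_of_nonneg ?_ (fun _ _ _ => sq_nonneg _)
    intro z hz
    rw [List.mem_toFinset, hl, List.mem_map] at hz
    obtain ⟨d, hd, rfl⟩ := hz
    have := hdS d hd
    rw [Finset.mem_filter, Finset.mem_product]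
    exact ⟨⟨this.1, this.2.1⟩, this.2.2⟩
  have hnn : 0 ≤ ∑ z ∈ l.toFinset, (f z.1 - f z.2) ^ 2 :=
    Finset.sum_nonneg fun _ _ => sq_nonneg _
  rw [hsum] at h1
  refine h1.trans ?_
  exact mul_le_mul (by exact_mod_cast hlen) hsub hnn (by (clear * -; positivity))

end Vale.Agent.P335
end
end
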