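import Vale.Agent.P335.MathlibUsed
import Vale.Agent.P335.Bdl.B1

set_option linter.all false

section

section

namespace Vale.Agent.P335.RA

open Finset

namespace Rows

variable {Ω ι : Type*} [Fintype Ω] [DecidableEq ι] {R : Rows Ω ι}

lemma fin3_third (k l : Fin 3) (h : k ≠ l) : ∃ m, m ≠ k ∧ m ≠ l ∧ ∀ j, j = k ∨ j = l ∨ j = m := by
  revert k l; decide

lemma sum_three {α : Type*} [AddCommMonoid α] (F : Fin 3 → α) {k l m : Fin 3}
    (h1 : k ≠ l) (h2 : m ≠ k) (h3 : m ≠ l) : F 0 + F 1 + F 2 = F k + F l + F m := by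
  fin_cases k <;> fin_cases l <;> fin_cases m <;> simp_all <;> abel

lemma cavg_swap {z z' : ι} (h : R.Same z z') (k : Fin 3) (f : Ω → ℝ) :
    cavg (R.rel k) (f ∘ h.sw) = cavg (R.rel k) f ∘ h.sw :=
  cavg_comp_perm h.sw (fun x y => h.rel_sw k x y) f

/-- eigenfunction equation gives the equation for the row averages -/
lemma eig_row {lam : ℝ} {f : Ω → ℝ}
    (hf : ∀ ω, cavg (R.rel 0) f ω + cavg (R.rel 1) f ω + cavg (R.rel 2) f ω = lam * f ω)
    {k l m : Fin 3} (h1 : k ≠ l) (h2 : m ≠ k) (h3 : m ≠ l) (ω : Ω) :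
    (lam - 1) * cavg (R.rel k) f ω =
      cavg (R.rel k) (cavg (R.rel l) f + cavg (R.rel m) f) ω := by
  have hf' : cavg (R.rel k) f + (cavg (R.rel l) f + cavg (R.rel m) f) = lam • f := by
    funext ω
    have := hf ω
    rw [sum_three (fun j => cavg (R.rel j) f ω) h1 h2 h3] at this
    simp only [Pi.add_apply, Pi.smul_apply, smul_eq_mul]
    linarith only [this]
  have h4 := congrArg (cavg (R.rel k)) hf'
  rw [cavg_add, cavg_idem, cavg_smul] at h4
  have h5 := congrFun h4 ω
  simp only [Pi.add_apply, Pi.smul_apply, smul_eq_mul] at h5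
  linarith

lemma abs_cavg_le (r : Setoid Ω) (f : Ω → ℝ) (x : Ω) (B : ℝ) (h : ∀ y, r x y → |f y| ≤ B) :
    |cavg r f x| ≤ B := by
  unfold cavg
  have hp : (0 : ℝ) < (cls r x).card := by exact_mod_cast cls_card_pos r x
  rw [abs_div, abs_of_pos hp, div_le_iff₀ hp]
  calc |∑ y ∈ cls r x, f y| ≤ ∑ y ∈ cls r x, |f y| := abs_sum_le_sum_abs _ _
    _ ≤ ∑ y ∈ cls r x, B := sum_le_sum (fun y hy => h y (mem_cls.mp hy))
    _ = B * (cls r x).card := by rw [sum_const, nsmul_eq_mul, mul_comm]

/-- Step 1: an eigenfunction with eigenvalue above two is invariant under swaps of columns of the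
same type. -/
lemma inv_of_eig {lam : ℝ} (hlam : 2 < lam) {f : Ω → ℝ}
    (hf : ∀ ω, cavg (R.rel 0) f ω + cavg (R.rel 1) f ω + cavg (R.rel 2) f ω = lam * f ω)
    {z z' : ι} (h : R.Same z z') (ω₀ : Ω) : f (h.sw ω₀) = f ω₀ := by
  classical
  set g : Ω → ℝ := f - f ∘ h.sw with hg
  have hgk : ∀ k ω, cavg (R.rel k) g ω = cavg (R.rel k) f ω - cavg (R.rel k) f (h.sw ω) := by
    intro k ω
    rw [hg, cavg_sub, cavg_swap]; rfl
  have hgeig : ∀ ω, cavg (R.rel 0) g ω + cavg (R.rel 1) g ω + cavg (R.rel 2) g ω = lam * g ω := by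
    intro ω
    rw [hgk, hgk, hgk]
    have e1 := hf ω
    have e2 := hf (h.sw ω)
    simp only [hg, Pi.sub_apply, Function.comp_apply]
    linarith only [e1, e2]
  have hzero : ∀ k ω, (R.x ω z = k ↔ R.x ω z' = k) → cavg (R.rel k) g ω = 0 := by
    intro k ω hk
    rw [hgk, ← cavg_congr (h.rel_self_sw k ω hk) f, sub_self]
  -- maximum
  have hne : (univ : Finset (Fin 3 × Ω)).Nonempty := ⟨(0, ω₀), mem_univ _⟩
  obtain ⟨⟨k, ω⟩, -, hmax⟩ := exists_max_image univ
    (fun p : Fin 3 × Ω => |cavg (R.rel p.1) g p.2|) hne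
  have hmax' : ∀ j y, |cavg (R.rel j) g y| ≤ |cavg (R.rel k) g ω| := fun j y =>
    hmax (j, y) (mem_univ _)
  have hB : |cavg (R.rel k) g ω| = 0 := by
    by_contra hB
    have hB0 : 0 < |cavg (R.rel k) g ω| := lt_of_le_of_ne (abs_nonneg _) (Ne.symm hB)
    have hne' : ¬ (R.x ω z = k ↔ R.x ω z' = k) := by
      intro hk
      apply hB
      rw [hzero k ω hk, abs_zero]
    have hk1 : ∀ j : Fin 3, j ≠ j + 1 := by decide
    obtain ⟨l, hl⟩ : ∃ l : Fin 3, k ≠ l := ⟨k + 1, hk1 k⟩
    obtain ⟨m, hm1, hm2, hall⟩ := fin3_third k l hl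
    have he := eig_row hgeig hl hm1 hm2 ω
    have hbound : |cavg (R.rel k) (cavg (R.rel l) g + cavg (R.rel m) g) ω| ≤
        |cavg (R.rel k) g ω| := by
      apply abs_cavg_le
      intro y hy
      have hz := hy z h.left_mem
      have hz' := hy z' h.right_mem
      have hne2 : ¬ (R.x y z = k ↔ R.x y z' = k) := by
        rw [← hz, ← hz']; exact hne'
      rw [Pi.add_apply]
      -- one of the two terms vanishes
      have hcase : (R.x y z = l ↔ R.x y z' = l) ∨ (R.x y z = m ↔ R.x y z' = m) := by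
        rcases hall (R.x y z) with h1 | h1 | h1 <;> rcases hall (R.x y z') with h2 | h2 | h2 <;>
          simp_all [eq_comm]
      rcases hcase with hc | hc
      · rw [hzero l y hc, zero_add]; exact hmax' m y
      · rw [hzero m y hc, add_zero]; exact hmax' l y
    rw [← he, abs_mul, abs_of_pos (by linarith only [hlam] : (0 : ℝ) < lam - 1)] at hbound
    nlinarith only [hbound, hlam, hB0]
  have hall0 : ∀ j y, cavg (R.rel j) g y = 0 := by
    intro j y
    have := hmax' j y
    rw [hB] at this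
    exact abs_eq_zero.mp (le_antisymm this (abs_nonneg _))
  have h0 := hgeig ω₀
  rw [hall0, hall0, hall0] at h0
  have : g ω₀ = 0 := by
    have : lam * g ω₀ = 0 := by linarith
    rcases mul_eq_zero.mp this with h | h
    · linarith only [hlam, h]
    · exact h
  simp only [hg, Pi.sub_apply, Function.comp_apply] at this
  linarith only [this]

/-! ### mixed moves -/

/-- `ω'` arises from `ω` by setting the odd row of the columns `z1`, `z2` to `l` -/
def Mv (R : Rows Ω ι) (z1 z2 : ι) (l : Fin 3) (ω ω' : Ω) : Prop :=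
  ∀ u ∈ R.N1 ∪ R.N2, R.x ω' u = if u = z1 ∨ u = z2 then l else R.x ω u

lemma exists_mv {z1 z2 : ι} (h1 : z1 ∈ R.N1) (h2 : z2 ∈ R.N2) (ω : Ω)
    (h : R.x ω z1 = R.x ω z2) (l : Fin 3) : ∃ ω', R.Mv z1 z2 l ω ω' := by
  apply R.surj (fun u => if u = z1 ∨ u = z2 then l else R.x ω u)
  intro k
  have hn1 : z2 ∉ R.N1 := disjoint_right.mp R.disj h2
  have hn2 : z1 ∉ R.N2 := disjoint_left.mp R.disj h1
  rw [cnt_move R.N1 (R.x ω) _ z1 h1 (fun u hu hne => by
      have : u ≠ z2 := fun h => hn1 (h ▸ hu)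
      simp [hne, this]) k,
    cnt_move R.N2 (R.x ω) _ z2 h2 (fun u hu hne => by
      have : u ≠ z1 := fun h => hn2 (h ▸ hu)
      simp [hne, this]) k]
  have := R.mem ω k
  simp only [true_or, or_true, if_true, h]
  linarith only [this]

/-- number of type one columns in row `k` -/
def n (R : Rows Ω ι) (k : Fin 3) (ω : Ω) : ℕ := cnt R.N1 (R.x ω) k

lemma n_mv {z1 z2 : ι} (h1 : z1 ∈ R.N1) (h2 : z2 ∈ R.N2) {ω ω' : Ω} {l : Fin 3}
    (h : R.Mv z1 z2 l ω ω') (k : Fin 3) : (R.n k ω' : ℤ) = R.n k ω -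
      (if R.x ω z1 = k then 1 else 0) + (if l = k then 1 else 0) := by
  have hn1 : z2 ∉ R.N1 := disjoint_right.mp R.disj h2
  unfold n
  rw [cnt_move R.N1 (R.x ω) (R.x ω') z1 h1 (fun u hu hne => by
      have : u ≠ z2 := fun h => hn1 (h ▸ hu)
      rw [h u (mem_union_left _ hu)]
      simp [hne, this]) k]
  rw [h z1 (mem_union_left _ h1)]
  simp

lemma mv_rel {z1 z2 : ι} {ω ω' : Ω} {l : Fin 3} (h : R.Mv z1 z2 l ω ω') (k : Fin 3)
    (hl : l ≠ k) (hz1 : R.x ω z1 ≠ k) (hz2 : R.x ω z2 ≠ k) : R.rel k ω ω' := by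
  rw [rel_iff]
  intro u hu
  rw [h u hu]
  by_cases h1 : u = z1 ∨ u = z2
  · rw [if_pos h1]
    rcases h1 with h1 | h1
    · subst h1; exact ⟨fun h => absurd h hz1, fun h => absurd h hl⟩
    · subst h1; exact ⟨fun h => absurd h hz2, fun h => absurd h hl⟩
  · rw [if_neg h1]

lemma n_congr {k : Fin 3} {ω ω' : Ω} (h : R.rel k ω ω') : R.n k ω = R.n k ω' :=
  cnt_congr R.N1 k (fun u hu => h u (mem_union_left _ hu))

lemma cnt2_congr {k : Fin 3} {ω ω' : Ω} (h : R.rel k ω ω') :
    cnt R.N2 (R.x ω) k = cnt R.N2 (R.x ω') k :=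
  cnt_congr R.N2 k (fun u hu => h u (mem_union_right _ hu))

lemma cnt2_eq (k : Fin 3) (ω : Ω) : (cnt R.N2 (R.x ω) k : ℤ) = R.n k ω - R.ρ k := by
  have := R.mem ω k
  unfold n; linarith

/-- a function that depends on row `k` and is invariant under swaps depends on `n k` only -/
lemma eq_of_n_eq {k : Fin 3} {F : Ω → ℝ} (hF : ∀ ω ω', R.rel k ω ω' → F ω = F ω')
    (hinv : ∀ {z z' : ι} (h : R.Same z z') (ω : Ω), F (h.sw ω) = F ω) :
    ∀ (N : ℕ) (ω ω' : Ω), R.n k ω = R.n k ω' →
      ((R.N1 ∪ R.N2).filter (fun u => R.x ω u = k ∧ R.x ω' u ≠ k)).card ≤ N → F ω = F ω' := by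
  classical
  intro N
  induction N with
  | zero =>
    intro ω ω' hn hN
    have hempty : ∀ u ∈ R.N1 ∪ R.N2, R.x ω u = k → R.x ω' u = k := by
      intro u hu h1
      by_contra h2
      have : u ∈ (R.N1 ∪ R.N2).filter (fun u => R.x ω u = k ∧ R.x ω' u ≠ k) :=
        mem_filter.mpr ⟨hu, h1, h2⟩
      rw [card_eq_zero.mp (Nat.le_zero.mp hN)] at this
      simp at this
    apply hF
    have hn2 : cnt R.N2 (R.x ω) k = cnt R.N2 (R.x ω') k := by
      have e1 := cnt2_eq (R := R) k ω
      have e2 := cnt2_eq (R := R) k ω'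
      rw [hn] at e1
      omega
    have key : ∀ M : Finset ι, M ⊆ R.N1 ∪ R.N2 → cnt M (R.x ω) k = cnt M (R.x ω') k →
        ∀ u ∈ M, R.x ω' u = k → R.x ω u = k := by
      intro M hM hc u hu h2
      have hsub : M.filter (fun z => R.x ω z = k) ⊆ M.filter (fun z => R.x ω' z = k) := by
        intro v hv
        rw [mem_filter] at hv ⊢
        exact ⟨hv.1, hempty v (hM hv.1) hv.2⟩
      have heq := eq_of_subset_of_card_le hsub (le_of_eq hc.symm)
      have : u ∈ M.filter (fun z => R.x ω' z = k) := mem_filter.mpr ⟨hu, h2⟩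
      rw [← heq] at this
      exact (mem_filter.mp this).2
    intro u hu
    refine ⟨hempty u hu, fun h => ?_⟩
    rcases mem_union.mp hu with h1 | h1
    · exact key R.N1 subset_union_left hn u h1 h
    · exact key R.N2 subset_union_right hn2 u h1 h
  | succ N ih =>
    intro ω ω' hn hN
    by_cases h0 : ((R.N1 ∪ R.N2).filter (fun u => R.x ω u = k ∧ R.x ω' u ≠ k)).card ≤ N
    · exact ih ω ω' hn h0
    have hne : ((R.N1 ∪ R.N2).filter (fun u => R.x ω u = k ∧ R.x ω' u ≠ k)).Nonempty := by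
      rw [← card_pos]; omega
    obtain ⟨z, hz⟩ := hne
    rw [mem_filter] at hz
    obtain ⟨hzN, hz1, hz2⟩ := hz
    have hn2 : cnt R.N2 (R.x ω) k = cnt R.N2 (R.x ω') k := by
      have e1 := cnt2_eq (R := R) k ω
      have e2 := cnt2_eq (R := R) k ω'
      rw [hn] at e1
      omega
    have key : ∀ M : Finset ι, cnt M (R.x ω) k = cnt M (R.x ω') k → z ∈ M →
        ∃ z' ∈ M, R.x ω z' ≠ k ∧ R.x ω' z' = k := by
      intro M hc hzM
      by_contra hcon
      push Not at hcon
      have hsub : M.filter (fun z => R.x ω' z = k) ⊆ M.filter (fun z => R.x ω z = k) := by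
        intro v hv
        rw [mem_filter] at hv ⊢
        refine ⟨hv.1, ?_⟩
        by_contra h
        exact hcon v hv.1 h hv.2
      have heq := eq_of_subset_of_card_le hsub (le_of_eq hc)
      have : z ∈ M.filter (fun z => R.x ω z = k) := mem_filter.mpr ⟨hzM, hz1⟩
      rw [← heq] at this
      exact hz2 (mem_filter.mp this).2
    obtain ⟨z', hsame, hz3, hz4⟩ : ∃ z', R.Same z z' ∧ R.x ω z' ≠ k ∧ R.x ω' z' = k := by
      rcases mem_union.mp hzN with h1 | h1
      · obtain ⟨z', h2, h3, h4⟩ := key R.N1 hn h1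
        exact ⟨z', Or.inl ⟨h1, h2⟩, h3, h4⟩
      · obtain ⟨z', h2, h3, h4⟩ := key R.N2 hn2 h1
        exact ⟨z', Or.inr ⟨h1, h2⟩, h3, h4⟩
    rw [← hinv hsame ω]
    apply ih
    · rw [← hn]
      unfold n
      have : cnt R.N1 (R.x (hsame.sw ω)) k = cnt R.N1 (fun u => R.x ω (Equiv.swap z z' u)) k := by
        apply cnt_congr
        intro u hu
        rw [hsame.sw_spec ω (mem_union_left _ hu)]
      rw [this, cnt_perm R.N1 (R.x ω) k _ (swap_mem_iff R.N1 hsame.iff1)]
    · have hss : (R.N1 ∪ R.N2).filter (fun u => R.x (hsame.sw ω) u = k ∧ R.x ω' u ≠ k) ⊂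
          (R.N1 ∪ R.N2).filter (fun u => R.x ω u = k ∧ R.x ω' u ≠ k) := by
        rw [ssubset_iff_of_subset]
        · refine ⟨z, mem_filter.mpr ⟨hzN, hz1, hz2⟩, ?_⟩
          rw [mem_filter, hsame.sw_spec ω hzN, Equiv.swap_apply_left]
          exact fun h => hz3 h.2.1
        · intro u hu
          rw [mem_filter] at hu ⊢
          refine ⟨hu.1, ?_, hu.2.2⟩
          have h5 := hu.2.1
          rw [hsame.sw_spec ω hu.1] at h5
          by_cases h6 : u = z
          · subst h6; exact hz1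
          · by_cases h7 : u = z'
            · subst h7; exact absurd hz4 hu.2.2
            · rwa [Equiv.swap_apply_of_ne_of_ne h6 h7] at h5
      have := card_lt_card hss
      omega

end Rows

end Vale.Agent.P335.RA
end
end

section

section

namespace Vale.Agent.P335.RA

open Finset

namespace Rows

variable {Ω ι : Type*} [Fintype Ω] [DecidableEq ι] {R : Rows Ω ι}

open Classical in
/-- a choice of the moved state -/
noncomputable def mvf (R : Rows Ω ι) (z1 z2 : ι) (l : Fin 3) (ω : Ω) : Ω :=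
  if h : ∃ ω', R.Mv z1 z2 l ω ω' then Classical.choose h else ω

lemma mvf_spec {z1 z2 : ι} (h1 : z1 ∈ R.N1) (h2 : z2 ∈ R.N2) (ω : Ω)
    (h : R.x ω z1 = R.x ω z2) (l : Fin 3) : R.Mv z1 z2 l ω (R.mvf z1 z2 l ω) := by
  classical
  have he := exists_mv h1 h2 ω h l
  unfold mvf
  rw [dif_pos he]
  exact Classical.choose_spec he

section classes

variable {z1 z2 : ι} (h1 : z1 ∈ R.N1) (h2 : z2 ∈ R.N2) {k l m l0 : Fin 3} {ω ω' : Ω}
  (hz1 : R.x ω z1 = k) (hz2 : R.x ω z2 = k) (hmv : R.Mv z1 z2 l0 ω ω') (hl0 : l0 ≠ k)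
  (hkl : k ≠ l) (hmk : m ≠ k) (hml : m ≠ l)

include h1 h2 hz1 hz2 hmv hl0 hkl hmk hml

open Classical in
lemma sum_cls_move (h : Ω → ℝ) (hrow : ∀ a b, R.rel l a b → h a = h b) :
    ∑ y ∈ cls (R.rel k) ω, h y =
      ∑ y ∈ (cls (R.rel k) ω').filter (fun y => R.x y z1 = m ∧ R.x y z2 = m), h y := by
  have m1 : z1 ∈ R.N1 ∪ R.N2 := mem_union_left _ h1
  have m2 : z2 ∈ R.N1 ∪ R.N2 := mem_union_right _ h2
  refine Finset.sum_bij' (fun y _ => R.mvf z1 z2 m y) (fun y _ => R.mvf z1 z2 k y) ?_ ?_ ?_ ?_ ?_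
  · intro y hy
    rw [mem_cls] at hy
    have e1 : R.x y z1 = k := (hy z1 m1).1 hz1
    have e2 : R.x y z2 = k := (hy z2 m2).1 hz2
    have hs := mvf_spec h1 h2 y (e1.trans e2.symm) m
    simp only [mem_filter, mem_cls]
    refine ⟨?_, ?_, ?_⟩
    · intro u hu
      rw [hmv u hu, hs u hu]
      by_cases hc : u = z1 ∨ u = z2
      · rw [if_pos hc, if_pos hc]
        exact ⟨fun h => absurd h hl0, fun h => absurd h hmk⟩
      · rw [if_neg hc, if_neg hc]
        exact hy u hu
    · rw [hs z1 m1]; simp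
    · rw [hs z2 m2]; simp
  · intro y hy
    simp only [mem_filter, mem_cls] at hy
    obtain ⟨hy, e1, e2⟩ := hy
    have hs := mvf_spec h1 h2 y (e1.trans e2.symm) k
    rw [mem_cls]
    intro u hu
    rw [hs u hu]
    have h3 := hy u hu
    rw [hmv u hu] at h3
    by_cases hc : u = z1 ∨ u = z2
    · rw [if_pos hc]
      rcases hc with hc | hc
      · subst hc; simp [hz1]
      · subst hc; simp [hz2]
    · rw [if_neg hc] at h3 ⊢
      exact h3
  · intro y hy
    rw [mem_cls] at hy
    have e1 : R.x y z1 = k := (hy z1 m1).1 hz1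
    have e2 : R.x y z2 = k := (hy z2 m2).1 hz2
    have hs := mvf_spec h1 h2 y (e1.trans e2.symm) m
    have e3 : R.x (R.mvf z1 z2 m y) z1 = m := by rw [hs z1 m1]; simp
    have e4 : R.x (R.mvf z1 z2 m y) z2 = m := by rw [hs z2 m2]; simp
    have hs' := mvf_spec h1 h2 (R.mvf z1 z2 m y) (e3.trans e4.symm) k
    apply R.inj
    intro u hu
    rw [hs' u hu, hs u hu]
    by_cases hc : u = z1 ∨ u = z2
    · rw [if_pos hc]
      rcases hc with hc | hc
      · subst hc; exact e1.symm
      · subst hc; exact e2.symm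
    · rw [if_neg hc, if_neg hc]
  · intro y hy
    simp only [mem_filter, mem_cls] at hy
    obtain ⟨hy, e1, e2⟩ := hy
    have hs := mvf_spec h1 h2 y (e1.trans e2.symm) k
    have e3 : R.x (R.mvf z1 z2 k y) z1 = k := by rw [hs z1 m1]; simp
    have e4 : R.x (R.mvf z1 z2 k y) z2 = k := by rw [hs z2 m2]; simp
    have hs' := mvf_spec h1 h2 (R.mvf z1 z2 k y) (e3.trans e4.symm) m
    apply R.inj
    intro u hu
    rw [hs' u hu, hs u hu]
    by_cases hc : u = z1 ∨ u = z2
    · rw [if_pos hc]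
      rcases hc with hc | hc
      · subst hc; exact e1.symm
      · subst hc; exact e2.symm
    · rw [if_neg hc, if_neg hc]
  · intro y hy
    rw [mem_cls] at hy
    have e1 : R.x y z1 = k := (hy z1 m1).1 hz1
    have e2 : R.x y z2 = k := (hy z2 m2).1 hz2
    have hs := mvf_spec h1 h2 y (e1.trans e2.symm) m
    exact hrow _ _ (mv_rel hs l hml (by rw [e1]; exact hkl) (by rw [e2]; exact hkl))

end classes

/-- invariance of class sums under a swap that fixes the class -/
lemma sum_cls_swap {a b : ι} (hab : R.Same a b) {k : Fin 3} {ω : Ω} (ha : R.x ω a ≠ k)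
    (hb : R.x ω b ≠ k) (P : Ω → ℝ) :
    ∑ y ∈ cls (R.rel k) ω, P (hab.sw y) = ∑ y ∈ cls (R.rel k) ω, P y := by
  have hself : R.rel k ω (hab.sw ω) :=
    hab.rel_self_sw k ω ⟨fun h => absurd h ha, fun h => absurd h hb⟩
  apply Finset.sum_equiv hab.sw
  · intro y
    rw [mem_cls, mem_cls]
    constructor
    · intro h
      exact (R.rel k).trans hself ((hab.rel_sw k ω y).2 h)
    · intro h
      exact (hab.rel_sw k ω y).1 ((R.rel k).trans ((R.rel k).symm hself) h)
  · intro y _
    rfl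

open Classical in
lemma sum_sym {z1 z2 : ι} (h1 : z1 ∈ R.N1) (h2 : z2 ∈ R.N2) {k m : Fin 3} (hmk : m ≠ k) {ω : Ω}
    (hz1 : R.x ω z1 ≠ k) (hz2 : R.x ω z2 ≠ k) (h : Ω → ℝ)
    (hinv : ∀ {z z' : ι} (hs : R.Same z z') (ω : Ω), h (hs.sw ω) = h ω) :
    ((R.N1.filter (fun z => R.x ω z ≠ k)).card : ℝ) *
      ((R.N2.filter (fun z => R.x ω z ≠ k)).card : ℝ) *
      ∑ y ∈ (cls (R.rel k) ω).filter (fun y => R.x y z1 = m ∧ R.x y z2 = m), h y =
    ∑ y ∈ cls (R.rel k) ω, h y * ((R.n m y : ℝ) * (cnt R.N2 (R.x y) m : ℝ)) := by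
  set T1 := R.N1.filter (fun z => R.x ω z ≠ k) with hT1
  set T2 := R.N2.filter (fun z => R.x ω z ≠ k) with hT2
  set G : ι → ι → ℝ := fun a b => ∑ y ∈ cls (R.rel k) ω,
    (if R.x y a = m ∧ R.x y b = m then h y else 0) with hG
  have hG1 : ∀ a ∈ T1, ∀ a' ∈ T1, ∀ b ∈ T2, G a b = G a' b := by
    intro a ha a' ha' b hb
    rw [hT1, mem_filter] at ha ha'
    rw [hT2, mem_filter] at hb
    have hsame : R.Same a a' := Or.inl ⟨ha.1, ha'.1⟩
    have hne1 : b ≠ a := fun h => disjoint_left.mp R.disj ha.1 (h ▸ hb.1)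
    have hne2 : b ≠ a' := fun h => disjoint_left.mp R.disj ha'.1 (h ▸ hb.1)
    simp only [hG]
    rw [← sum_cls_swap hsame ha.2 ha'.2]
    refine sum_congr rfl (fun y _ => ?_)
    rw [hsame.sw_spec y (mem_union_left _ ha.1), hsame.sw_spec y (mem_union_right _ hb.1),
      Equiv.swap_apply_left, Equiv.swap_apply_of_ne_of_ne hne1 hne2, hinv]
  have hG2 : ∀ a ∈ T1, ∀ b ∈ T2, ∀ b' ∈ T2, G a b = G a b' := by
    intro a ha b hb b' hb'
    rw [hT1, mem_filter] at ha
    rw [hT2, mem_filter] at hb hb'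
    have hsame : R.Same b b' := Or.inr ⟨hb.1, hb'.1⟩
    have hne1 : a ≠ b := fun h => disjoint_left.mp R.disj ha.1 (h ▸ hb.1)
    have hne2 : a ≠ b' := fun h => disjoint_left.mp R.disj ha.1 (h ▸ hb'.1)
    simp only [hG]
    rw [← sum_cls_swap hsame hb.2 hb'.2]
    refine sum_congr rfl (fun y _ => ?_)
    rw [hsame.sw_spec y (mem_union_left _ ha.1), hsame.sw_spec y (mem_union_right _ hb.1),
      Equiv.swap_apply_left, Equiv.swap_apply_of_ne_of_ne hne1 hne2, hinv]
  have hz1' : z1 ∈ T1 := mem_filter.mpr ⟨h1, hz1⟩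
  have hz2' : z2 ∈ T2 := mem_filter.mpr ⟨h2, hz2⟩
  have hall : ∀ a ∈ T1, ∀ b ∈ T2, G a b = G z1 z2 := fun a ha b hb =>
    (hG1 a ha z1 hz1' b hb).trans (hG2 z1 hz1' b hb z2 hz2')
  have hsum : ∑ a ∈ T1, ∑ b ∈ T2, G a b = (T1.card : ℝ) * (T2.card : ℝ) * G z1 z2 := by
    rw [sum_congr rfl (fun a ha => sum_congr rfl (fun b hb => hall a ha b hb))]
    simp only [sum_const, nsmul_eq_mul]
    ring
  have hGz : G z1 z2 =
      ∑ y ∈ (cls (R.rel k) ω).filter (fun y => R.x y z1 = m ∧ R.x y z2 = m), h y := by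
    rw [sum_filter]
  rw [← hGz, ← hsum]
  have hswap : ∑ a ∈ T1, ∑ b ∈ T2, G a b = ∑ y ∈ cls (R.rel k) ω, ∑ a ∈ T1, ∑ b ∈ T2,
      (if R.x y a = m ∧ R.x y b = m then h y else 0) := by
    simp only [hG]
    rw [sum_congr rfl (fun a _ => sum_comm), sum_comm]
  rw [hswap]
  refine sum_congr rfl (fun y hy => ?_)
  rw [mem_cls] at hy
  have hc1 : (R.n m y : ℝ) = ∑ a ∈ T1, (if R.x y a = m then 1 else 0) := by
    rw [sum_boole]
    congr 1
    unfold n cnt
    congr 1
    ext u
    simp only [hT1, mem_filter]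
    constructor
    · rintro ⟨hu, he⟩
      refine ⟨⟨hu, fun hk => ?_⟩, he⟩
      exact hmk (he.symm.trans ((hy u (mem_union_left _ hu)).1 hk))
    · rintro ⟨⟨hu, -⟩, he⟩
      exact ⟨hu, he⟩
  have hc2 : (cnt R.N2 (R.x y) m : ℝ) = ∑ a ∈ T2, (if R.x y a = m then 1 else 0) := by
    rw [sum_boole]
    congr 1
    unfold cnt
    congr 1
    ext u
    simp only [hT2, mem_filter]
    constructor
    · rintro ⟨hu, he⟩
      refine ⟨⟨hu, fun hk => ?_⟩, he⟩
      exact hmk (he.symm.trans ((hy u (mem_union_right _ hu)).1 hk))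
    · rintro ⟨⟨hu, -⟩, he⟩
      exact ⟨hu, he⟩
  rw [hc1, hc2, sum_mul_sum, mul_sum]
  refine sum_congr rfl (fun a _ => ?_)
  rw [mul_sum]
  refine sum_congr rfl (fun b _ => ?_)
  by_cases c1 : R.x y a = m <;> by_cases c2 : R.x y b = m <;> simp [c1, c2]

end Rows

end Vale.Agent.P335.RA
end
end

section

section

namespace Vale.Agent.P335.RA

open Finset

namespace Rows

variable {Ω ι : Type*} [Fintype Ω] [DecidableEq ι] {R : Rows Ω ι}

lemma n_sum {k l m : Fin 3} (hkl : k ≠ l) (hmk : m ≠ k) (hml : m ≠ l) (y : Ω) :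
    R.n k y + R.n l y + R.n m y = R.N1.card := by
  rw [← sum_three (fun j => R.n j y) hkl hmk hml]
  exact cnt_total R.N1 (R.x y)

section classes

variable {z1 z2 : ι} (h1 : z1 ∈ R.N1) (h2 : z2 ∈ R.N2) {k l m l0 : Fin 3} {ω ω' : Ω}
  (hz1 : R.x ω z1 = k) (hz2 : R.x ω z2 = k) (hmv : R.Mv z1 z2 l0 ω ω') (hl0 : l0 ≠ k)
  (hkl : k ≠ l) (hmk : m ≠ k) (hml : m ≠ l)

include h1 h2 hz1 hz2 hmv hl0 hkl hmk hml

/-- monotone functions of `n l` have a smaller average over the class with the larger row `k` -/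
lemma cavg_mono (h : Ω → ℝ) (hrow : ∀ a b, R.rel l a b → h a = h b)
    (hinv : ∀ {z z' : ι} (hs : R.Same z z') (ω : Ω), h (hs.sw ω) = h ω)
    (hmono : ∀ a b, R.n l a ≤ R.n l b → h a ≤ h b) :
    cavg (R.rel k) h ω ≤ cavg (R.rel k) h ω' := by
  classical
  have m1 : z1 ∈ R.N1 ∪ R.N2 := mem_union_left _ h1
  have m2 : z2 ∈ R.N1 ∪ R.N2 := mem_union_right _ h2
  have hw1 : R.x ω' z1 ≠ k := by rw [hmv z1 m1]; simpa using hl0
  have hw2 : R.x ω' z2 ≠ k := by rw [hmv z2 m2]; simpa using hl0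
  set T1 := R.N1.filter (fun z => R.x ω' z ≠ k) with hT1
  set T2 := R.N2.filter (fun z => R.x ω' z ≠ k) with hT2
  have hT1p : (0 : ℝ) < T1.card := by
    exact_mod_cast card_pos.mpr ⟨z1, mem_filter.mpr ⟨h1, hw1⟩⟩
  have hT2p : (0 : ℝ) < T2.card := by
    exact_mod_cast card_pos.mpr ⟨z2, mem_filter.mpr ⟨h2, hw2⟩⟩
  set ψ : Ω → ℝ := fun y => (R.n m y : ℝ) * (cnt R.N2 (R.x y) m : ℝ) with hψ
  have A : ∀ g : Ω → ℝ, (∀ a b, R.rel l a b → g a = g b) →
      (∀ {z z' : ι} (hs : R.Same z z') (ω : Ω), g (hs.sw ω) = g ω) →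
      (T1.card : ℝ) * (T2.card : ℝ) * ∑ y ∈ cls (R.rel k) ω, g y =
        ∑ y ∈ cls (R.rel k) ω', g y * ψ y := by
    intro g hg1 hg2
    rw [sum_cls_move h1 h2 hz1 hz2 hmv hl0 hkl hmk hml g hg1]
    exact sum_sym h1 h2 hmk hw1 hw2 g hg2
  have A1 := A (fun _ => 1) (fun _ _ _ => rfl) (fun _ _ => rfl)
  have A2 := A h hrow hinv
  have hanti : AntivaryOn h ψ (cls (R.rel k) ω' : Set Ω) := by
    intro a ha b hb hab
    have ha := mem_cls.mp (mem_coe.mp ha)
    have hb := mem_cls.mp (mem_coe.mp hb)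
    by_cases hle : R.n l b ≤ R.n l a
    · exact hmono b a hle
    · exfalso
      have e1 := n_sum (R := R) hkl hmk hml a
      have e2 := n_sum (R := R) hkl hmk hml b
      have e3 := n_congr ha
      have e4 := n_congr hb
      have e5 : R.n m b ≤ R.n m a := by omega
      have e6 : cnt R.N2 (R.x b) m ≤ cnt R.N2 (R.x a) m := by
        have f1 := cnt2_eq (R := R) m a
        have f2 := cnt2_eq (R := R) m b
        omega
      have : ψ b ≤ ψ a := by
        simp only [hψ]
        exact_mod_cast Nat.mul_le_mul e5 e6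
      linarith only [hab, this]
  have hcheb := hanti.card_mul_sum_le_sum_mul_sum
  rw [← A2] at hcheb
  have hψsum : ∑ y ∈ cls (R.rel k) ω', ψ y =
      (T1.card : ℝ) * (T2.card : ℝ) * ((cls (R.rel k) ω).card : ℝ) := by
    simp only [sum_const, nsmul_eq_mul, mul_one, one_mul] at A1
    exact A1.symm
  rw [hψsum] at hcheb
  have c1 : (0 : ℝ) < (cls (R.rel k) ω).card := by exact_mod_cast cls_card_pos _ _
  have c2 : (0 : ℝ) < (cls (R.rel k) ω').card := by exact_mod_cast cls_card_pos _ _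
  unfold cavg
  rw [div_le_div_iff₀ c1 c2]
  have hpos : (0 : ℝ) < T1.card * T2.card := mul_pos hT1p hT2p
  have h5 : (T1.card : ℝ) * T2.card * ((∑ y ∈ cls (R.rel k) ω, h y) * (cls (R.rel k) ω').card) ≤
      (T1.card : ℝ) * T2.card * ((∑ y ∈ cls (R.rel k) ω', h y) * (cls (R.rel k) ω).card) := by
    linarith only [hcheb]
  exact le_of_mul_le_mul_left h5 hpos

end classes

/-- Lipschitz condition for the family of row functions -/
def Lip (R : Rows Ω ι) (F : Fin 3 → Ω → ℝ) (M : ℝ) : Prop :=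
  ∀ k a b, |F k a - F k b| ≤ M * |(R.n k a : ℝ) - R.n k b|

section step

variable {F : Fin 3 → Ω → ℝ} (hrow : ∀ k a b, R.rel k a b → F k a = F k b)
  (hinv : ∀ k {z z' : ι} (hs : R.Same z z') (ω : Ω), F k (hs.sw ω) = F k ω)
  {lam : ℝ} (hlam : 2 < lam)
  (heig : ∀ {k l m : Fin 3}, k ≠ l → m ≠ k → m ≠ l → ∀ ω,
    (lam - 1) * F k ω = cavg (R.rel k) (F l + F m) ω)

lemma n_inv (l : Fin 3) {z z' : ι} (hs : R.Same z z') (ω : Ω) : R.n l (hs.sw ω) = R.n l ω := by
  unfold n
  have : cnt R.N1 (R.x (hs.sw ω)) l = cnt R.N1 (fun u => R.x ω (Equiv.swap z z' u)) l := by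
    apply cnt_congr
    intro u hu
    rw [hs.sw_spec ω (mem_union_left _ hu)]
  rw [this, cnt_perm R.N1 (R.x ω) l _ (swap_mem_iff R.N1 hs.iff1)]

include hrow hinv in
lemma one_side {M : ℝ} (hLip : R.Lip F M) {z1 z2 : ι} (h1 : z1 ∈ R.N1) (h2 : z2 ∈ R.N2)
    {k l m l0 : Fin 3} {ω ω' : Ω}
    (hz1 : R.x ω z1 = k) (hz2 : R.x ω z2 = k) (hmv : R.Mv z1 z2 l0 ω ω') (hl0 : l0 ≠ k)
    (hkl : k ≠ l) (hmk : m ≠ k) (hml : m ≠ l) :
    |cavg (R.rel k) (F l) ω - cavg (R.rel k) (F l) ω'| ≤
      M * (cavg (R.rel k) (fun y => (R.n l y : ℝ)) ω' -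
        cavg (R.rel k) (fun y => (R.n l y : ℝ)) ω) := by
  have hn : ∀ a b, R.n l a ≤ R.n l b → |F l a - F l b| ≤ M * ((R.n l b : ℝ) - R.n l a) := by
    intro a b hab
    have := hLip l a b
    have hab' : (R.n l a : ℝ) ≤ R.n l b := by exact_mod_cast hab
    rwa [abs_of_nonpos (by linarith only [hab'] : (R.n l a : ℝ) - R.n l b ≤ 0), neg_sub] at this
  have key : ∀ s : ℝ, (s = 1 ∨ s = -1) →
      s * cavg (R.rel k) (F l) ω + M * cavg (R.rel k) (fun y => (R.n l y : ℝ)) ω ≤
      s * cavg (R.rel k) (F l) ω' + M * cavg (R.rel k) (fun y => (R.n l y : ℝ)) ω' := by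
    intro s hs
    have e := cavg_mono h1 h2 hz1 hz2 hmv hl0 hkl hmk hml
      (s • F l + M • (fun y => (R.n l y : ℝ))) (by
        intro a b hab
        simp only [Pi.add_apply, Pi.smul_apply, smul_eq_mul]
        rw [hrow l a b hab, n_congr hab]) (by
        intro z z' hs ω
        simp only [Pi.add_apply, Pi.smul_apply, smul_eq_mul]
        rw [hinv l hs ω, n_inv l hs ω]) (by
        intro a b hab
        simp only [Pi.add_apply, Pi.smul_apply, smul_eq_mul]
        have := abs_le.mp (hn a b hab)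
        rcases hs with rfl | rfl
        · linarith only [this]
        · linarith only [this])
    rw [cavg_add, cavg_smul, cavg_smul] at e
    simpa only [Pi.add_apply, Pi.smul_apply, smul_eq_mul] using e
  have k1 := key 1 (Or.inl rfl)
  have k2 := key (-1) (Or.inr rfl)
  rw [abs_le]
  constructor <;> linarith

include hrow hinv hlam heig in
lemma lip_step {M : ℝ} (hLip : R.Lip F M) : R.Lip F (M / (lam - 1)) := by
  have hl1 : 0 < lam - 1 := by linarith
  -- one move
  have hmove : ∀ {z1 z2 : ι}, z1 ∈ R.N1 → z2 ∈ R.N2 → ∀ {k l0 : Fin 3} {ω ω' : Ω},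
      R.x ω z1 = k → R.x ω z2 = k → R.Mv z1 z2 l0 ω ω' → l0 ≠ k →
      |F k ω - F k ω'| ≤ M / (lam - 1) := by
    intro z1 z2 h1 h2 k l0 ω ω' hz1 hz2 hmv hl0
    obtain ⟨m, hm1, hm2, -⟩ := fin3_third k l0 (Ne.symm hl0)
    have e1 := one_side hrow hinv hLip h1 h2 hz1 hz2 hmv hl0 (l := l0) (m := m)
      (Ne.symm hl0) hm1 hm2
    have e2 := one_side hrow hinv hLip h1 h2 hz1 hz2 hmv hl0 (l := m) (m := l0)
      (Ne.symm hm1) hl0 (Ne.symm hm2)
    have e3 := heig (Ne.symm hl0) hm1 hm2 ω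
    have e4 := heig (Ne.symm hl0) hm1 hm2 ω'
    rw [cavg_add, Pi.add_apply] at e3 e4
    have hconst : ∀ v, cavg (R.rel k) (fun y => (R.n l0 y : ℝ)) v +
        cavg (R.rel k) (fun y => (R.n m y : ℝ)) v = (R.N1.card : ℝ) - R.n k v := by
      intro v
      have : (fun y => (R.n l0 y : ℝ)) + (fun y => (R.n m y : ℝ)) =
          fun y => (R.N1.card : ℝ) - R.n k y := by
        funext y
        simp only [Pi.add_apply]
        have := n_sum (R := R) (Ne.symm hl0) hm1 hm2 y
        rw [← this]; push_cast; ring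
      rw [← Pi.add_apply (cavg (R.rel k) (fun y => (R.n l0 y : ℝ))), ← cavg_add, this]
      apply cavg_of_const
      intro y hy
      rw [n_congr hy]
    have c1 := hconst ω
    have c2 := hconst ω'
    have hn : (R.n k ω' : ℝ) = R.n k ω - 1 := by
      have := n_mv h1 h2 hmv k
      rw [if_pos hz1, if_neg hl0] at this
      have h' : (R.n k ω' : ℤ) = R.n k ω - 1 := by linarith only [this]
      exact_mod_cast h'
    rw [le_div_iff₀ hl1]
    have : |F k ω - F k ω'| * (lam - 1) = |(lam - 1) * F k ω - (lam - 1) * F k ω'| := by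
      rw [← mul_sub, abs_mul, abs_of_pos hl1]; ring
    rw [this, e3, e4]
    have tri : |cavg (R.rel k) (F l0) ω + cavg (R.rel k) (F m) ω -
        (cavg (R.rel k) (F l0) ω' + cavg (R.rel k) (F m) ω')| ≤
        |cavg (R.rel k) (F l0) ω - cavg (R.rel k) (F l0) ω'| +
        |cavg (R.rel k) (F m) ω - cavg (R.rel k) (F m) ω'| := by
      rw [show cavg (R.rel k) (F l0) ω + cavg (R.rel k) (F m) ω -
        (cavg (R.rel k) (F l0) ω' + cavg (R.rel k) (F m) ω') =
        (cavg (R.rel k) (F l0) ω - cavg (R.rel k) (F l0) ω') +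
        (cavg (R.rel k) (F m) ω - cavg (R.rel k) (F m) ω') by ring]
      exact abs_add_le _ _
    have fin : M * (cavg (R.rel k) (fun y => (R.n l0 y : ℝ)) ω' -
        cavg (R.rel k) (fun y => (R.n l0 y : ℝ)) ω) +
        M * (cavg (R.rel k) (fun y => (R.n m y : ℝ)) ω' -
        cavg (R.rel k) (fun y => (R.n m y : ℝ)) ω) = M := by
      rw [← mul_add]
      have : cavg (R.rel k) (fun y => (R.n l0 y : ℝ)) ω' -
        cavg (R.rel k) (fun y => (R.n l0 y : ℝ)) ω +
        (cavg (R.rel k) (fun y => (R.n m y : ℝ)) ω' -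
        cavg (R.rel k) (fun y => (R.n m y : ℝ)) ω) = 1 := by linarith only [c1, c2, hn]
      rw [this, mul_one]
    linarith only [e1, e2, tri, fin]
  -- chain
  have hchain : ∀ k (N : ℕ) (a b : Ω), R.n k a = R.n k b + N →
      |F k a - F k b| ≤ M / (lam - 1) * N := by
    intro k N
    induction N with
    | zero =>
      intro a b hab
      have := eq_of_n_eq (hrow k) (hinv k) _ a b (by simpa using hab) le_rfl
      rw [this]; simp
    | succ N ih =>
      intro a b hab
      have hpos : 0 < R.n k a := by omega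
      have hpos2 : 0 < cnt R.N2 (R.x a) k := by
        have f1 := cnt2_eq (R := R) k a
        have f2 := cnt2_eq (R := R) k b
        omega
      obtain ⟨z1, hz1⟩ := card_pos.mp hpos
      obtain ⟨z2, hz2⟩ := card_pos.mp hpos2
      rw [mem_filter] at hz1 hz2
      have hk1 : ∀ j : Fin 3, j + 1 ≠ j := by decide
      obtain ⟨a', ha'⟩ := exists_mv hz1.1 hz2.1 a (hz1.2.trans hz2.2.symm) (k + 1)
      have e1 := hmove hz1.1 hz2.1 hz1.2 hz2.2 ha' (hk1 k)
      have hn : (R.n k a' : ℤ) = R.n k a - 1 := by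
        have := n_mv hz1.1 hz2.1 ha' k
        rw [if_pos hz1.2, if_neg (hk1 k)] at this
        linarith only [this]
      have e2 := ih a' b (by omega)
      calc |F k a - F k b| ≤ |F k a - F k a'| + |F k a' - F k b| := abs_sub_le _ _ _
        _ ≤ M / (lam - 1) + M / (lam - 1) * N := add_le_add e1 e2
        _ = M / (lam - 1) * ((N + 1 : ℕ) : ℝ) := by push_cast; ring
  intro k a b
  rcases le_total (R.n k b) (R.n k a) with h | h
  · obtain ⟨N, hN⟩ := Nat.exists_eq_add_of_le h
    have := hchain k N a b hN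
    have e : |(R.n k a : ℝ) - R.n k b| = N := by
      rw [hN, Nat.cast_add, add_sub_cancel_left]
      exact abs_of_nonneg (Nat.cast_nonneg N)
    rw [e]; exact this
  · obtain ⟨N, hN⟩ := Nat.exists_eq_add_of_le h
    have := hchain k N b a hN
    have e : |(R.n k a : ℝ) - R.n k b| = N := by
      rw [hN, Nat.cast_add, abs_sub_comm, add_sub_cancel_left]
      exact abs_of_nonneg (Nat.cast_nonneg N)
    rw [e, abs_sub_comm]; exact this

include hrow hinv hlam heig in
lemma const_of_eig (k : Fin 3) (a b : Ω) : F k a = F k b := by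
  classical
  have hl1 : 1 < lam - 1 := by linarith
  set M0 : ℝ := ∑ k, ∑ a, ∑ b, |F k a - F k b| with hM0
  have hM0' : ∀ k a b, |F k a - F k b| ≤ M0 := by
    intro k a b
    calc |F k a - F k b| ≤ ∑ b, |F k a - F k b| :=
          single_le_sum (f := fun b => |F k a - F k b|) (fun _ _ => abs_nonneg _) (mem_univ b)
      _ ≤ ∑ a, ∑ b, |F k a - F k b| :=
          single_le_sum (f := fun a => ∑ b, |F k a - F k b|)
            (fun _ _ => sum_nonneg (fun _ _ => abs_nonneg _)) (mem_univ a)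
      _ ≤ M0 := single_le_sum (f := fun k => ∑ a, ∑ b, |F k a - F k b|)
            (fun _ _ => sum_nonneg (fun _ _ => sum_nonneg (fun _ _ => abs_nonneg _)))
            (mem_univ k)
  have hL0 : R.Lip F M0 := by
    intro k a b
    by_cases h : R.n k a = R.n k b
    · have := eq_of_n_eq (hrow k) (hinv k) _ a b h le_rfl
      rw [this, h]; simp
    · have h1 : (1 : ℝ) ≤ |(R.n k a : ℝ) - R.n k b| := by
        have : (1 : ℤ) ≤ |(R.n k a : ℤ) - R.n k b| := by
          apply Int.one_le_abs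
          omega
        exact_mod_cast this
      have h0 : 0 ≤ M0 := le_trans (abs_nonneg _) (hM0' k a b)
      calc |F k a - F k b| ≤ M0 := hM0' k a b
        _ = M0 * 1 := by ring
        _ ≤ _ := mul_le_mul_of_nonneg_left h1 h0
  have hLj : ∀ j : ℕ, R.Lip F (M0 * (1 / (lam - 1)) ^ j) := by
    intro j
    induction j with
    | zero => simpa using hL0
    | succ j ih =>
      have := lip_step hrow hinv hlam heig ih
      rwa [pow_succ, ← mul_assoc, mul_one_div]
  have hlim : Filter.Tendsto (fun j : ℕ => M0 * (1 / (lam - 1)) ^ j *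
      |(R.n k a : ℝ) - R.n k b|) Filter.atTop (nhds 0) := by
    have h1 : Filter.Tendsto (fun j : ℕ => (1 / (lam - 1)) ^ j) Filter.atTop (nhds 0) := by
      apply tendsto_pow_atTop_nhds_zero_of_lt_one
      · (clear * - hl1; positivity)
      · rw [div_lt_one (by linarith)]; exact hl1
    have h2 := (h1.const_mul M0).mul_const |(R.n k a : ℝ) - R.n k b|
    simpa only [one_div, inv_pow, mul_zero, zero_mul] using h2
  have hle : |F k a - F k b| ≤ 0 := ge_of_tendsto' hlim (fun j => hLj j k a b)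
  have := abs_nonpos_iff.mp hle
  linarith only [this]

end step

/-- an eigenfunction with eigenvalue above two is constant -/
lemma const_of_eig' {lam : ℝ} (hlam : 2 < lam) {f : Ω → ℝ}
    (hf : ∀ ω, cavg (R.rel 0) f ω + cavg (R.rel 1) f ω + cavg (R.rel 2) f ω = lam * f ω)
    (a b : Ω) : f a = f b := by
  have hinv : ∀ {z z' : ι} (h : R.Same z z') (ω : Ω), f (h.sw ω) = f ω :=
    fun h ω => inv_of_eig hlam hf h ω
  have hF := const_of_eig (R := R) (F := fun k => cavg (R.rel k) f) (lam := lam)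
    (fun k a b hab => cavg_congr hab f)
    (fun k z z' hs ω => by
      have h1 := congrFun (cavg_swap hs k f) ω
      have h2 : f ∘ hs.sw = f := by funext y; exact hinv hs y
      rw [h2] at h1
      exact h1.symm)
    hlam (fun {k l m} h1 h2 h3 ω => eig_row hf h1 h2 h3 ω)
  have ea := hf a
  have eb := hf b
  have h0 := hF 0 a b
  have h1 := hF 1 a b
  have h2 := hF 2 a b
  rw [h0, h1, h2, eb] at ea
  exact (mul_left_cancel₀ (by linarith only [hlam] : lam ≠ 0) ea).symm

end Rows

end Vale.Agent.P335.RA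
end
end

section

section

namespace Vale.Agent.P335.RA

open Finset

/-- A symmetric operator all of whose eigenvalues are at most zero or at least one satisfies
`⟨f, T f⟩ ≤ |T f|^2`. -/
theorem quad_of_eigen {Ω : Type*} [Fintype Ω] (T : (Ω → ℝ) →ₗ[ℝ] (Ω → ℝ))
    (hsym : ∀ f g : Ω → ℝ, ip (T f) g = ip f (T g))
    (heig : ∀ (l : ℝ) (g : Ω → ℝ), g ≠ 0 → T g = l • g → l ≤ 0 ∨ 1 ≤ l) (f : Ω → ℝ) :
    ip f (T f) ≤ ip (T f) (T f) := by
  classical
  set e : EuclideanSpace ℝ Ω ≃ₗ[ℝ] (Ω → ℝ) := WithLp.linearEquiv 2 ℝ (Ω → ℝ) with he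
  set T' : EuclideanSpace ℝ Ω →ₗ[ℝ] EuclideanSpace ℝ Ω :=
    e.symm.toLinearMap ∘ₗ T ∘ₗ e.toLinearMap with hT'
  have hinner : ∀ u v : EuclideanSpace ℝ Ω, inner ℝ u v = ip (e u) (e v) := by
    intro u v
    rw [PiLp.inner_apply]
    unfold ip
    refine Finset.sum_congr rfl fun x _ => ?_
    simp [he, mul_comm]
  have heT : ∀ u, e (T' u) = T (e u) := by
    intro u
    simp [hT']
  have hS : T'.IsSymmetric := by
    intro u v
    rw [hinner, hinner, heT, heT]
    exact hsym _ _
  set N := Module.finrank ℝ (EuclideanSpace ℝ Ω) with hNdef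
  set b := hS.eigenvectorBasis (n := N) rfl with hb
  set l := hS.eigenvalues (n := N) rfl with hl
  have hbe : ∀ i, T' (b i) = l i • b i := by
    intro i
    exact hS.apply_eigenvectorBasis (n := N) rfl i
  have hl2 : ∀ i, l i ≤ 0 ∨ 1 ≤ l i := by
    intro i
    apply heig (l i) (e (b i))
    · intro h0
      have h1 : b i = 0 := by
        apply e.injective
        rw [h0, map_zero]
      have h2 := b.orthonormal.1 i
      rw [h1, norm_zero] at h2
      exact zero_ne_one h2
    · rw [← heT, hbe, map_smul]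
  set u : EuclideanSpace ℝ Ω := e.symm f with hu
  have heu : e u = f := by simp [hu]
  set c : Fin N → ℝ := fun i => inner ℝ (b i) u with hc
  have hcT : ∀ i, inner ℝ (b i) (T' u) = l i * c i := by
    intro i
    rw [← hS (b i) u, hbe, inner_smul_left]
    simp [hc]
  have hquad : ip f (T f) = ∑ i, l i * c i ^ 2 := by
    have h1 := b.sum_inner_mul_inner u (T' u)
    rw [hinner u (T' u), heT, heu] at h1
    rw [← h1]
    refine Finset.sum_congr rfl fun i _ => ?_
    rw [hcT, real_inner_comm]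
    simp only [hc]
    ring
  have hsq : ip (T f) (T f) = ∑ i, l i ^ 2 * c i ^ 2 := by
    have h1 := b.sum_inner_mul_inner (T' u) (T' u)
    rw [hinner (T' u) (T' u), heT, heu] at h1
    rw [← h1]
    refine Finset.sum_congr rfl fun i _ => ?_
    rw [real_inner_comm, hcT]
    ring
  rw [hquad, hsq]
  refine Finset.sum_le_sum fun i _ => ?_
  apply mul_le_mul_of_nonneg_right _ (sq_nonneg _)
  rcases hl2 i with h | h
  · exact le_trans h (sq_nonneg _)
  · nlinarith only [h]

namespace Rows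

variable {Ω ι : Type*} [Fintype Ω] [DecidableEq ι]

/-- The three-row theorem. -/
theorem three_row (R : Rows Ω ι) (f : Ω → ℝ) :
    0 ≤ ip (cdev (R.rel 0) f) (cdev (R.rel 1) f) + ip (cdev (R.rel 0) f) (cdev (R.rel 2) f) +
      ip (cdev (R.rel 1) f) (cdev (R.rel 2) f) := by
  set T : (Ω → ℝ) →ₗ[ℝ] (Ω → ℝ) := cdevL (R.rel 0) + cdevL (R.rel 1) + cdevL (R.rel 2) with hT
  have hTf : ∀ g, T g = cdev (R.rel 0) g + cdev (R.rel 1) g + cdev (R.rel 2) g := by
    intro g; rfl
  have hsym : ∀ g h : Ω → ℝ, ip (T g) h = ip g (T h) := by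
    intro g h
    rw [hTf, hTf, ip_add_left, ip_add_left, ip_add_right, ip_add_right, ip_cdev, ip_cdev, ip_cdev]
  have heig : ∀ (l : ℝ) (g : Ω → ℝ), g ≠ 0 → T g = l • g → l ≤ 0 ∨ 1 ≤ l := by
    intro l g hg hlg
    by_contra hcon
    push Not at hcon
    obtain ⟨h0, h1⟩ := hcon
    have hlam : (2 : ℝ) < 3 - l := by linarith
    have hf : ∀ ω, cavg (R.rel 0) g ω + cavg (R.rel 1) g ω + cavg (R.rel 2) g ω =
        (3 - l) * g ω := by
      intro ω
      have := congrFun hlg ω
      rw [hTf] at this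
      simp only [Pi.add_apply, Pi.smul_apply, smul_eq_mul, cdev_apply] at this
      linarith only [this]
    have hconst := const_of_eig' (R := R) hlam hf
    have hz : ∀ k, cdev (R.rel k) g = 0 := by
      intro k
      unfold cdev
      rw [cavg_of_const' (fun x y _ => hconst y x), sub_self]
    rw [hTf, hz, hz, hz, add_zero, add_zero] at hlg
    apply hg
    funext ω
    have := congrFun hlg ω
    simp only [Pi.zero_apply, Pi.smul_apply, smul_eq_mul] at this
    rcases mul_eq_zero.mp this.symm with h | h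
    · linarith only [h0, h]
    · exact h
  have h := quad_of_eigen T hsym heig f
  rw [hTf] at h
  have e0 := ip_cdev_self (R.rel 0) f
  have e1 := ip_cdev_self (R.rel 1) f
  have e2 := ip_cdev_self (R.rel 2) f
  simp only [ip_add_left, ip_add_right] at h
  have c1 := ip_comm (cdev (R.rel 0) f) (cdev (R.rel 1) f)
  have c2 := ip_comm (cdev (R.rel 0) f) (cdev (R.rel 2) f)
  have c3 := ip_comm (cdev (R.rel 1) f) (cdev (R.rel 2) f)
  linarith only [e0, e1, e2, h, c1, c2, c3]

end Rows

end Vale.Agent.P335.RA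
end
end

section

section

namespace Vale.Agent.P335.RA

open Finset

set_option linter.unusedSectionVars false
set_option linter.unusedVariables false

section transfer

variable {Ω : Type*} [Fintype Ω]

lemma cavg_subtype {r s : Setoid Ω} (h : ∀ x y, r x y → s x y) (f : Ω → ℝ) (x0 : Ω)
    [Fintype {x // s x0 x}] (r' : Setoid {x // s x0 x})
    (hr' : ∀ x y : {x // s x0 x}, r' x y ↔ r x.1 y.1) (x : {x // s x0 x}) :
    cavg r' (fun z => f z.1) x = cavg r f x.1 := by
  classical
  have hmap : cls r x.1 = (cls r' x).map (Function.Embedding.subtype _) := by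
    ext y
    simp only [mem_cls, Finset.mem_map, Function.Embedding.coe_subtype]
    constructor
    · intro hy
      exact ⟨⟨y, s.trans x.2 (h _ _ hy)⟩, (hr' _ _).2 hy, rfl⟩
    · rintro ⟨z, hz, rfl⟩
      exact (hr' _ _).1 hz
  unfold cavg
  rw [hmap, Finset.sum_map, Finset.card_map]
  rfl

lemma sum_nonneg_of_classes (s : Setoid Ω) (g : Ω → ℝ)
    (h : ∀ x0, 0 ≤ ∑ x ∈ cls s x0, g x) : 0 ≤ ∑ x, g x := by
  have h1 : ∑ x, g x = ∑ x, cavg s g x := by
    have h2 := ip_cavg s g (fun _ => 1)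
    rw [cavg_const] at h2
    unfold ip at h2
    simpa only [mul_one] using h2.symm
  rw [h1]
  refine Finset.sum_nonneg fun x _ => ?_
  unfold cavg
  exact div_nonneg (h x) (Nat.cast_nonneg _)

end transfer

/-- the odd entry of a zero-one triple -/
def odd (p : Fin 3 → ℤ) : Fin 3 := if p 0 = p 1 then 2 else if p 0 = p 2 then 1 else 0

/-- the zero-one column with sum `s` and odd entry `y` -/
def pat (s : ℤ) (y k : Fin 3) : ℤ :=
  if s = 1 then (if y = k then 1 else 0)
  else if s = 2 then (if y = k then 0 else 1)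
  else if s = 3 then 1 else 0

lemma pat_01 (s : ℤ) (y k : Fin 3) : pat s y k = 0 ∨ pat s y k = 1 := by
  unfold pat
  split_ifs <;> simp

lemma pat_sum {s : ℤ} (y : Fin 3) (hs : s = 0 ∨ s = 1 ∨ s = 2 ∨ s = 3) :
    pat s y 0 + pat s y 1 + pat s y 2 = s := by
  unfold pat
  rcases hs with rfl | rfl | rfl | rfl <;> fin_cases y <;> simp

lemma odd_pat {s : ℤ} (y : Fin 3) (hs : s = 1 ∨ s = 2) : odd (pat s y) = y := by
  unfold pat odd
  rcases hs with rfl | rfl <;> fin_cases y <;> simp

lemma eq_pat {p : Fin 3 → ℤ} (h : ∀ k, p k = 0 ∨ p k = 1) (k : Fin 3) :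
    p k = pat (p 0 + p 1 + p 2) (odd p) k := by
  unfold pat odd
  have h0 := h 0
  have h1 := h 1
  have h2 := h 2
  rcases h0 with h0 | h0 <;> rcases h1 with h1 | h1 <;> rcases h2 with h2 | h2 <;>
    fin_cases k <;> simp [h0, h1, h2]

lemma sum_01 {p : Fin 3 → ℤ} (h : ∀ k, p k = 0 ∨ p k = 1) :
    p 0 + p 1 + p 2 = 0 ∨ p 0 + p 1 + p 2 = 1 ∨ p 0 + p 1 + p 2 = 2 ∨ p 0 + p 1 + p 2 = 3 := by
  have h0 := h 0
  have h1 := h 1
  have h2 := h 2
  omega

lemma sum_pat {ι : Type*} [DecidableEq ι] (A : Finset ι) (s : ι → ℤ) (y : ι → Fin 3) (k : Fin 3) :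
    ∑ z ∈ A, pat (s z) (y z) k = (cnt (A.filter (fun z => s z = 1)) y k : ℤ) -
      cnt (A.filter (fun z => s z = 2)) y k +
      ∑ z ∈ A, (if s z = 2 ∨ s z = 3 then 1 else 0) := by
  rw [cnt_eq_sum, cnt_eq_sum, sum_filter, sum_filter, ← sum_sub_distrib, ← sum_add_distrib]
  refine sum_congr rfl fun z _ => ?_
  unfold pat
  by_cases h1 : s z = 1
  · simp [h1]
  · by_cases h2 : s z = 2
    · by_cases h4 : y z = k <;> simp [h2, h4]
    · by_cases h3 : s z = 3
      · simp [h3]
      · simp [h1, h2, h3]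

variable {V : Type*} [Fintype V] [DecidableEq V] {d : V → ℕ}

/-- vertices outside the triple -/
noncomputable def outer (t : Fin 3 → V) : Finset V :=
  open Classical in univ.filter (fun v => v ∉ Set.range t)

lemma mem_outer {t : Fin 3 → V} {v : V} : v ∈ outer t ↔ v ∉ Set.range t := by
  classical
  unfold outer; simp only [Set.mem_range, not_exists, mem_filter, mem_univ, true_and]

/-- columns of a matrix with respect to the triple -/
def col (t : Fin 3 → V) (M : V → V → ℤ) : Option V → Fin 3 → ℤ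
  | some v, k => M (t k) v
  | none, k => 1 - M (t (k + 1)) (t (k + 2))

@[simp] lemma col_some (t : Fin 3 → V) (M : V → V → ℤ) (v : V) (k : Fin 3) :
    col t M (some v) k = M (t k) v := rfl

@[simp] lemma col_none (t : Fin 3 → V) (M : V → V → ℤ) (k : Fin 3) :
    col t M none k = 1 - M (t (k + 1)) (t (k + 2)) := rfl

/-- valid columns -/
noncomputable def vcol (t : Fin 3 → V) : Finset (Option V) := insertNone (outer t)

/-- agreement off the pairs meeting the triple -/
def meetRel (t : Fin 3 → V) : Setoid (St d) := offRel (fun i j => i ∈ Set.range t ∨ j ∈ Set.range t)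

lemma sum_split {t : Fin 3 → V} (ht : Function.Injective t) (F : V → ℤ) :
    ∑ j, F j = ∑ j ∈ outer t, F j + (F (t 0) + F (t 1) + F (t 2)) := by
  classical
  have h1 : ∑ j ∈ outer t, F j = ∑ j ∈ univ.filter (fun v => v ∉ Set.range t), F j := by
    unfold outer
    refine sum_congr ?_ fun _ _ => rfl
    ext v; simp only [Set.mem_range, not_exists, mem_filter, mem_univ, true_and]
  rw [h1, ← sum_filter_add_sum_filter_not univ (fun v => v ∉ Set.range t) F]
  congr 1
  rw [show univ.filter (fun v => ¬ v ∉ Set.range t) = univ.image t by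
      ext v; simp only [Set.mem_range, not_exists, not_forall, Decidable.not_not, univ_filter_exists, mem_image, mem_univ, true_and]]
  rw [sum_image (fun x _ y _ h => ht h), Fin.sum_univ_three]

lemma col_01 (t : Fin 3 → V) (G : St d) (z : Option V) (k : Fin 3) :
    col t G.1 z k = 0 ∨ col t G.1 z k = 1 := by
  cases z with
  | none =>
    have := G.2.1 (t (k + 1)) (t (k + 2))
    rw [col_none]; omega
  | some v => exact G.2.1 _ _

/-- column sum -/
def csum (t : Fin 3 → V) (M : V → V → ℤ) (z : Option V) : ℤ :=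
  col t M z 0 + col t M z 1 + col t M z 2

/-- inner edges -/
def inn (t : Fin 3 → V) (M : V → V → ℤ) : ℤ :=
  M (t 0) (t 1) + M (t 0) (t 2) + M (t 1) (t 2)

lemma csum_none (t : Fin 3 → V) (G : St d) : csum t G.1 none = 3 - inn t G.1 := by
  unfold csum inn
  simp only [col_none]
  have h1 : G.1 (t 1) (t 0) = G.1 (t 0) (t 1) := G.2.2.1 _ _
  have h2 : G.1 (t 2) (t 0) = G.1 (t 0) (t 2) := G.2.2.1 _ _
  have h3 : G.1 (t 2) (t 1) = G.1 (t 1) (t 2) := G.2.2.1 _ _
  have e1 : (0 : Fin 3) + 1 = 1 := rfl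
  have e2 : (0 : Fin 3) + 2 = 2 := rfl
  have e3 : (1 : Fin 3) + 1 = 2 := rfl
  have e4 : (1 : Fin 3) + 2 = 0 := rfl
  have e5 : (2 : Fin 3) + 1 = 0 := rfl
  have e6 : (2 : Fin 3) + 2 = 1 := rfl
  simp only [e1, e2, e3, e4, e5, e6]
  omega

lemma csum_some {t : Fin 3 → V} (ht : Function.Injective t) (G : St d) (v : V) :
    csum t G.1 (some v) = d v - ∑ j ∈ outer t, G.1 v j := by
  have h := G.2.2.2.2 v
  rw [sum_split ht] at h
  unfold csum
  simp only [col_some]
  have h1 : G.1 (t 0) v = G.1 v (t 0) := G.2.2.1 _ _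
  have h2 : G.1 (t 1) v = G.1 v (t 1) := G.2.2.1 _ _
  have h3 : G.1 (t 2) v = G.1 v (t 2) := G.2.2.1 _ _
  omega

lemma inn_eq {t : Fin 3 → V} (ht : Function.Injective t) (G : St d) :
    2 * inn t G.1 = (d (t 0) : ℤ) + d (t 1) + d (t 2) - ∑ v ∈ outer t, csum t G.1 (some v) := by
  have h0 := G.2.2.2.2 (t 0)
  have h1 := G.2.2.2.2 (t 1)
  have h2 := G.2.2.2.2 (t 2)
  rw [sum_split ht] at h0 h1 h2
  have z0 := G.2.2.2.1 (t 0)
  have z1 := G.2.2.2.1 (t 1)
  have z2 := G.2.2.2.1 (t 2)
  have s1 : G.1 (t 1) (t 0) = G.1 (t 0) (t 1) := G.2.2.1 _ _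
  have s2 : G.1 (t 2) (t 0) = G.1 (t 0) (t 2) := G.2.2.1 _ _
  have s3 : G.1 (t 2) (t 1) = G.1 (t 1) (t 2) := G.2.2.1 _ _
  unfold inn csum
  simp only [col_some]
  rw [sum_add_distrib, sum_add_distrib]
  omega

lemma rsum_eq {t : Fin 3 → V} (ht : Function.Injective t) (G : St d) (k : Fin 3) :
    ∑ z ∈ vcol t, col t G.1 z k = (d (t k) : ℤ) + 1 - inn t G.1 := by
  have h := G.2.2.2.2 (t k)
  rw [sum_split ht] at h
  have z0 := G.2.2.2.1 (t k)
  unfold vcol
  rw [sum_insertNone]
  unfold inn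
  simp only [col_none, col_some]
  have s1 : G.1 (t 1) (t 0) = G.1 (t 0) (t 1) := G.2.2.1 _ _
  have s2 : G.1 (t 2) (t 0) = G.1 (t 0) (t 2) := G.2.2.1 _ _
  have s3 : G.1 (t 2) (t 1) = G.1 (t 1) (t 2) := G.2.2.1 _ _
  have e1 : (0 : Fin 3) + 1 = 1 := rfl
  have e2 : (0 : Fin 3) + 2 = 2 := rfl
  have e3 : (1 : Fin 3) + 1 = 2 := rfl
  have e4 : (1 : Fin 3) + 2 = 0 := rfl
  have e5 : (2 : Fin 3) + 1 = 0 := rfl
  have e6 : (2 : Fin 3) + 2 = 1 := rfl
  fin_cases k
  · simp only [Fin.zero_eta, e1, e2, e3, e4, e5, e6] at *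
    omega
  · simp only [Fin.mk_one, e1, e2, e3, e4, e5, e6] at *
    omega
  · simp only [Fin.reduceFinMk, e1, e2, e3, e4, e5, e6] at *
    omega

lemma csum_some_congr {t : Fin 3 → V} (ht : Function.Injective t) {G G' : St d}
    (h : meetRel t G G') {v : V} (hv : v ∈ outer t) :
    csum t G'.1 (some v) = csum t G.1 (some v) := by
  rw [csum_some ht, csum_some ht]
  congr 1
  refine sum_congr rfl fun j hj => ?_
  rw [mem_outer] at hv hj
  exact (h v j (by rintro (h | h); exacts [hv h, hj h])).symm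

lemma inn_congr {t : Fin 3 → V} (ht : Function.Injective t) {G G' : St d}
    (h : meetRel t G G') : inn t G'.1 = inn t G.1 := by
  have h1 := inn_eq ht G
  have h2 := inn_eq ht G'
  rw [sum_congr rfl fun v hv => csum_some_congr ht h hv] at h2
  omega

lemma csum_congr {t : Fin 3 → V} (ht : Function.Injective t) {G G' : St d}
    (h : meetRel t G G') {z : Option V} (hz : z ∈ vcol t) : csum t G'.1 z = csum t G.1 z := by
  cases z with
  | none => rw [csum_none, csum_none, inn_congr ht h]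
  | some v =>
    apply csum_some_congr ht h
    unfold vcol at hz
    simpa using hz

lemma col_eq_pat {t : Fin 3 → V} (ht : Function.Injective t) {G G' : St d}
    (h : meetRel t G G') {z : Option V} (hz : z ∈ vcol t) (k : Fin 3) :
    col t G'.1 z k = pat (csum t G.1 z) (odd (col t G'.1 z)) k := by
  rw [← csum_congr ht h hz]
  exact eq_pat (col_01 t G' z) k

/-- partial inverse of `t` -/
noncomputable def tinv (t : Fin 3 → V) (v : V) : Option (Fin 3) :=
  open Classical in if h : ∃ k, t k = v then some h.choose else none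

lemma tinv_t {t : Fin 3 → V} (ht : Function.Injective t) (k : Fin 3) : tinv t (t k) = some k := by
  unfold tinv
  have h : ∃ l, t l = t k := ⟨k, rfl⟩
  rw [dif_pos h]
  exact congrArg some (ht h.choose_spec)

lemma tinv_outer {t : Fin 3 → V} {v : V} (hv : v ∉ Set.range t) : tinv t v = none := by
  unfold tinv
  rw [dif_neg]
  rintro ⟨k, hk⟩
  exact hv ⟨k, hk⟩

/-- the rebuilt matrix -/
noncomputable def reb (t : Fin 3 → V) (M : V → V → ℤ) (p : Option V → Fin 3 → ℤ) (i j : V) : ℤ :=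
  match tinv t i, tinv t j with
  | some k, some l => if k = l then 0 else 1 - p none (-(k + l))
  | some k, none => p (some j) k
  | none, some l => p (some i) l
  | none, none => M i j

lemma reb_tt {t : Fin 3 → V} (ht : Function.Injective t) (M : V → V → ℤ)
    (p : Option V → Fin 3 → ℤ) (k l : Fin 3) :
    reb t M p (t k) (t l) = if k = l then 0 else 1 - p none (-(k + l)) := by
  unfold reb
  rw [tinv_t ht, tinv_t ht]

lemma reb_to {t : Fin 3 → V} (ht : Function.Injective t) (M : V → V → ℤ)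
    (p : Option V → Fin 3 → ℤ) (k : Fin 3) {v : V} (hv : v ∉ Set.range t) :
    reb t M p (t k) v = p (some v) k := by
  unfold reb
  rw [tinv_t ht, tinv_outer hv]

lemma reb_ot {t : Fin 3 → V} (ht : Function.Injective t) (M : V → V → ℤ)
    (p : Option V → Fin 3 → ℤ) (k : Fin 3) {v : V} (hv : v ∉ Set.range t) :
    reb t M p v (t k) = p (some v) k := by
  unfold reb
  rw [tinv_t ht, tinv_outer hv]

lemma reb_oo {t : Fin 3 → V} (M : V → V → ℤ)
    (p : Option V → Fin 3 → ℤ) {v w : V} (hv : v ∉ Set.range t) (hw : w ∉ Set.range t) :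
    reb t M p v w = M v w := by
  unfold reb
  rw [tinv_outer hw, tinv_outer hv]

lemma reb_adj {t : Fin 3 → V} (ht : Function.Injective t) (G : St d) (y : Option V → Fin 3)
    (hy : ∀ k, ∑ z ∈ vcol t, pat (csum t G.1 z) (y z) k = (d (t k) : ℤ) + 1 - inn t G.1) :
    IsAdj d (reb t G.1 (fun z => pat (csum t G.1 z) (y z))) := by
  set p : Option V → Fin 3 → ℤ := fun z => pat (csum t G.1 z) (y z) with hp
  have hp01 : ∀ z k, p z k = 0 ∨ p z k = 1 := fun z k => pat_01 _ _ _
  have hps : ∀ z, p z 0 + p z 1 + p z 2 = csum t G.1 z := fun z =>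
    pat_sum _ (sum_01 (col_01 t G z))
  refine ⟨?_, ?_, ?_, ?_⟩
  · intro i j
    by_cases hi : i ∈ Set.range t <;> by_cases hj : j ∈ Set.range t
    · obtain ⟨k, rfl⟩ := hi
      obtain ⟨l, rfl⟩ := hj
      rw [reb_tt ht]
      have := hp01 none (-(k + l))
      split_ifs <;> omega
    · obtain ⟨k, rfl⟩ := hi
      rw [reb_to ht _ _ _ hj]; exact hp01 _ _
    · obtain ⟨k, rfl⟩ := hj
      rw [reb_ot ht _ _ _ hi]; exact hp01 _ _
    · rw [reb_oo _ _ hi hj]; exact G.2.1 _ _
  · intro i j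
    by_cases hi : i ∈ Set.range t <;> by_cases hj : j ∈ Set.range t
    · obtain ⟨k, rfl⟩ := hi
      obtain ⟨l, rfl⟩ := hj
      rw [reb_tt ht, reb_tt ht, add_comm k l]
      simp only [eq_comm]
    · obtain ⟨k, rfl⟩ := hi
      rw [reb_to ht _ _ _ hj, reb_ot ht _ _ _ hj]
    · obtain ⟨k, rfl⟩ := hj
      rw [reb_ot ht _ _ _ hi, reb_to ht _ _ _ hi]
    · rw [reb_oo _ _ hi hj, reb_oo _ _ hj hi]; exact G.2.2.1 _ _
  · intro i
    by_cases hi : i ∈ Set.range t
    · obtain ⟨k, rfl⟩ := hi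
      rw [reb_tt ht, if_pos rfl]
    · rw [reb_oo _ _ hi hi]; exact G.2.2.2.1 _
  · intro i
    rw [sum_split ht]
    by_cases hi : i ∈ Set.range t
    · obtain ⟨k, rfl⟩ := hi
      rw [sum_congr rfl fun j hj => reb_to ht _ _ k (mem_outer.1 hj)]
      rw [reb_tt ht, reb_tt ht, reb_tt ht]
      have h := hy k
      unfold vcol at h
      rw [sum_insertNone] at h
      have hn := hps none
      rw [csum_none] at hn
      have e1 : -((0 : Fin 3) + 1) = 2 := rfl
      have e2 : -((0 : Fin 3) + 2) = 1 := rfl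
      have e3 : -((1 : Fin 3) + 0) = 2 := rfl
      have e4 : -((1 : Fin 3) + 2) = 0 := rfl
      have e5 : -((2 : Fin 3) + 0) = 1 := rfl
      have e6 : -((2 : Fin 3) + 1) = 0 := rfl
      have q : ∀ z k, pat (csum t G.1 z) (y z) k = p z k := fun _ _ => rfl
      simp only [q] at h
      fin_cases k
      · simp only [Fin.zero_eta, e1, e2, e3, e4, e5, e6, Fin.isValue, if_true,
          if_neg (show (0 : Fin 3) ≠ 1 by decide), if_neg (show (0 : Fin 3) ≠ 2 by decide)] at *
        omega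
      · simp only [Fin.mk_one, e1, e2, e3, e4, e5, e6, Fin.isValue, if_true,
          if_neg (show (1 : Fin 3) ≠ 0 by decide), if_neg (show (1 : Fin 3) ≠ 2 by decide)] at *
        omega
      · simp only [Fin.reduceFinMk, e1, e2, e3, e4, e5, e6, Fin.isValue, if_true,
          if_neg (show (2 : Fin 3) ≠ 0 by decide), if_neg (show (2 : Fin 3) ≠ 1 by decide)] at *
        omega
    · rw [sum_congr rfl fun j hj => reb_oo G.1 _ hi (mem_outer.1 hj)]
      rw [reb_ot ht _ _ _ hi, reb_ot ht _ _ _ hi, reb_ot ht _ _ _ hi, hps, csum_some ht]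
      ring

lemma col_reb {t : Fin 3 → V} (ht : Function.Injective t) (M : V → V → ℤ)
    (p : Option V → Fin 3 → ℤ) {z : Option V} (hz : z ∈ vcol t) (k : Fin 3) :
    col t (reb t M p) z k = p z k := by
  cases z with
  | none =>
    rw [col_none, reb_tt ht]
    fin_cases k
    · rw [if_neg (by decide)]
      have : (-((((⟨0, by decide⟩ : Fin 3)) + 1) + ((⟨0, by decide⟩ : Fin 3) + 2)) : Fin 3)
        = (⟨0, by decide⟩ : Fin 3) := by decide
      rw [this]; ring
    · rw [if_neg (by decide)]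
      have : (-((((⟨1, by decide⟩ : Fin 3)) + 1) + ((⟨1, by decide⟩ : Fin 3) + 2)) : Fin 3)
        = (⟨1, by decide⟩ : Fin 3) := by decide
      rw [this]; ring
    · rw [if_neg (by decide)]
      have : (-((((⟨2, by decide⟩ : Fin 3)) + 1) + ((⟨2, by decide⟩ : Fin 3) + 2)) : Fin 3)
        = (⟨2, by decide⟩ : Fin 3) := by decide
      rw [this]; ring
  | some v =>
    rw [col_some]
    have hv : v ∈ outer t := by
      unfold vcol at hz
      simpa using hz
    exact reb_to ht _ _ k (mem_outer.1 hv)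

/-- the three-row structure of one class -/
noncomputable def triRows {t : Fin 3 → V} (ht : Function.Injective t) (G0 : St d) :
    Rows {G : St d // meetRel t G0 G} (Option V) where
  N1 := (vcol t).filter (fun z => csum t G0.1 z = 1)
  N2 := (vcol t).filter (fun z => csum t G0.1 z = 2)
  disj := by
    rw [disjoint_left]
    intro z hz hz'
    simp only [mem_filter] at hz hz'
    omega
  x G z := odd (col t G.1.1 z)
  ρ k := (d (t k) : ℤ) + 1 - inn t G0.1 -
    ∑ z ∈ vcol t, (if csum t G0.1 z = 2 ∨ csum t G0.1 z = 3 then 1 else 0)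
  inj := by
    rintro ⟨G, hG⟩ ⟨G', hG'⟩ h
    have hcol : ∀ z ∈ vcol t, ∀ k, col t G.1 z k = col t G'.1 z k := by
      intro z hz k
      rw [col_eq_pat ht hG hz, col_eq_pat ht hG' hz]
      have h1 := h z
      simp only [mem_union, mem_filter, hz, true_and] at h1
      have hs := sum_01 (col_01 t G0 z)
      change csum t G0.1 z = 0 ∨ csum t G0.1 z = 1 ∨ csum t G0.1 z = 2 ∨ csum t G0.1 z = 3 at hs
      rcases hs with hs | hs | hs | hs
      · rw [hs]; rfl
      · rw [h1 (Or.inl hs)]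
      · rw [h1 (Or.inr hs)]
      · rw [hs]; rfl
    apply Subtype.ext
    apply Subtype.ext
    funext i j
    have hto : ∀ k v, v ∉ Set.range t → G.1 (t k) v = G'.1 (t k) v := by
      intro k v hv
      exact hcol (some v) (by unfold vcol; simpa using mem_outer.2 hv) k
    have hn : ∀ k, G.1 (t (k + 1)) (t (k + 2)) = G'.1 (t (k + 1)) (t (k + 2)) := by
      intro k
      have := hcol none (by unfold vcol; simp) k
      rw [col_none, col_none] at this
      omega
    have hn0 : G.1 (t 1) (t 2) = G'.1 (t 1) (t 2) := hn 0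
    have hn1 : G.1 (t 2) (t 0) = G'.1 (t 2) (t 0) := hn 1
    have hn2 : G.1 (t 0) (t 1) = G'.1 (t 0) (t 1) := hn 2
    have hsy : ∀ i j, G.1 i j = G.1 j i := G.2.2.1
    have hsy' : ∀ i j, G'.1 i j = G'.1 j i := G'.2.2.1
    have htt : ∀ k l, G.1 (t k) (t l) = G'.1 (t k) (t l) := by
      intro k l
      fin_cases k <;> fin_cases l
      · exact (G.2.2.2.1 _).trans (G'.2.2.2.1 _).symm
      · exact hn2
      · exact (hsy _ _).trans (hn1.trans (hsy' _ _))
      · exact (hsy _ _).trans (hn2.trans (hsy' _ _))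
      · exact (G.2.2.2.1 _).trans (G'.2.2.2.1 _).symm
      · exact hn0
      · exact hn1
      · exact (hsy _ _).trans (hn0.trans (hsy' _ _))
      · exact (G.2.2.2.1 _).trans (G'.2.2.2.1 _).symm
    by_cases hi : i ∈ Set.range t <;> by_cases hj : j ∈ Set.range t
    · obtain ⟨k, rfl⟩ := hi
      obtain ⟨l, rfl⟩ := hj
      exact htt k l
    · obtain ⟨k, rfl⟩ := hi
      exact hto k j hj
    · obtain ⟨k, rfl⟩ := hj
      rw [hsy, hsy']
      exact hto k i hi
    · exact (hG i j (by rintro (h | h); exacts [hi h, hj h])).symm.trans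
        (hG' i j (by rintro (h | h); exacts [hi h, hj h]))
  mem := by
    rintro ⟨G, hG⟩ k
    have h1 := rsum_eq ht G k
    rw [sum_congr rfl fun z hz => col_eq_pat ht hG hz k, sum_pat, inn_congr ht hG] at h1
    change (cnt ((vcol t).filter (fun z => csum t G0.1 z = 1)) (fun z => odd (col t G.1 z)) k : ℤ) -
      (cnt ((vcol t).filter (fun z => csum t G0.1 z = 2)) (fun z => odd (col t G.1 z)) k : ℤ) = _
    linarith
  surj := by
    intro y hy
    have hy' : ∀ k, ∑ z ∈ vcol t, pat (csum t G0.1 z) (y z) k = (d (t k) : ℤ) + 1 - inn t G0.1 := by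
      intro k
      rw [sum_pat, hy k]
      ring
    refine ⟨⟨⟨_, reb_adj ht G0 y hy'⟩, ?_⟩, ?_⟩
    · intro i j hij
      have hi : i ∉ Set.range t := fun h => hij (Or.inl h)
      have hj : j ∉ Set.range t := fun h => hij (Or.inr h)
      exact (reb_oo G0.1 (fun z => pat (csum t G0.1 z) (y z)) hi hj).symm
    · intro z hz
      have hz1 : z ∈ vcol t := by
        simp only [mem_union, mem_filter] at hz
        rcases hz with h | h
        exacts [h.1, h.1]
      have hz2 : csum t G0.1 z = 1 ∨ csum t G0.1 z = 2 := by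
        simp only [mem_union, mem_filter] at hz
        rcases hz with h | h
        exacts [Or.inl h.2, Or.inr h.2]
      change odd (col t (reb t G0.1 (fun z => pat (csum t G0.1 z) (y z))) z) = y z
      rw [show col t (reb t G0.1 (fun z => pat (csum t G0.1 z) (y z))) z =
        pat (csum t G0.1 z) (y z) from funext fun k => col_reb ht _ _ hz1 k]
      exact odd_pat _ hz2

lemma pat_eq_iff {s : ℤ} (y y' k : Fin 3) (hs : s = 1 ∨ s = 2) :
    pat s y k = pat s y' k ↔ (y = k ↔ y' = k) := by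
  unfold pat
  rcases hs with rfl | rfl <;> by_cases h1 : y = k <;> by_cases h2 : y' = k <;> simp [h1, h2]

lemma triRows_rel_col {t : Fin 3 → V} (ht : Function.Injective t) (G0 : St d) (k : Fin 3)
    (G G' : {G : St d // meetRel t G0 G}) :
    (triRows ht G0).rel k G G' ↔ ∀ z ∈ vcol t, col t G.1.1 z k = col t G'.1.1 z k := by
  rw [Rows.rel_iff]
  have hmem : ∀ z, z ∈ (triRows ht G0).N1 ∪ (triRows ht G0).N2 ↔
      z ∈ vcol t ∧ (csum t G0.1 z = 1 ∨ csum t G0.1 z = 2) := by
    intro z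
    change z ∈ (vcol t).filter (fun z => csum t G0.1 z = 1) ∪
      (vcol t).filter (fun z => csum t G0.1 z = 2) ↔ _
    simp only [mem_union, mem_filter]
    tauto
  constructor
  · intro h z hz
    rw [col_eq_pat ht G.2 hz, col_eq_pat ht G'.2 hz]
    have hs := sum_01 (col_01 t G0 z)
    change csum t G0.1 z = 0 ∨ csum t G0.1 z = 1 ∨ csum t G0.1 z = 2 ∨ csum t G0.1 z = 3 at hs
    rcases hs with hs | hs | hs | hs
    · rw [hs]; rfl
    · exact (pat_eq_iff _ _ _ (Or.inl hs)).2 (h z ((hmem z).2 ⟨hz, Or.inl hs⟩))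
    · exact (pat_eq_iff _ _ _ (Or.inr hs)).2 (h z ((hmem z).2 ⟨hz, Or.inr hs⟩))
    · rw [hs]; rfl
  · intro h z hz
    have hz' := (hmem z).1 hz
    have := h z hz'.1
    rw [col_eq_pat ht G.2 hz'.1, col_eq_pat ht G'.2 hz'.1] at this
    exact (pat_eq_iff _ _ _ hz'.2).1 this

/-- rows agree iff the pair relation of the other two rows holds -/
lemma triRows_rel {t : Fin 3 → V} (ht : Function.Injective t) (G0 : St d) (k : Fin 3)
    (G G' : {G : St d // meetRel t G0 G}) :
    (triRows ht G0).rel k G G' ↔ (pairRel (t (k + 1)) (t (k + 2)) : Setoid (St d)) G.1 G'.1 := by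
  rw [triRows_rel_col]
  have k1 : k ≠ k + 1 := by fin_cases k <;> decide
  have k2 : k ≠ k + 2 := by fin_cases k <;> decide
  have k3 : ∀ m : Fin 3, m = k ∨ m = k + 1 ∨ m = k + 2 := by
    intro m
    fin_cases k <;> fin_cases m <;> decide
  have hout : ∀ v ∈ outer t, ∀ m, v ≠ t m := fun v hv m h => mem_outer.1 hv ⟨m, h.symm⟩
  constructor
  · intro h i j hij
    have hn : G.1.1 (t (k + 1)) (t (k + 2)) = G'.1.1 (t (k + 1)) (t (k + 2)) := by
      have := h none (by unfold vcol; simp)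
      rw [col_none, col_none] at this
      omega
    have ho : ∀ v ∈ outer t, G.1.1 (t k) v = G'.1.1 (t k) v := fun v hv =>
      h (some v) (by unfold vcol; simpa using hv)
    have hsy : ∀ i j, G.1.1 i j = G.1.1 j i := G.1.2.2.1
    have hsy' : ∀ i j, G'.1.1 i j = G'.1.1 j i := G'.1.2.2.1
    have hin : ∀ m v, v ∈ outer t → ¬ starPair (t (k + 1)) (t (k + 2)) (t m) v →
        G.1.1 (t m) v = G'.1.1 (t m) v := by
      intro m v hv hm
      rcases k3 m with rfl | rfl | rfl
      · exact ho v hv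
      · exact absurd (Or.inl ⟨Or.inl rfl, by
          rintro (h | h); exacts [hout v hv _ h, hout v hv _ h]⟩) hm
      · exact absurd (Or.inl ⟨Or.inr rfl, by
          rintro (h | h); exacts [hout v hv _ h, hout v hv _ h]⟩) hm
    by_cases hi : i ∈ Set.range t <;> by_cases hj : j ∈ Set.range t
    · obtain ⟨m, rfl⟩ := hi
      obtain ⟨l, rfl⟩ := hj
      have hk : ¬ (t k = t (k + 1) ∨ t k = t (k + 2)) := by
        rintro (h | h); exacts [k1 (ht h), k2 (ht h)]
      rcases k3 m with rfl | rfl | rfl <;> rcases k3 l with h | h | h <;> subst h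
      · exact (G.1.2.2.2.1 _).trans (G'.1.2.2.2.1 _).symm
      · exact absurd (Or.inr ⟨Or.inl rfl, hk⟩) hij
      · exact absurd (Or.inr ⟨Or.inr rfl, hk⟩) hij
      · exact absurd (Or.inl ⟨Or.inl rfl, hk⟩) hij
      · exact (G.1.2.2.2.1 _).trans (G'.1.2.2.2.1 _).symm
      · exact hn
      · exact absurd (Or.inl ⟨Or.inr rfl, hk⟩) hij
      · rw [hsy, hsy']; exact hn
      · exact (G.1.2.2.2.1 _).trans (G'.1.2.2.2.1 _).symm
    · obtain ⟨m, rfl⟩ := hi
      exact hin m j (mem_outer.2 hj) hij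
    · obtain ⟨m, rfl⟩ := hj
      rw [hsy, hsy']
      exact hin m i (mem_outer.2 hi) (fun h => hij h.symm)
    · exact (G.2 i j (by rintro (h | h); exacts [hi h, hj h])).symm.trans
        (G'.2 i j (by rintro (h | h); exacts [hi h, hj h]))
  · intro h z hz
    cases z with
    | none =>
      rw [col_none, col_none, h]
      rintro (⟨-, h1⟩ | ⟨-, h1⟩)
      · exact h1 (Or.inr rfl)
      · exact h1 (Or.inl rfl)
    | some v =>
      have hv : v ∈ outer t := by
        unfold vcol at hz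
        simpa using hz
      rw [col_some, col_some]
      apply h
      rintro (⟨h1 | h1, -⟩ | ⟨h1 | h1, -⟩)
      · exact k1 (ht h1)
      · exact k2 (ht h1)
      · exact hout v hv _ h1
      · exact hout v hv _ h1

lemma pairRel_le_meetRel {t : Fin 3 → V} (m l : Fin 3) (x y : St d)
    (h : (pairRel (t m) (t l) : Setoid (St d)) x y) : meetRel t x y := by
  intro i j hij
  apply h
  rintro (⟨h1 | h1, -⟩ | ⟨h1 | h1, -⟩)
  · exact hij (Or.inl ⟨m, h1.symm⟩)
  · exact hij (Or.inl ⟨l, h1.symm⟩)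
  · exact hij (Or.inr ⟨m, h1.symm⟩)
  · exact hij (Or.inr ⟨l, h1.symm⟩)

lemma triple_nonneg' {t : Fin 3 → V} (ht : Function.Injective t) (f : St d → ℝ) :
    0 ≤ ip (Dev (t 1) (t 2) f) (Dev (t 2) (t 0) f) + ip (Dev (t 1) (t 2) f) (Dev (t 0) (t 1) f) +
      ip (Dev (t 2) (t 0) f) (Dev (t 0) (t 1) f) := by
  classical
  have hsum : ip (Dev (t 1) (t 2) f) (Dev (t 2) (t 0) f) +
      ip (Dev (t 1) (t 2) f) (Dev (t 0) (t 1) f) +
      ip (Dev (t 2) (t 0) f) (Dev (t 0) (t 1) f) =
      ∑ x, (Dev (t 1) (t 2) f x * Dev (t 2) (t 0) f x + Dev (t 1) (t 2) f x * Dev (t 0) (t 1) f x +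
        Dev (t 2) (t 0) f x * Dev (t 0) (t 1) f x) := by
    unfold ip
    rw [sum_add_distrib, sum_add_distrib]
  rw [hsum]
  apply sum_nonneg_of_classes (meetRel t)
  intro G0
  have h3 := Rows.three_row (triRows ht G0) (fun z => f z.1)
  have hdev : ∀ (k : Fin 3) (G : {G : St d // meetRel t G0 G}),
      cdev ((triRows ht G0).rel k) (fun z => f z.1) G = Dev (t (k + 1)) (t (k + 2)) f G.1 := by
    intro k G
    rw [cdev_apply, cavg_subtype (pairRel_le_meetRel (k + 1) (k + 2)) f G0 _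
      (fun x y => triRows_rel ht G0 k x y) G]
    rfl
  have h4 : ∑ x ∈ cls (meetRel t) G0, (Dev (t 1) (t 2) f x * Dev (t 2) (t 0) f x +
      Dev (t 1) (t 2) f x * Dev (t 0) (t 1) f x + Dev (t 2) (t 0) f x * Dev (t 0) (t 1) f x) =
      ∑ x : {G : St d // meetRel t G0 G},
        (Dev (t 1) (t 2) f x.1 * Dev (t 2) (t 0) f x.1 +
        Dev (t 1) (t 2) f x.1 * Dev (t 0) (t 1) f x.1 +
        Dev (t 2) (t 0) f x.1 * Dev (t 0) (t 1) f x.1) := by
    refine Finset.sum_subtype (cls (meetRel t) G0) (fun x => mem_cls) _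
  rw [h4]
  unfold ip at h3
  rw [← sum_add_distrib, ← sum_add_distrib] at h3
  refine h3.trans (le_of_eq (sum_congr rfl fun x _ => ?_))
  rw [hdev, hdev, hdev]
  rfl

/-- The three-row inequality for graphs. -/
theorem triple_nonneg {a b c : V} (hab : a ≠ b) (hac : a ≠ c) (hbc : b ≠ c) (f : St d → ℝ) :
    0 ≤ ip (Dev a b f) (Dev a c f) + ip (Dev a b f) (Dev b c f) + ip (Dev a c f) (Dev b c f) := by
  have ht : Function.Injective ![a, b, c] := by
    intro i j h
    fin_cases i <;> fin_cases j <;> simp_all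
  have h := triple_nonneg' (d := d) ht f
  change 0 ≤ ip (Dev b c f) (Dev c a f) + ip (Dev b c f) (Dev a b f) + ip (Dev c a f) (Dev a b f)
    at h
  rw [Dev_comm c a] at h
  have c1 := ip_comm (Dev b c f) (Dev a c f)
  have c2 := ip_comm (Dev b c f) (Dev a b f)
  have c3 := ip_comm (Dev a c f) (Dev a b f)
  linarith only [h, c1, c2, c3]

end Vale.Agent.P335.RA
end
end

section

section

namespace Vale.Agent.P335

/-- Poincare inequality with constant `1/2` for every degree vector. -/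
theorem poincare_half {n : ℕ} (d : Fin n → ℕ) : Poincare d (1 / 2) := by
  refine RA.poincare_half_of d ?_
  intro a b c hab hbc hac f
  have h := RA.triple_nonneg (d := d) hab hac hbc f
  rw [RA.Dev_comm b a, RA.Dev_comm c a, RA.Dev_comm c b]
  exact h

end Vale.Agent.P335
end
end

section

section

namespace Vale.Agent.P335

open Finset Function

set_option linter.unusedSectionVars false

variable {V : Type*} [Fintype V] [DecidableEq V]

theorem nb_symmDiff (A B : Finset (Sym2 V)) (v : V) :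
    nb (symmDiff A B) v = symmDiff (nb A v) (nb B v) := by
  ext w; simp [mem_nb, mem_symmDiff]

theorem nb_singleton {u w : V} (huw : u ≠ w) (v : V) :
    nb ({s(u, w)} : Finset (Sym2 V)) v = if v = u then {w} else if v = w then {u} else ∅ := by
  ext x
  rw [mem_nb, mem_singleton, Sym2.eq_iff]
  split_ifs with h1 h2
  · subst h1
    simp only [mem_singleton, true_and]
    constructor
    · rintro (h | h)
      · exact h
      · exact absurd h.1 huw
    · intro h; exact Or.inl h
  · subst h2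
    simp only [mem_singleton, true_and]
    constructor
    · rintro (h | h)
      · exact absurd h.1.symm huw
      · exact h
    · intro h; exact Or.inr h
  · simp only [notMem_empty, iff_false, not_or, not_and]
    exact ⟨fun h => absurd h h1, fun h => absurd h h2⟩

theorem card_symmDiff_singleton {α : Type*} [DecidableEq α] (S : Finset α) (x : α) :
    ((symmDiff S {x}).card : ℤ) = S.card + (if x ∈ S then -1 else 1) := by
  split_ifs with h
  · have : symmDiff S {x} = S.erase x := by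
      ext y; simp only [mem_symmDiff, mem_singleton, mem_erase]
      constructor
      · rintro (⟨h1, h2⟩ | ⟨h1, h2⟩)
        · exact ⟨h2, h1⟩
        · subst h1; exact absurd h h2
      · rintro ⟨h1, h2⟩; exact Or.inl ⟨h2, h1⟩
    rw [this, card_erase_of_mem h]
    have : 0 < S.card := card_pos.2 ⟨x, h⟩
    push_cast [Nat.cast_sub (Nat.one_le_iff_ne_zero.2 this.ne')]
    ring
  · have : symmDiff S {x} = insert x S := by
      ext y; simp only [mem_symmDiff, mem_singleton, mem_insert]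
      constructor
      · rintro (⟨h1, h2⟩ | ⟨h1, h2⟩)
        · exact Or.inr h1
        · exact Or.inl h1
      · rintro (h1 | h1)
        · subst h1; exact Or.inr ⟨rfl, h⟩
        · refine Or.inl ⟨h1, ?_⟩
          rintro rfl; exact h h1
    rw [this, card_insert_of_notMem h]
    push_cast; ring

theorem deg_symmDiff_edge (A : Finset (Sym2 V)) {u w : V} (huw : u ≠ w) (v : V) :
    (deg (symmDiff A {s(u, w)}) v : ℤ) = deg A v +
      (if v = u then (if s(u, w) ∈ A then -1 else 1) else 0) +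
      (if v = w then (if s(u, w) ∈ A then -1 else 1) else 0) := by
  rw [deg, nb_symmDiff, nb_singleton huw]
  by_cases h1 : v = u
  · subst h1
    rw [if_pos rfl, card_symmDiff_singleton, if_pos rfl, if_neg huw, deg]
    simp only [mem_nb]
    ring
  · by_cases h2 : v = w
    · subst h2
      rw [if_neg h1, if_pos rfl, card_symmDiff_singleton, if_neg h1, if_pos rfl, deg]
      have hs : s(v, u) = s(u, v) := Sym2.eq_swap
      simp only [mem_nb, hs]
      ring
    · rw [if_neg h1, if_neg h2, if_neg h1, if_neg h2]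
      have : symmDiff (nb A v) ∅ = nb A v := by ext; simp [mem_symmDiff]
      rw [this, deg]; ring

theorem symmDiff_insert_of_notMem {α : Type*} [DecidableEq α] (X S : Finset α) {e : α}
    (he : e ∉ S) : symmDiff X (insert e S) = symmDiff (symmDiff X S) {e} := by
  have : insert e S = symmDiff S {e} := by
    ext y; simp only [mem_symmDiff, mem_singleton, mem_insert]
    constructor
    · rintro (h | h)
      · subst h; exact Or.inr ⟨rfl, he⟩
      · refine Or.inl ⟨h, ?_⟩
        rintro rfl; exact he h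
    · rintro (⟨h, _⟩ | ⟨h, _⟩)
      · exact Or.inr h
      · exact Or.inl h
  rw [this, symmDiff_assoc]

section walk

variable {X Y : Finset (Sym2 V)} {σ : V → V → V}

theorem vx_ne (hσ : σ ∈ Pr (rd X Y) (rd Y X)) (hX : ∀ v, s(v, v) ∉ X) (hY : ∀ v, s(v, v) ∉ Y)
    {p : V × V} (hp : s(p.1, p.2) ∈ symmDiff X Y) (i : ℕ) : vx σ p i ≠ vx σ p (i + 1) := by
  intro h
  have hm := we_mem hσ hp i
  rw [we_eq, h, mem_symmDiff] at hm
  rcases hm with h | h
  · exact hX _ h.1
  · exact hY _ h.1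

theorem deg_arc (hσ : σ ∈ Pr (rd X Y) (rd Y X)) (hX : ∀ v, s(v, v) ∉ X)
    (hY : ∀ v, s(v, v) ∉ Y) {p : V × V} (hp : s(p.1, p.2) ∈ symmDiff X Y) {l : ℕ}
    (hl : l ≤ per σ p) (v : V) :
    (deg (symmDiff X (arc σ p l)) v : ℤ) = deg X v
      + (if v = vx σ p l then sg (decide (we σ p l ∈ X)) else 0)
      - (if v = vx σ p 0 then sg (decide (we σ p 0 ∈ X)) else 0) := by
  induction l with
  | zero =>
    have : symmDiff X (arc σ p 0) = X := by ext; simp [arc_zero, mem_symmDiff]
    rw [this]; ring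
  | succ l ih =>
    have hl' : l < per σ p := hl
    have hn := we_notMem_arc hσ hX hY hp hl'
    rw [arc_succ, symmDiff_insert_of_notMem _ _ hn]
    have hne := vx_ne hσ hX hY hp l
    have hmem : we σ p l ∈ symmDiff X (arc σ p l) ↔ we σ p l ∈ X := by
      simp [mem_symmDiff, hn]
    have hty := ty_succ hσ hp l
    have e : we σ p l = s(vx σ p l, vx σ p (l + 1)) := we_eq p l
    have key := deg_symmDiff_edge (symmDiff X (arc σ p l)) hne v
    rw [← e] at key
    rw [key, ih hl'.le]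
    simp only [hmem]
    by_cases h1 : we σ p l ∈ X
    · have h2 : ¬ we σ p (l + 1) ∈ X := by rw [hty]; simpa using h1
      simp only [h1, h2, if_true, decide_true, decide_false, sg]
      by_cases h3 : v = vx σ p l
      · by_cases h4 : v = vx σ p (l + 1)
        · exact absurd (h3.symm.trans h4) hne
        · simp only [h3, ↓reduceIte, decide_eq_true_eq, Int.reduceNeg, hne, add_zero]; ring
      · by_cases h4 : v = vx σ p (l + 1)
        · simp only [h4, Ne.symm hne, ↓reduceIte, add_zero, decide_eq_true_eq, Int.reduceNeg, Bool.false_eq_true]; ring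
        · simp [h3, h4]
    · have h2 : we σ p (l + 1) ∈ X := hty.2 h1
      simp only [h1, h2, if_false, decide_true, decide_false, sg]
      by_cases h3 : v = vx σ p l
      · by_cases h4 : v = vx σ p (l + 1)
        · exact absurd (h3.symm.trans h4) hne
        · simp only [h3, ↓reduceIte, Bool.false_eq_true, Int.reduceNeg, decide_eq_true_eq, hne, add_zero]; ring
      · by_cases h4 : v = vx σ p (l + 1)
        · simp only [h4, Ne.symm hne, ↓reduceIte, add_zero, decide_eq_true_eq, Int.reduceNeg]; ring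
        · simp [h3, h4]

end walk

end Vale.Agent.P335
end
end

section

section

namespace Vale.Agent.P335

open Finset

set_option linter.unusedSectionVars false

section flips

variable {V : Type*} [Fintype V] [DecidableEq V]

theorem mem_sd_ne {α : Type*} [DecidableEq α] (A : Finset α) {e f : α} (h : f ≠ e) :
    f ∈ symmDiff A {e} ↔ f ∈ A := by
  simp only [mem_symmDiff, mem_singleton]
  constructor
  · rintro (⟨h1, _⟩ | ⟨h1, _⟩)
    · exact h1
    · exact absurd h1 h
  · intro h1; exact Or.inl ⟨h1, h⟩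

theorem loopless_flip {A : Finset (Sym2 V)} (hA : ∀ v, s(v, v) ∉ A) {u w : V} (huw : u ≠ w)
    (v : V) : s(v, v) ∉ symmDiff A {s(u, w)} := by
  rw [mem_sd_ne]
  · exact hA v
  · intro h
    rw [Sym2.eq_iff] at h
    rcases h with ⟨h1, h2⟩ | ⟨h1, h2⟩
    · exact huw (h1.symm.trans h2)
    · exact huw (h2.symm.trans h1)

theorem card_sd3 {α : Type*} [DecidableEq α] (A : Finset α) (e f g : α) :
    (symmDiff A (symmDiff (symmDiff (symmDiff A {e}) {f}) {g})).card ≤ 3 := by
  have h : symmDiff A (symmDiff (symmDiff (symmDiff A {e}) {f}) {g}) ⊆ {e, f, g} := by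
    intro y hy
    simp only [mem_symmDiff, mem_singleton, mem_insert] at hy ⊢
    tauto
  exact (card_le_card h).trans card_le_three

theorem card_sd2 {α : Type*} [DecidableEq α] (A : Finset α) (e f : α) :
    (symmDiff A (symmDiff (symmDiff A {e}) {f})).card ≤ 3 := by
  have h : symmDiff A (symmDiff (symmDiff A {e}) {f}) ⊆ {e, f} := by
    intro y hy
    simp only [mem_symmDiff, mem_singleton, mem_insert] at hy ⊢
    tauto
  exact ((card_le_card h).trans card_le_two).trans (by norm_num)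

theorem card_sd1 {α : Type*} [DecidableEq α] (A : Finset α) (e : α) :
    (symmDiff A (symmDiff A {e})).card ≤ 3 := by
  have h : symmDiff A (symmDiff A {e}) ⊆ {e} := by
    intro y hy
    simp only [mem_symmDiff, mem_singleton] at hy ⊢
    tauto
  exact (card_le_card h).trans (by simp)

theorem s_ne {a b c e : V} (h1 : a ≠ c ∨ b ≠ e) (h2 : a ≠ e ∨ b ≠ c) : s(a, b) ≠ s(c, e) := by
  intro h; rw [Sym2.eq_iff] at h
  rcases h with ⟨h3, h4⟩ | ⟨h3, h4⟩
  · rcases h1 with h | h
    · exact h h3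
    · exact h h4
  · rcases h2 with h | h
    · exact h h3
    · exact h h4

/-- if `N(a)` has more elements than `N(b)`, there is `w` adjacent to `a` but not to `b` -/
theorem exists_move {A : Finset (Sym2 V)} (hA : ∀ v, s(v, v) ∉ A) {a b : V}
    (h : deg A b < deg A a) :
    ∃ w, w ≠ a ∧ w ≠ b ∧ s(a, w) ∈ A ∧ s(b, w) ∉ A := by
  classical
  by_contra hcon
  push Not at hcon
  have key : ((nb A a).erase b).card ≤ ((nb A b).erase a).card := by
    apply card_le_card
    intro w hw
    rw [mem_erase, mem_nb] at hw ⊢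
    have hwa : w ≠ a := by
      rintro rfl; exact hA w hw.2
    exact ⟨hwa, hcon w hwa hw.1 hw.2⟩
  by_cases hab : s(a, b) ∈ A
  · rw [card_erase_of_mem (by rw [mem_nb]; exact hab),
      card_erase_of_mem (by rw [mem_nb, Sym2.eq_swap]; exact hab)] at key
    have : 0 < (nb A b).card := card_pos.2 ⟨a, by rw [mem_nb, Sym2.eq_swap]; exact hab⟩
    unfold deg at h
    omega
  · rw [erase_eq_of_notMem (by rw [mem_nb]; exact hab),
      erase_eq_of_notMem (by rw [mem_nb, Sym2.eq_swap]; exact hab)] at key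
    unfold deg at h
    omega

theorem ite_neg_one (p : Prop) [Decidable p] :
    (if p then (-1 : ℤ) else 0) = -(if p then 1 else 0) := by
  split_ifs <;> simp

theorem deg_move {A : Finset (Sym2 V)} {x y w : V} (hwx : w ≠ x) (hwy : w ≠ y)
    (h1 : s(x, w) ∈ A) (h2 : s(y, w) ∉ A) (v : V) :
    (deg (symmDiff (symmDiff A {s(x, w)}) {s(y, w)}) v : ℤ) =
      deg A v - (if v = x then 1 else 0) + (if v = y then 1 else 0) := by
  have h3 : s(y, w) ∉ symmDiff A {s(x, w)} := by
    rw [mem_sd_ne]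
    · exact h2
    · rintro h; rw [h] at h2; exact h2 h1
  rw [deg_symmDiff_edge _ hwy.symm, deg_symmDiff_edge _ hwx.symm, if_neg h3, if_pos h1]
  simp only [ite_neg_one]
  ring

theorem deg_three {A : Finset (Sym2 V)} {a b x w : V} (hwa : w ≠ a) (hxb : x ≠ b)
    (hxw : x ≠ w) (hne : s(a, w) ≠ s(b, x)) (h1 : s(a, w) ∈ A) (h2 : s(b, x) ∈ A)
    (h3 : s(x, w) ∉ A) (v : V) :
    (deg (symmDiff (symmDiff (symmDiff A {s(a, w)}) {s(b, x)}) {s(x, w)}) v : ℤ) =
      deg A v - (if v = a then 1 else 0) - (if v = b then 1 else 0) := by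
  have n1 : s(x, w) ≠ s(a, w) := by rintro h; rw [h] at h3; exact h3 h1
  have n2 : s(x, w) ≠ s(b, x) := by rintro h; rw [h] at h3; exact h3 h2
  have h2' : s(b, x) ∈ symmDiff A {s(a, w)} := (mem_sd_ne _ hne.symm).2 h2
  have h3' : s(x, w) ∉ symmDiff (symmDiff A {s(a, w)}) {s(b, x)} := by
    rw [mem_sd_ne _ n2, mem_sd_ne _ n1]; exact h3
  rw [deg_symmDiff_edge _ hxw, deg_symmDiff_edge _ hxb.symm, deg_symmDiff_edge _ hwa.symm,
    if_neg h3', if_pos h2', if_pos h1]
  simp only [ite_neg_one]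
  ring

theorem deg_three' {A : Finset (Sym2 V)} {a b x w : V} (hxa : x ≠ a) (hwb : w ≠ b)
    (hxw : x ≠ w) (hne : s(a, x) ≠ s(b, w)) (h1 : s(a, x) ∉ A) (h2 : s(b, w) ∉ A)
    (h3 : s(x, w) ∈ A) (v : V) :
    (deg (symmDiff (symmDiff (symmDiff A {s(a, x)}) {s(b, w)}) {s(x, w)}) v : ℤ) =
      deg A v + (if v = a then 1 else 0) + (if v = b then 1 else 0) := by
  have n1 : s(x, w) ≠ s(a, x) := by rintro h; rw [h] at h3; exact h1 h3
  have n2 : s(x, w) ≠ s(b, w) := by rintro h; rw [h] at h3; exact h2 h3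
  have h2' : s(b, w) ∉ symmDiff A {s(a, x)} := by rw [mem_sd_ne _ hne.symm]; exact h2
  have h3' : s(x, w) ∈ symmDiff (symmDiff A {s(a, x)}) {s(b, w)} := by
    rw [mem_sd_ne _ n2, mem_sd_ne _ n1]; exact h3
  rw [deg_symmDiff_edge _ hxw, deg_symmDiff_edge _ hwb.symm, deg_symmDiff_edge _ hxa.symm,
    if_pos h3', if_neg h2', if_neg h1]
  simp only [ite_neg_one]
  ring

end flips

section ranks

variable {V : Type*} [Fintype V] [LinearOrder V]

theorem rk_lt_card (d : V → ℕ) {a b : V} :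
    rk d a < rk d b ↔ (d b < d a ∨ (d a = d b ∧ a < b)) := by
  classical
  constructor
  · intro h
    by_contra hcon
    push Not at hcon
    obtain ⟨h1, h2⟩ := hcon
    have : rk d b ≤ rk d a := by
      apply card_le_card
      intro u hu
      simp only [mem_filter, mem_univ, true_and] at hu ⊢
      rcases hu with hu | ⟨hu, hub⟩
      · exact Or.inl (lt_of_le_of_lt h1 hu)
      · rcases lt_or_eq_of_le h1 with h3 | h3
        · left; omega
        · right
          exact ⟨by omega, lt_of_lt_of_le hub (h2 h3)⟩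
    omega
  · intro h
    apply card_lt_card
    refine ⟨?_, ?_⟩
    · intro u hu
      simp only [mem_filter, mem_univ, true_and] at hu ⊢
      rcases h with h | ⟨h, hab⟩ <;> rcases hu with hu | ⟨hu, hua⟩
      · left; omega
      · left; omega
      · left; omega
      · right; exact ⟨by omega, hua.trans hab⟩
    · intro hsub
      have ha : a ∈ univ.filter (fun u => d b < d u ∨ (d u = d b ∧ u < b)) := by
        simp only [mem_filter, mem_univ, true_and]; exact h
      have := hsub ha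
      simp only [mem_filter, mem_univ, lt_self_iff_false, and_false, or_self] at this

theorem rk_inj (d : V → ℕ) {a b : V} (h : rk d a = rk d b) : a = b := by
  by_contra hne
  rcases lt_trichotomy (d a) (d b) with h1 | h1 | h1
  · have := (rk_lt_card d (a := b) (b := a)).2 (Or.inl h1); omega
  · rcases lt_or_gt_of_ne hne with h2 | h2
    · have := (rk_lt_card d (a := a) (b := b)).2 (Or.inr ⟨h1, h2⟩); omega
    · have := (rk_lt_card d (a := b) (b := a)).2 (Or.inr ⟨h1.symm, h2⟩); omega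
  · have := (rk_lt_card d (a := a) (b := b)).2 (Or.inl h1); omega

theorem d_le_of_rk_le (d : V → ℕ) {a b : V} (h : rk d a ≤ rk d b) : d b ≤ d a := by
  rcases lt_or_eq_of_le h with h | h
  · rcases (rk_lt_card d).1 h with h | ⟨h, _⟩ <;> omega
  · rw [rk_inj d h]

/-- the number of vertices of rank `< rk b` is `rk b` -/
theorem card_rk_lt (d : V → ℕ) (b : V) : (univ.filter (fun u => rk d u < rk d b)).card = rk d b := by
  conv_rhs => rw [rk]
  congr 1
  ext u
  simp only [mem_filter, mem_univ, true_and]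
  exact rk_lt_card d

end ranks

variable {V : Type*} [Fintype V] [LinearOrder V]

/-- TASK T2: closure lemma. -/
theorem closure_lemma (d : V → ℕ) (A : Finset (Sym2 V)) (hA : ∀ v, s(v, v) ∉ A) (a b : V)
    (ta tb : Bool)
    (hdeg : ∀ v, (deg A v : ℤ) = d v + (if v = a then sg ta else 0) - (if v = b then sg tb else 0))
    (hh : ht d (a, ta) ≤ ht d (b, tb)) : ∃ B ∈ Om d, (symmDiff A B).card ≤ 3 := by
  cases ta <;> cases tb
  · -- C C
    simp only [ht, hC, sg] at hh hdeg
    simp only [Bool.false_eq_true, if_false] at hh hdeg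
    by_cases hab : a = b
    · subst hab
      refine ⟨A, mem_Om.2 ⟨hA, fun v => ?_⟩, by simp only [symmDiff_self, bot_eq_empty, card_empty, zero_le]⟩
      have := hdeg v
      omega
    · have ha := hdeg a
      have hb := hdeg b
      rw [if_pos rfl, if_neg hab] at ha
      rw [if_pos rfl, if_neg (Ne.symm hab)] at hb
      have hlt : deg A a < deg A b := by
        split_ifs at hh <;> omega
      obtain ⟨w, hwb, hwa, h1, h2⟩ := exists_move hA hlt
      refine ⟨symmDiff (symmDiff A {s(b, w)}) {s(a, w)}, mem_Om.2 ⟨?_, fun v => ?_⟩,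
        card_sd2 _ _ _⟩
      · exact loopless_flip (loopless_flip hA hwb.symm) hwa.symm
      · have h := deg_move hwb hwa h1 h2 v
        have hv := hdeg v
        simp only [ite_neg_one] at hv
        omega
  · -- C R
    simp only [ht, hC, sg] at hh hdeg
    simp only [Bool.false_eq_true, if_false, if_true] at hh hdeg
    by_cases hab : a ≠ b ∧ s(a, b) ∉ A
    · obtain ⟨hab, hnab⟩ := hab
      refine ⟨symmDiff A {s(a, b)}, mem_Om.2 ⟨loopless_flip hA hab, fun v => ?_⟩, card_sd1 _ _⟩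
      have h := deg_symmDiff_edge A hab v
      rw [if_neg hnab] at h
      have hv := hdeg v
      simp only [ite_neg_one] at hv
      omega
    · have hab' : a = b ∨ s(a, b) ∈ A := by
        by_contra hcon
        push Not at hcon
        exact hab hcon
      have hex : ∃ x, rk d x < rk d b ∧ x ≠ a ∧ s(a, x) ∉ A := by
        by_contra hcon
        push Not at hcon
        rcases hab' with rfl | hab'
        · have hsub : univ.filter (fun u => rk d u < rk d a) ⊆ nb A a := by
            intro u hu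
            simp only [mem_filter, mem_univ, true_and] at hu
            rw [mem_nb]
            exact hcon u hu (by rintro rfl; exact lt_irrefl _ hu)
          have h1 := card_le_card hsub
          rw [card_rk_lt] at h1
          have h2 := hdeg a
          rw [if_pos rfl, if_pos rfl, deg] at h2
          split_ifs at hh <;> omega
        · have hne : a ≠ b := by rintro rfl; exact hA _ hab'
          have hsub : univ.filter (fun u => rk d u < rk d b) ⊆ insert a ((nb A a).erase b) := by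
            intro u hu
            simp only [mem_filter, mem_univ, true_and] at hu
            rw [mem_insert, mem_erase, mem_nb]
            by_cases hua : u = a
            · exact Or.inl hua
            · exact Or.inr ⟨by rintro rfl; exact lt_irrefl _ hu, hcon u hu hua⟩
          have h1 := (card_le_card hsub).trans (card_insert_le _ _)
          have hmem : b ∈ nb A a := by rw [mem_nb]; exact hab'
          rw [card_rk_lt, card_erase_of_mem hmem] at h1
          have hpos : 0 < (nb A a).card := card_pos.2 ⟨b, hmem⟩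
          have h2 := hdeg a
          rw [if_pos rfl, if_neg hne, deg] at h2
          split_ifs at hh <;> omega
      obtain ⟨x, hx1, hxa, hx2⟩ := hex
      have hxb : x ≠ b := by rintro rfl; exact lt_irrefl _ hx1
      have hdx : d b ≤ d x := d_le_of_rk_le d hx1.le
      have h1 := hdeg x
      have h2 := hdeg b
      rw [if_neg hxa, if_neg hxb] at h1
      rw [if_pos rfl] at h2
      have hlt : deg A b < deg A x := by
        split_ifs at h2 <;> omega
      obtain ⟨w, hwx, hwb, h3, h4⟩ := exists_move hA hlt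
      refine ⟨symmDiff (symmDiff (symmDiff A {s(a, x)}) {s(b, w)}) {s(x, w)},
        mem_Om.2 ⟨?_, fun v => ?_⟩, card_sd3 _ _ _ _⟩
      · exact loopless_flip (loopless_flip (loopless_flip hA hxa.symm) hwb.symm) hwx.symm
      · have h := deg_three' hxa hwb hwx.symm (s_ne (Or.inr hwx.symm) (Or.inr hxb)) hx2 h4 h3 v
        have hv := hdeg v
        simp only [ite_neg_one] at hv
        omega
  · -- R C
    simp only [ht, hC, sg] at hh hdeg
    simp only [Bool.false_eq_true, if_false, if_true] at hh hdeg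
    by_cases hab : s(a, b) ∈ A
    · have hne : a ≠ b := by rintro rfl; exact hA _ hab
      refine ⟨symmDiff A {s(a, b)}, mem_Om.2 ⟨loopless_flip hA hne, fun v => ?_⟩, card_sd1 _ _⟩
      have h := deg_symmDiff_edge A hne v
      rw [if_pos hab] at h
      have hv := hdeg v
      simp only [ite_neg_one] at hv h
      omega
    · have hex : ∃ x, rk d a < rk d x ∧ s(b, x) ∈ A := by
        by_contra hcon
        push Not at hcon
        have hsub : nb A b ⊆ univ.filter (fun u => rk d u < rk d a) := by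
          intro u hu
          rw [mem_nb] at hu
          simp only [mem_filter, mem_univ, true_and]
          have h1 : u ≠ a := by
            rintro rfl; rw [Sym2.eq_swap] at hu; exact hab hu
          have h2 : ¬ rk d a < rk d u := fun h => hcon u h hu
          have h3 : rk d u ≠ rk d a := fun h => h1 (rk_inj d h)
          omega
        have h1 := card_le_card hsub
        rw [card_rk_lt] at h1
        have h2 := hdeg b
        rw [if_pos rfl, deg] at h2
        split_ifs at hh h2 <;> omega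
      obtain ⟨x, hx1, hx2⟩ := hex
      have hxa : x ≠ a := by rintro rfl; exact lt_irrefl _ hx1
      have hxb : x ≠ b := by rintro rfl; exact hA _ hx2
      have hdx : d x ≤ d a := d_le_of_rk_le d hx1.le
      have h1 := hdeg x
      have h2 := hdeg a
      rw [if_neg hxa, if_neg hxb] at h1
      rw [if_pos rfl] at h2
      have hlt : deg A x < deg A a := by
        split_ifs at h2 <;> omega
      obtain ⟨w, hwa, hwx, h3, h4⟩ := exists_move hA hlt
      refine ⟨symmDiff (symmDiff (symmDiff A {s(a, w)}) {s(b, x)}) {s(x, w)},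
        mem_Om.2 ⟨?_, fun v => ?_⟩, card_sd3 _ _ _ _⟩
      · exact loopless_flip (loopless_flip (loopless_flip hA hwa.symm) hxb.symm) hwx.symm
      · have h := deg_three hwa hxb hwx.symm (s_ne (Or.inr hwx) (Or.inl hxa.symm)) h3 hx2 h4 v
        have hv := hdeg v
        simp only [ite_neg_one] at hv
        omega
  · -- R R
    simp only [ht, sg] at hh hdeg
    simp only [if_true] at hh hdeg
    by_cases hab : a = b
    · subst hab
      refine ⟨A, mem_Om.2 ⟨hA, fun v => ?_⟩, by simp only [symmDiff_self, bot_eq_empty, card_empty, zero_le]⟩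
      have := hdeg v
      omega
    · have ha := hdeg a
      have hb := hdeg b
      rw [if_pos rfl, if_neg hab] at ha
      rw [if_pos rfl, if_neg (Ne.symm hab)] at hb
      have hd : d b ≤ d a := d_le_of_rk_le d (by omega)
      have hlt : deg A b < deg A a := by omega
      obtain ⟨w, hwa, hwb, h1, h2⟩ := exists_move hA hlt
      refine ⟨symmDiff (symmDiff A {s(a, w)}) {s(b, w)}, mem_Om.2 ⟨?_, fun v => ?_⟩,
        card_sd2 _ _ _⟩
      · exact loopless_flip (loopless_flip hA hwa.symm) hwb.symm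
      · have h := deg_move hwa hwb h1 h2 v
        have hv := hdeg v
        omega

end Vale.Agent.P335
end
end

section

section

namespace Vale.Agent.P335

open Finset Function

set_option linter.unusedSectionVars false

section general

variable {α : Type*} [DecidableEq α]

theorem cd_tri (A B C : Finset α) :
    (symmDiff A C).card ≤ (symmDiff A B).card + (symmDiff B C).card := by
  refine (card_le_card ?_).trans (card_union_le _ _)
  intro e; simp only [mem_symmDiff, mem_union]; tauto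

theorem cd_comm (A B : Finset α) : (symmDiff A B).card = (symmDiff B A).card := by
  rw [symmDiff_comm]

theorem cd_left (X A B : Finset α) :
    symmDiff (symmDiff X A) (symmDiff X B) = symmDiff A B := by
  ext e; simp only [mem_symmDiff]; tauto

theorem cd_image (g : ℕ → α) (S T : Finset ℕ) :
    (symmDiff (S.image g) (T.image g)).card ≤ (symmDiff S T).card := by
  refine (card_le_card ?_).trans (card_image_le (f := g))
  intro e he
  rw [mem_symmDiff] at he
  rw [mem_image]
  rcases he with ⟨h1, h2⟩ | ⟨h1, h2⟩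
  · obtain ⟨s, hs, rfl⟩ := mem_image.1 h1
    exact ⟨s, mem_symmDiff.2 (Or.inl ⟨hs, fun h => h2 (mem_image_of_mem g h)⟩), rfl⟩
  · obtain ⟨s, hs, rfl⟩ := mem_image.1 h1
    exact ⟨s, mem_symmDiff.2 (Or.inr ⟨hs, fun h => h2 (mem_image_of_mem g h)⟩), rfl⟩

end general

section

variable {V : Type*} [Fintype V] [DecidableEq V]

theorem arc_shift (σ : V → V → V) (p : V × V) (i l : ℕ) :
    arc σ (((nxt σ)^[i]) p) l = (Ico i (i + l)).image (we σ p) := by
  ext e
  simp only [arc, mem_image, mem_range, we_shift, mem_Ico]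
  constructor
  · rintro ⟨k, hk, rfl⟩; exact ⟨k + i, by omega, rfl⟩
  · rintro ⟨k, hk, rfl⟩; exact ⟨k - i, by omega, by congr 1; omega⟩

theorem arc_shift' (σ : V → V → V) (p : V × V) {i j : ℕ} (hij : i ≤ j) :
    arc σ (((nxt σ)^[i]) p) (j - i) = (Ico i j).image (we σ p) := by
  rw [arc_shift]; congr 2; omega

theorem arc_eq (σ : V → V → V) (p : V × V) (l : ℕ) :
    arc σ p l = (Ico 0 l).image (we σ p) := by
  have := arc_shift σ p 0 l
  simpa only [Nat.Ico_zero_eq_range, iterate_zero, id_eq, zero_add] using this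

theorem we_add_mul_per (σ : V → V → V) (p : V × V) (i k : ℕ) :
    we σ p (i + k * per σ p) = we σ p i := by
  induction k with
  | zero => simp
  | succ k ih =>
    have : i + (k + 1) * per σ p = (i + k * per σ p) + per σ p := by ring
    rw [this, we_add_per, ih]

theorem mem_arc_per (σ : V → V → V) (hi : ∀ v w, σ v (σ v w) = w) (p : V × V) (e : Sym2 V) :
    e ∈ arc σ p (per σ p) ↔ ∃ i, we σ p i = e := by
  rw [arc, mem_image]
  constructor
  · rintro ⟨i, _, h⟩; exact ⟨i, h⟩
  · rintro ⟨i, h⟩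
    refine ⟨i % per σ p, mem_range.2 (Nat.mod_lt _ (per_pos hi p)), ?_⟩
    rw [← h]
    conv_rhs => rw [← Nat.mod_add_div' i (per σ p)]
    rw [we_add_mul_per]

theorem arc_per_shift (σ : V → V → V) (hi : ∀ v w, σ v (σ v w) = w) (p : V × V) (M : ℕ) :
    arc σ (((nxt σ)^[M]) p) (per σ p) = arc σ p (per σ p) := by
  ext e
  have h1 := mem_arc_per σ hi (((nxt σ)^[M]) p) e
  rw [per_shift hi] at h1
  rw [h1, mem_arc_per σ hi]
  constructor
  · rintro ⟨i, h⟩; rw [we_shift] at h; exact ⟨_, h⟩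
  · rintro ⟨i, h⟩
    refine ⟨i + M * per σ p - M, ?_⟩
    have hp := per_pos hi p
    have : M ≤ M * per σ p := Nat.le_mul_of_pos_right M hp
    rw [we_shift, show i + M * per σ p - M + M = i + M * per σ p by omega, we_add_mul_per, h]

theorem symmDiff_loopless {A B : Finset (Sym2 V)} (hA : ∀ v, s(v, v) ∉ A)
    (hB : ∀ v, s(v, v) ∉ B) : ∀ v, s(v, v) ∉ symmDiff A B := by
  intro v h
  rw [mem_symmDiff] at h
  rcases h with h | h
  · exact hA v h.1
  · exact hB v h.1

theorem arc_subset {X Y : Finset (Sym2 V)} {σ : V → V → V} (hσ : σ ∈ Pr (rd X Y) (rd Y X))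
    {p : V × V} (hp : s(p.1, p.2) ∈ symmDiff X Y) (l : ℕ) : arc σ p l ⊆ symmDiff X Y := by
  intro e he
  obtain ⟨i, _, rfl⟩ := mem_image.1 he
  exact we_mem hσ hp i

theorem arc_loopless {X Y : Finset (Sym2 V)} {σ : V → V → V} (hσ : σ ∈ Pr (rd X Y) (rd Y X))
    (hX : ∀ v, s(v, v) ∉ X) (hY : ∀ v, s(v, v) ∉ Y)
    {p : V × V} (hp : s(p.1, p.2) ∈ symmDiff X Y) (l : ℕ) : ∀ v, s(v, v) ∉ arc σ p l :=
  fun v h => symmDiff_loopless hX hY v (arc_subset hσ hp l h)

end

section

variable {V : Type*} [Fintype V] [LinearOrder V]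

/-- the typed height along the walk -/
noncomputable def fh (d : V → ℕ) (X : Finset (Sym2 V)) (σ : V → V → V) (p : V × V) (i : ℕ) : ℤ :=
  (ht d (vx σ p i, decide (we σ p i ∈ X)) : ℤ)

open Classical in
/-- the good intermediate states -/
noncomputable def GoodSet (d : V → ℕ) (X Y : Finset (Sym2 V)) (σ : V → V → V) :
    Finset (Finset (Sym2 V)) :=
  (Om d).filter (fun Z => ∃ p : V × V, s(p.1, p.2) ∈ symmDiff X Y ∧ ∃ l ≤ per σ p, ∃ L ∈ Om d,
    (symmDiff Z (symmDiff X (arc σ p l))).card ≤ 7 ∧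
    (symmDiff L (symmDiff Y (arc σ p l))).card ≤ 7)

theorem mem_GoodSet {d : V → ℕ} {X Y : Finset (Sym2 V)} {σ : V → V → V} {Z : Finset (Sym2 V)} :
    Z ∈ GoodSet d X Y σ ↔ Z ∈ Om d ∧ ∃ p : V × V, s(p.1, p.2) ∈ symmDiff X Y ∧
      ∃ l ≤ per σ p, ∃ L ∈ Om d, (symmDiff Z (symmDiff X (arc σ p l))).card ≤ 7 ∧
      (symmDiff L (symmDiff Y (arc σ p l))).card ≤ 7 := by
  simp only [GoodSet, mem_filter]

theorem sg_not (b : Bool) : sg (!b) = - sg b := by cases b <;> simp [sg]

theorem we_mem_Y_iff {X Y : Finset (Sym2 V)} {σ : V → V → V} (hσ : σ ∈ Pr (rd X Y) (rd Y X))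
    {p : V × V} (hp : s(p.1, p.2) ∈ symmDiff X Y) (i : ℕ) :
    we σ p i ∈ Y ↔ ¬ we σ p i ∈ X := by
  have := we_mem hσ hp i
  rw [mem_symmDiff] at this
  (clear * - this; tauto)

theorem deg_arc_Y {X Y : Finset (Sym2 V)} {σ : V → V → V} (hσ : σ ∈ Pr (rd X Y) (rd Y X))
    (hX : ∀ v, s(v, v) ∉ X) (hY : ∀ v, s(v, v) ∉ Y)
    {p : V × V} (hp : s(p.1, p.2) ∈ symmDiff X Y) {l : ℕ}
    (hl : l ≤ per σ p) (v : V) :
    (deg (symmDiff Y (arc σ p l)) v : ℤ) = deg Y v
      + (if v = vx σ p 0 then sg (decide (we σ p 0 ∈ X)) else 0)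
      - (if v = vx σ p l then sg (decide (we σ p l ∈ X)) else 0) := by
  have hp' : s(p.1, p.2) ∈ symmDiff Y X := by rwa [symmDiff_comm]
  have h := deg_arc (Pr_symm hσ) hY hX hp' hl v
  have e : ∀ i, decide (we σ p i ∈ Y) = !decide (we σ p i ∈ X) := by
    intro i
    by_cases hx : we σ p i ∈ X
    · simp [hx, (we_mem_Y_iff hσ hp i)]
    · simp [hx, (we_mem_Y_iff hσ hp i)]
  rw [h, e, e, sg_not, sg_not]
  split_ifs <;> ring

/-- closing up an arc on the `X` side -/
theorem close_X (d : V → ℕ) {X Y : Finset (Sym2 V)} {σ : V → V → V} (hX : X ∈ Om d)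
    (hY : Y ∈ Om d) (hσ : σ ∈ Pr (rd X Y) (rd Y X)) {p : V × V}
    (hp : s(p.1, p.2) ∈ symmDiff X Y) {i j : ℕ} (hij : i ≤ j) (hjL : j ≤ i + per σ p)
    (hh : fh d X σ p j ≤ fh d X σ p i) :
    ∃ Z ∈ Om d, (symmDiff Z (symmDiff X ((Ico i j).image (we σ p)))).card ≤ 3 := by
  have hi := Pr_invol hσ
  have hX1 := (mem_Om.1 hX).1
  have hY1 := (mem_Om.1 hY).1
  set q := ((nxt σ)^[i]) p with hq
  have hqm : s(q.1, q.2) ∈ symmDiff X Y := we_mem hσ hp i
  have hl : j - i ≤ per σ q := by rw [hq, per_shift hi]; omega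
  have hdeg := deg_arc hσ hX1 hY1 hqm hl
  have e0 : vx σ q 0 = vx σ p i := by rw [hq, vx_shift]; congr 1; omega
  have e1 : vx σ q (j - i) = vx σ p j := by rw [hq, vx_shift]; congr 1; omega
  have e2 : we σ q 0 = we σ p i := by rw [hq, we_shift]; congr 1; omega
  have e3 : we σ q (j - i) = we σ p j := by rw [hq, we_shift]; congr 1; omega
  have e4 : arc σ q (j - i) = (Ico i j).image (we σ p) := arc_shift' σ p hij
  rw [e0, e1, e2, e3, e4] at hdeg
  have hloop : ∀ v, s(v, v) ∉ symmDiff X ((Ico i j).image (we σ p)) := by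
    rw [← e4]; exact symmDiff_loopless hX1 (arc_loopless hσ hX1 hY1 hqm _)
  obtain ⟨B, hB, hc⟩ := closure_lemma d _ hloop (vx σ p j) (vx σ p i)
    (decide (we σ p j ∈ X)) (decide (we σ p i ∈ X))
    (by intro v; rw [hdeg v, (mem_Om.1 hX).2 v]) (by
      have := hh; unfold fh at this; exact_mod_cast this)
  exact ⟨B, hB, by rw [cd_comm]; exact hc⟩

/-- closing up an arc on the `Y` side -/
theorem close_Y (d : V → ℕ) {X Y : Finset (Sym2 V)} {σ : V → V → V} (hX : X ∈ Om d)
    (hY : Y ∈ Om d) (hσ : σ ∈ Pr (rd X Y) (rd Y X)) {p : V × V}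
    (hp : s(p.1, p.2) ∈ symmDiff X Y) {i j : ℕ} (hij : i ≤ j) (hjL : j ≤ i + per σ p)
    (hh : fh d X σ p i ≤ fh d X σ p j) :
    ∃ Z ∈ Om d, (symmDiff Z (symmDiff Y ((Ico i j).image (we σ p)))).card ≤ 3 := by
  have hi := Pr_invol hσ
  have hX1 := (mem_Om.1 hX).1
  have hY1 := (mem_Om.1 hY).1
  set q := ((nxt σ)^[i]) p with hq
  have hqm : s(q.1, q.2) ∈ symmDiff X Y := we_mem hσ hp i
  have hl : j - i ≤ per σ q := by rw [hq, per_shift hi]; omega
  have hdeg := deg_arc_Y hσ hX1 hY1 hqm hl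
  have e0 : vx σ q 0 = vx σ p i := by rw [hq, vx_shift]; congr 1; omega
  have e1 : vx σ q (j - i) = vx σ p j := by rw [hq, vx_shift]; congr 1; omega
  have e2 : we σ q 0 = we σ p i := by rw [hq, we_shift]; congr 1; omega
  have e3 : we σ q (j - i) = we σ p j := by rw [hq, we_shift]; congr 1; omega
  have e4 : arc σ q (j - i) = (Ico i j).image (we σ p) := arc_shift' σ p hij
  rw [e0, e1, e2, e3, e4] at hdeg
  have hloop : ∀ v, s(v, v) ∉ symmDiff Y ((Ico i j).image (we σ p)) := by
    rw [← e4]; exact symmDiff_loopless hY1 (arc_loopless hσ hX1 hY1 hqm _)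
  obtain ⟨B, hB, hc⟩ := closure_lemma d _ hloop (vx σ p i) (vx σ p j)
    (decide (we σ p i ∈ X)) (decide (we σ p j ∈ X))
    (by intro v; rw [hdeg v, (mem_Om.1 hY).2 v]) (by
      have := hh; unfold fh at this; exact_mod_cast this)
  exact ⟨B, hB, by rw [cd_comm]; exact hc⟩

/-- flipping a whole circuit stays in `Om d` -/
theorem flip_mem (d : V → ℕ) {X Y : Finset (Sym2 V)} {σ : V → V → V} (hX : X ∈ Om d)
    (hY : Y ∈ Om d) (hσ : σ ∈ Pr (rd X Y) (rd Y X)) {p : V × V}
    (hp : s(p.1, p.2) ∈ symmDiff X Y) : symmDiff X (arc σ p (per σ p)) ∈ Om d := by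
  have hX1 := (mem_Om.1 hX).1
  have hY1 := (mem_Om.1 hY).1
  rw [mem_Om]
  refine ⟨symmDiff_loopless hX1 (arc_loopless hσ hX1 hY1 hp _), ?_⟩
  intro v
  have h := deg_arc hσ hX1 hY1 hp le_rfl v
  have e1 : vx σ p (per σ p) = vx σ p 0 := by rw [vx, it_per]; rfl
  have e2 : we σ p (per σ p) = we σ p 0 := by
    have := we_add_per (σ := σ) p 0
    rwa [Nat.zero_add] at this
  rw [e1, e2, (mem_Om.1 hX).2 v] at h
  have : (deg (symmDiff X (arc σ p (per σ p))) v : ℤ) = (d v : ℤ) := by rw [h]; ring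
  exact_mod_cast this

/-- the heights of consecutive vertices of the walk differ -/
theorem fh_ne (d : V → ℕ) {X Y : Finset (Sym2 V)} {σ : V → V → V}
    (hσ : σ ∈ Pr (rd X Y) (rd Y X)) {p : V × V}
    (hp : s(p.1, p.2) ∈ symmDiff X Y) (i : ℕ) : fh d X σ p i ≠ fh d X σ p (i + 1) := by
  have h := ty_succ hσ hp i
  unfold fh ht
  by_cases h1 : we σ p i ∈ X
  · have h2 : ¬ we σ p (i + 1) ∈ X := by rw [h]; simpa using h1
    simp only [h1, h2, decide_true, decide_false, if_true, Bool.false_eq_true, if_false]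
    push_cast; omega
  · have h2 : we σ p (i + 1) ∈ X := h.2 h1
    simp only [h1, h2, decide_true, decide_false, if_true, Bool.false_eq_true, if_false]
    push_cast; omega

/-- a valid state of the two climbers gives a graph in `Om d` on both sides -/
theorem state_good (d : V → ℕ) {X Y : Finset (Sym2 V)} {σ : V → V → V} (hX : X ∈ Om d)
    (hY : Y ∈ Om d) (hσ : σ ∈ Pr (rd X Y) (rd Y X)) {p : V × V}
    (hp : s(p.1, p.2) ∈ symmDiff X Y) {x y : ℕ} (hxy : x < y) (hy : y < per σ p)
    (hv : Val (fh d X σ p) x y) :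
    (∃ Z ∈ Om d, (symmDiff Z (symmDiff X ((Ico (x + 1) y).image (we σ p)))).card ≤ 5) ∧
    (∃ Z ∈ Om d, (symmDiff Z (symmDiff Y ((Ico (x + 1) y).image (we σ p)))).card ≤ 5) := by
  have hne1 := fh_ne d hσ hp x
  have hne2 := fh_ne d hσ hp y
  obtain ⟨hv1, hv2⟩ := hv
  have key : ∀ (i j : ℕ) (W : Finset (Sym2 V)), (i = x ∨ i = x + 1) → (j = y ∨ j = y + 1) →
      (∃ Z ∈ Om d, (symmDiff Z (symmDiff W ((Ico i j).image (we σ p)))).card ≤ 3) →
      ∃ Z ∈ Om d, (symmDiff Z (symmDiff W ((Ico (x + 1) y).image (we σ p)))).card ≤ 5 := by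
    rintro i j W hi hj ⟨Z, hZ, hc⟩
    refine ⟨Z, hZ, ?_⟩
    refine (cd_tri _ _ _).trans (Nat.add_le_add hc ?_ : _ ≤ 3 + 2)
    rw [cd_left]
    refine (cd_image _ _ _).trans ?_
    have : symmDiff (Ico i j) (Ico (x + 1) y) ⊆ {x, y} := by
      intro k hk
      rw [mem_symmDiff, mem_Ico, mem_Ico] at hk
      rw [mem_insert, mem_singleton]
      (clear * - hxy hi hj hk; omega)
    exact (card_le_card this).trans card_le_two
  rcases lt_or_gt_of_ne hne1 with h1 | h1 <;> rcases lt_or_gt_of_ne hne2 with h2 | h2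
  · -- x+1 upper, y lower
    refine ⟨key (x + 1) y X (Or.inr rfl) (Or.inl rfl) ?_, key x (y + 1) Y (Or.inl rfl) (Or.inr rfl) ?_⟩
    · apply close_X d hX hY hσ hp (by omega) (by omega)
      rw [min_eq_left h2.le, max_eq_right h1.le] at hv2
      exact hv2
    · apply close_Y d hX hY hσ hp (by omega) (by omega)
      rw [min_eq_left h1.le, max_eq_right h2.le] at hv1
      exact hv1
  · -- x+1 upper, y+1 lower
    refine ⟨key (x + 1) (y + 1) X (Or.inr rfl) (Or.inr rfl) ?_, key x y Y (Or.inl rfl) (Or.inl rfl) ?_⟩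
    · apply close_X d hX hY hσ hp (by omega) (by omega)
      rw [min_eq_right h2.le, max_eq_right h1.le] at hv2
      exact hv2
    · apply close_Y d hX hY hσ hp (by omega) (by omega)
      rw [min_eq_left h1.le, max_eq_left h2.le] at hv1
      exact hv1
  · -- x upper, y lower
    refine ⟨key x y X (Or.inl rfl) (Or.inl rfl) ?_, key (x + 1) (y + 1) Y (Or.inr rfl) (Or.inr rfl) ?_⟩
    · apply close_X d hX hY hσ hp (by omega) (by omega)
      rw [min_eq_left h2.le, max_eq_left h1.le] at hv2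
      exact hv2
    · apply close_Y d hX hY hσ hp (by omega) (by omega)
      rw [min_eq_right h1.le, max_eq_right h2.le] at hv1
      exact hv1
  · -- x upper, y+1 lower
    refine ⟨key x (y + 1) X (Or.inl rfl) (Or.inr rfl) ?_, key (x + 1) y Y (Or.inr rfl) (Or.inl rfl) ?_⟩
    · apply close_X d hX hY hσ hp (by omega) (by omega)
      rw [min_eq_right h2.le, max_eq_left h1.le] at hv2
      exact hv2
    · apply close_Y d hX hY hσ hp (by omega) (by omega)
      rw [min_eq_right h1.le, max_eq_left h2.le] at hv1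
      exact hv1

/-- the relation used for paths of good states -/
def NearRel (d : V → ℕ) (X Y : Finset (Sym2 V)) (σ : V → V → V) (Z Z' : Finset (Sym2 V)) : Prop :=
  Z ∈ GoodSet d X Y σ ∧ Z' ∈ GoodSet d X Y σ ∧ (symmDiff Z Z').card ≤ 12

theorem good_of_interval (d : V → ℕ) {X Y : Finset (Sym2 V)} {σ : V → V → V}
    (hσ : σ ∈ Pr (rd X Y) (rd Y X)) {p : V × V}
    (hp : s(p.1, p.2) ∈ symmDiff X Y) {i j : ℕ} (hij : i ≤ j) (hjL : j ≤ i + per σ p)
    {Z : Finset (Sym2 V)} (hZ : Z ∈ Om d)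
    (hc : (symmDiff Z (symmDiff X ((Ico i j).image (we σ p)))).card ≤ 7)
    (hL : ∃ L ∈ Om d, (symmDiff L (symmDiff Y ((Ico i j).image (we σ p)))).card ≤ 7) :
    Z ∈ GoodSet d X Y σ := by
  have hi := Pr_invol hσ
  rw [mem_GoodSet]
  refine ⟨hZ, ((nxt σ)^[i]) p, we_mem hσ hp i, j - i, ?_, ?_⟩
  · rw [per_shift hi]; omega
  · rw [arc_shift' σ p hij]
    obtain ⟨L, hL1, hL2⟩ := hL
    exact ⟨L, hL1, hc, hL2⟩

theorem connect_max (d : V → ℕ) {X Y : Finset (Sym2 V)} {σ : V → V → V} (hX : X ∈ Om d)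
    (hY : Y ∈ Om d) (hσ : σ ∈ Pr (rd X Y) (rd Y X)) {p : V × V}
    (hp : s(p.1, p.2) ∈ symmDiff X Y) (hmax : ∀ i, fh d X σ p i ≤ fh d X σ p 0) :
    Relation.ReflTransGen (NearRel d X Y σ) X (symmDiff X (arc σ p (per σ p))) := by
  have hi := Pr_invol hσ
  set L := per σ p with hL
  have hLpos : 0 < L := per_pos hi p
  have hfL : fh d X σ p L = fh d X σ p 0 := by
    have e1 : vx σ p L = vx σ p 0 := by rw [vx, hL, it_per]; rfl
    have e2 : we σ p L = we σ p 0 := by
      have := we_add_per (σ := σ) p 0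
      rwa [Nat.zero_add] at this
    unfold fh; rw [e1, e2]
  -- the index of the lowest vertex
  obtain ⟨m, hm, hmin⟩ := exists_min_image (range (L + 1)) (fh d X σ p) ⟨0, by simp only [mem_range, lt_add_iff_pos_left, Order.lt_add_one_iff, zero_le]⟩
  have hmin' : ∀ i ≤ L, fh d X σ p m ≤ fh d X σ p i := fun i hi' =>
    hmin i (mem_range.2 (by omega))
  have hlt : fh d X σ p m < fh d X σ p 0 := by
    have h1 := fh_ne d hσ hp 0
    have h2 := hmin' (0 + 1) (by omega)
    have h3 := hmax (0 + 1)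
    omega
  have hm0 : 0 < m := by
    rcases Nat.eq_zero_or_pos m with h | h
    · subst h; exact absurd hlt (lt_irrefl _)
    · exact h
  have hmL : m < L := by
    have h1 : m ≤ L := by have := mem_range.1 hm; omega
    rcases Nat.lt_or_ge m L with h | h
    · exact h
    · have : m = L := le_antisymm h1 h
      rw [this, hfL] at hlt; exact absurd hlt (lt_irrefl _)
  have hmt := mountain (fh d X σ p) m L hm0 hmL (fun i _ => hmax i) hfL hmin'
  -- symmetric difference facts
  have hempty : ∀ W : Finset (Sym2 V), ∀ i : ℕ,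
      symmDiff W ((Ico i i).image (we σ p)) = W := by
    intro W i; ext e; simp [mem_symmDiff]
  have hXgood : X ∈ GoodSet d X Y σ := by
    apply good_of_interval d hσ hp (le_refl 0) (by omega) hX
    · rw [hempty]; simp only [symmDiff_self, bot_eq_empty, card_empty, zero_le]
    · exact ⟨Y, hY, by rw [hempty]; simp only [symmDiff_self, bot_eq_empty, card_empty, zero_le]⟩
  have hp' : s(p.1, p.2) ∈ symmDiff Y X := by rwa [symmDiff_comm]
  have hflipX := flip_mem d hX hY hσ hp
  have hflipY := flip_mem d hY hX (Pr_symm hσ) hp'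
  have hflipgood : symmDiff X (arc σ p L) ∈ GoodSet d X Y σ := by
    apply good_of_interval d hσ hp (Nat.zero_le L) (by omega) hflipX
    · rw [arc_eq, symmDiff_self]; simp only [bot_eq_empty, card_empty, zero_le]
    · exact ⟨_, hflipY, by rw [arc_eq, symmDiff_self]; simp only [bot_eq_empty, card_empty, zero_le]⟩
  have hgood : ∀ (x y : ℕ) (Z : Finset (Sym2 V)), x < m → m ≤ y → y < L →
      Val (fh d X σ p) x y → Z ∈ Om d →
      (symmDiff Z (symmDiff X ((Ico (x + 1) y).image (we σ p)))).card ≤ 5 →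
      Z ∈ GoodSet d X Y σ := by
    intro x y Z hx hy hyL hv hZ hc
    obtain ⟨_, L', hL', hc'⟩ := state_good d hX hY hσ hp (show x < y by omega) hyL hv
    exact good_of_interval d hσ hp (i := x + 1) (j := y) (by omega) (by omega) hZ
      (hc.trans (by norm_num)) ⟨L', hL', hc'.trans (by norm_num)⟩
  have main : ∀ q : ℕ × ℕ, Relation.ReflTransGen (MStep (fh d X σ p) m L) (m - 1, m) q →
      ∀ Z ∈ Om d, (symmDiff Z (symmDiff X ((Ico (q.1 + 1) q.2).image (we σ p)))).card ≤ 5 →
      Z ∈ GoodSet d X Y σ → Relation.ReflTransGen (NearRel d X Y σ) X Z := by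
    intro q hq
    induction hq with
    | refl =>
      intro Z hZ hc hg
      refine Relation.ReflTransGen.single ⟨hXgood, hg, ?_⟩
      have : m - 1 + 1 = m := by omega
      simp only [this] at hc
      rw [hempty, cd_comm] at hc
      omega
    | @tail q q' _ hs ih =>
      intro Z' hZ' hc' hg'
      obtain ⟨⟨h1, h2, h3, h4⟩, _, h5⟩ := hs
      obtain ⟨⟨Z, hZ, hc⟩, _⟩ := state_good d hX hY hσ hp (show q.1 < q.2 by omega) h3 h4
      have hg := hgood q.1 q.2 Z h1 h2 h3 h4 hZ hc
      refine (ih Z hZ hc hg).tail ⟨hg, hg', ?_⟩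
      have t1 := cd_tri Z (symmDiff X ((Ico (q.1 + 1) q.2).image (we σ p))) Z'
      have t2 := cd_tri (symmDiff X ((Ico (q.1 + 1) q.2).image (we σ p)))
        (symmDiff X ((Ico (q'.1 + 1) q'.2).image (we σ p))) Z'
      rw [cd_left] at t2
      have t4 := cd_comm (symmDiff X ((Ico (q'.1 + 1) q'.2).image (we σ p))) Z'
      have t3 : (symmDiff ((Ico (q.1 + 1) q.2).image (we σ p))
          ((Ico (q'.1 + 1) q'.2).image (we σ p))).card ≤ 1 := by
        refine (cd_image _ _ _).trans ?_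
        rcases h5 with ⟨e, e' | e'⟩ | ⟨e, e' | e'⟩
        · have : symmDiff (Ico (q.1 + 1) q.2) (Ico (q'.1 + 1) q'.2) ⊆ {q'.2} := by
            intro k hk
            rw [mem_symmDiff, mem_Ico, mem_Ico] at hk
            rw [mem_singleton]; omega
          exact (card_le_card this).trans (by simp)
        · have : symmDiff (Ico (q.1 + 1) q.2) (Ico (q'.1 + 1) q'.2) ⊆ {q.2} := by
            intro k hk
            rw [mem_symmDiff, mem_Ico, mem_Ico] at hk
            rw [mem_singleton]; omega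
          exact (card_le_card this).trans (by simp)
        · have : symmDiff (Ico (q.1 + 1) q.2) (Ico (q'.1 + 1) q'.2) ⊆ {q.1} := by
            intro k hk
            rw [mem_symmDiff, mem_Ico, mem_Ico] at hk
            rw [mem_singleton]; omega
          exact (card_le_card this).trans (by simp)
        · have : symmDiff (Ico (q.1 + 1) q.2) (Ico (q'.1 + 1) q'.2) ⊆ {q'.1} := by
            intro k hk
            rw [mem_symmDiff, mem_Ico, mem_Ico] at hk
            rw [mem_singleton]; omega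
          exact (card_le_card this).trans (by simp)
      omega
  -- the end
  have hvend : Val (fh d X σ p) 0 (L - 1) := by
    have e : L - 1 + 1 = L := by omega
    have a1 := hmax (0 + 1)
    have a2 := hmax (L - 1)
    constructor
    · rw [e, hfL]; exact (min_le_left _ _).trans (le_max_right _ _)
    · rw [e, hfL]; exact (min_le_right _ _).trans (le_max_left _ _)
  obtain ⟨⟨Z, hZ, hc⟩, _⟩ := state_good d hX hY hσ hp (show 0 < L - 1 by omega) (by omega) hvend
  have hg := hgood 0 (L - 1) Z hm0 (by omega) (by omega) hvend hZ hc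
  refine (main (0, L - 1) hmt Z hZ hc hg).tail ⟨hg, hflipgood, ?_⟩
  have t1 := cd_tri Z (symmDiff X ((Ico (0 + 1) (L - 1)).image (we σ p)))
    (symmDiff X (arc σ p L))
  rw [arc_eq, cd_left] at t1
  have t3 : (symmDiff ((Ico (0 + 1) (L - 1)).image (we σ p)) ((Ico 0 L).image (we σ p))).card
      ≤ 2 := by
    refine (cd_image _ _ _).trans ?_
    have : symmDiff (Ico (0 + 1) (L - 1)) (Ico 0 L) ⊆ {0, L - 1} := by
      intro k hk
      rw [mem_symmDiff, mem_Ico, mem_Ico] at hk
      rw [mem_insert, mem_singleton]; omega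
    exact (card_le_card this).trans card_le_two
  rw [arc_eq]
  omega

/-- flipping one circuit can be done through good states -/
theorem connect (d : V → ℕ) {X Y : Finset (Sym2 V)} {σ : V → V → V} (hX : X ∈ Om d)
    (hY : Y ∈ Om d) (hσ : σ ∈ Pr (rd X Y) (rd Y X)) {p : V × V}
    (hp : s(p.1, p.2) ∈ symmDiff X Y) :
    Relation.ReflTransGen (NearRel d X Y σ) X (symmDiff X (arc σ p (per σ p))) := by
  have hi := Pr_invol hσ
  obtain ⟨M, hM, hmax⟩ := exists_max_image (range (per σ p)) (fh d X σ p)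
    ⟨0, mem_range.2 (per_pos hi p)⟩
  set q := ((nxt σ)^[M]) p with hq
  have hqm : s(q.1, q.2) ∈ symmDiff X Y := we_mem hσ hp M
  have hfq : ∀ i, fh d X σ q i = fh d X σ p (i + M) := by
    intro i; unfold fh; rw [hq, vx_shift, we_shift]
  have hper : ∀ i, fh d X σ p (i % per σ p) = fh d X σ p i := by
    intro i
    have h1 : we σ p (i % per σ p) = we σ p i := by
      conv_rhs => rw [← Nat.mod_add_div' i (per σ p)]
      rw [we_add_mul_per]
    have h2 : vx σ p (i % per σ p) = vx σ p i := by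
      rw [vx, vx]
      congr 1
      exact iterate_mod_minimalPeriod_eq
    unfold fh; rw [h1, h2]
  have hmaxq : ∀ i, fh d X σ q i ≤ fh d X σ q 0 := by
    intro i
    rw [hfq, hfq, Nat.zero_add, ← hper (i + M)]
    exact hmax _ (mem_range.2 (Nat.mod_lt _ (per_pos hi p)))
  have := connect_max d hX hY hσ hqm hmaxq
  rwa [hq, per_shift hi, arc_per_shift σ hi] at this

end

end Vale.Agent.P335
end
end

section

section

namespace Vale.Agent.P335

open Finset Function

set_option linter.unusedSectionVars false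

section toggles

variable {V : Type*} [Fintype V] [DecidableEq V]

/-- number of pairings for a difference graph `H` -/
def Wt (H : Finset (Sym2 V)) : ℕ := ∏ v, ((nb H v).card / 2).factorial

theorem Wt_pos (H : Finset (Sym2 V)) : 0 < Wt H :=
  Finset.prod_pos (fun _ _ => Nat.factorial_pos _)

theorem rd_union (X Y : Finset (Sym2 V)) (v : V) :
    rd X Y v ∪ rd Y X v = nb (symmDiff X Y) v := by
  ext w; simp [mem_rd, mem_nb, mem_symmDiff]

theorem rd_disj (X Y : Finset (Sym2 V)) (v : V) : Disjoint (rd X Y v) (rd Y X v) := by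
  rw [disjoint_left]
  intro w h1 h2
  rw [mem_rd] at h1 h2
  exact h1.2 h2.1

theorem card_Pr_rd {d : V → ℕ} {X Y : Finset (Sym2 V)} (hX : X ∈ Om d) (hY : Y ∈ Om d) :
    (Pr (rd X Y) (rd Y X)).card = Wt (symmDiff X Y) := by
  rw [card_Pr _ _ (rd_disj X Y) (fun v => card_nb_sdiff d X Y hX hY v)]
  simp only [rd_union, Wt]

/-- colour of a dart, toggled at two darts -/
def tgl (A : Finset (Sym2 V)) (q1 q2 : V × V) (v w : V) : Bool :=
  xor (decide (s(v, w) ∈ A)) (xor (decide ((v, w) = q1)) (decide ((v, w) = q2)))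

/-- darts of `H` of toggled colour `true` -/
def Rc (H A : Finset (Sym2 V)) (q1 q2 : V × V) (v : V) : Finset V :=
  (nb H v).filter (fun w => tgl A q1 q2 v w = true)

/-- darts of `H` of toggled colour `false` -/
def Bc (H A : Finset (Sym2 V)) (q1 q2 : V × V) (v : V) : Finset V :=
  (nb H v).filter (fun w => tgl A q1 q2 v w = false)

theorem Rc_Bc_disj (H A : Finset (Sym2 V)) (q1 q2 : V × V) (v : V) :
    Disjoint (Rc H A q1 q2 v) (Bc H A q1 q2 v) := by
  rw [disjoint_left]
  intro w h1 h2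
  rw [Rc, mem_filter] at h1
  rw [Bc, mem_filter] at h2
  rw [h1.2] at h2
  exact absurd h2.2 (by decide)

theorem Rc_Bc_union (H A : Finset (Sym2 V)) (q1 q2 : V × V) (v : V) :
    Rc H A q1 q2 v ∪ Bc H A q1 q2 v = nb H v := by
  ext w
  rw [mem_union, Rc, Bc, mem_filter, mem_filter]
  cases tgl A q1 q2 v w <;> simp

theorem card_Pr_RcBc (H A : Finset (Sym2 V)) (q1 q2 : V × V) :
    (Pr (Rc H A q1 q2) (Bc H A q1 q2)).card ≤ Wt H := by
  refine (card_Pr_le _ _ (Rc_Bc_disj H A q1 q2)).trans ?_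
  simp only [Rc_Bc_union, Wt]
  exact le_rfl

theorem prt_dec {σ : V → V → V} (hi : ∀ v w, σ v (σ v w) = w) (v w : V) (q : V × V) :
    decide ((v, σ v w) = q) = decide ((v, w) = prt σ q) := by
  rw [decide_eq_decide]
  have h1 : (v, σ v w) = prt σ (v, w) := rfl
  rw [h1]
  constructor
  · intro h; rw [← h, prt_prt hi]
  · intro h; rw [h, prt_prt hi]

/-- the arc indicator, toggled at the two end darts -/
def gt (σ : V → V → V) (p : V × V) (l : ℕ) (v w : V) : Bool :=
  xor (decide (s(v, w) ∈ arc σ p l))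
    (xor (decide ((v, w) = p)) (decide ((v, w) = prt σ (((nxt σ)^[l]) p))))

theorem gt_inv {X Y : Finset (Sym2 V)} {σ : V → V → V} (hσ : σ ∈ Pr (rd X Y) (rd Y X))
    (hX : ∀ v, s(v, v) ∉ X) (hY : ∀ v, s(v, v) ∉ Y)
    {p : V × V} (hp : s(p.1, p.2) ∈ symmDiff X Y) {l : ℕ}
    (hl : l ≤ per σ p) (v w : V) : gt σ p l v (σ v w) = gt σ p l v w := by
  have hi := Pr_invol hσ
  induction l with
  | zero =>
    unfold gt
    rw [prt_dec hi, prt_dec hi]
    simp only [iterate_zero, id_eq, prt_prt hi, arc_zero, notMem_empty, decide_false,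
      Bool.false_xor]
    exact Bool.xor_comm _ _
  | succ l ih =>
    have hl' : l < per σ p := hl
    have hn := we_notMem_arc hσ hX hY hp hl'
    have step : ∀ v w, gt σ p (l + 1) v w = xor (gt σ p l v w)
        (xor (decide ((v, w) = ((nxt σ)^[l]) p)) (decide ((v, w) = prt σ (((nxt σ)^[l]) p)))) := by
      intro v w
      have e1 : prt σ (((nxt σ)^[l + 1]) p) = ((((nxt σ)^[l]) p)).swap := by
        rw [iterate_succ_apply']
        simp [nxt, prt, hi, Prod.swap]
      have e2 : decide (s(v, w) ∈ arc σ p (l + 1)) =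
          xor (decide (s(v, w) ∈ arc σ p l)) (decide (s(v, w) = we σ p l)) := by
        rw [arc_succ]
        by_cases h1 : s(v, w) = we σ p l
        · rw [h1]; simp [hn]
        · by_cases h2 : s(v, w) ∈ arc σ p l <;> simp [h1, h2]
      have e3 : decide (s(v, w) = we σ p l) =
          xor (decide ((v, w) = ((nxt σ)^[l]) p)) (decide ((v, w) = (((nxt σ)^[l]) p).swap)) := by
        have hne : (((nxt σ)^[l]) p) ≠ ((((nxt σ)^[l]) p)).swap :=
          no_swap hσ hX hY hp 0 l l (by omega)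
        have h0 : s(v, w) = we σ p l ↔
            ((v, w) = ((nxt σ)^[l]) p ∨ (v, w) = (((nxt σ)^[l]) p).swap) := by
          rw [we, Sym2.eq_iff]
          constructor
          · rintro (h | h)
            · exact Or.inl (Prod.ext h.1 h.2)
            · exact Or.inr (Prod.ext h.1 h.2)
          · rintro (h | h)
            · left; rw [← h]; exact ⟨rfl, rfl⟩
            · right
              have h1 := congrArg Prod.fst h
              have h2 := congrArg Prod.snd h
              exact ⟨h1, h2⟩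
        by_cases h1 : (v, w) = ((nxt σ)^[l]) p
        · have h2 : ¬ (v, w) = (((nxt σ)^[l]) p).swap := by rw [h1]; exact hne
          simp [h0, h1, h2]
          exact hne
        · by_cases h2 : (v, w) = (((nxt σ)^[l]) p).swap
          · simp only [h0, h1, h2, decide_true, decide_false, or_true, Bool.false_xor]
            simp [Ne.symm hne]
          · simp [h0, h1, h2]
      unfold gt
      rw [e1, e2, e3]
      generalize decide (s(v, w) ∈ arc σ p l) = a
      generalize decide ((v, w) = ((nxt σ)^[l]) p) = b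
      generalize decide ((v, w) = (((nxt σ)^[l]) p).swap) = c
      generalize decide ((v, w) = p) = e
      generalize decide ((v, w) = prt σ (((nxt σ)^[l]) p)) = f
      cases a <;> cases b <;> cases c <;> cases e <;> cases f <;> rfl
    rw [step, step, ih hl'.le, prt_dec hi, prt_dec hi, prt_prt hi]
    congr 1
    exact Bool.xor_comm _ _

/-- after flipping an arc the pairing is bichromatic for the toggled colours -/
theorem pr_toggle {X Y : Finset (Sym2 V)} {σ : V → V → V} (hσ : σ ∈ Pr (rd X Y) (rd Y X))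
    (hX : ∀ v, s(v, v) ∉ X) (hY : ∀ v, s(v, v) ∉ Y)
    {p : V × V} (hp : s(p.1, p.2) ∈ symmDiff X Y) {l : ℕ}
    (hl : l ≤ per σ p) :
    σ ∈ Pr (Rc (symmDiff X Y) (symmDiff X (arc σ p l)) p (prt σ (((nxt σ)^[l]) p)))
      (Bc (symmDiff X Y) (symmDiff X (arc σ p l)) p (prt σ (((nxt σ)^[l]) p))) := by
  have hi := Pr_invol hσ
  set q2 := prt σ (((nxt σ)^[l]) p) with hq2
  have e1 : ∀ v w, tgl (symmDiff X (arc σ p l)) p q2 v w =
      xor (decide (s(v, w) ∈ X)) (gt σ p l v w) := by
    intro v w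
    have : decide (s(v, w) ∈ symmDiff X (arc σ p l)) =
        xor (decide (s(v, w) ∈ X)) (decide (s(v, w) ∈ arc σ p l)) := by
      by_cases h1 : s(v, w) ∈ X <;> by_cases h2 : s(v, w) ∈ arc σ p l <;>
        simp [mem_symmDiff, h1, h2]
    unfold tgl gt
    rw [this, Bool.xor_assoc]
  have e2 : ∀ v w, s(v, w) ∈ symmDiff X Y → s(v, σ v w) ∈ symmDiff X Y ∧
      decide (s(v, σ v w) ∈ X) = !decide (s(v, w) ∈ X) := by
    intro v w h
    rw [mem_symmDiff] at h
    rcases h with ⟨h1, h2⟩ | ⟨h1, h2⟩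
    · have h3 := pr_XY hσ h1 h2
      exact ⟨mem_symmDiff.2 (Or.inr h3), by simp [h1, h3.2]⟩
    · have h3 := pr_YX hσ h2 h1
      exact ⟨mem_symmDiff.2 (Or.inl h3), by simp [h2, h3.1]⟩
  have e3 : ∀ v w, s(v, w) ∈ symmDiff X Y →
      tgl (symmDiff X (arc σ p l)) p q2 v (σ v w) = !tgl (symmDiff X (arc σ p l)) p q2 v w := by
    intro v w h
    rw [e1, e1, gt_inv hσ hX hY hp hl, (e2 v w h).2]
    cases decide (s(v, w) ∈ X) <;> cases gt σ p l v w <;> rfl
  rw [mem_Pr]
  intro v
  refine ⟨?_, ?_, hi v, ?_⟩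
  · intro w hw
    rw [Rc, mem_filter, mem_nb] at hw
    rw [Bc, mem_filter, mem_nb, e3 v w hw.1, hw.2]
    exact ⟨(e2 v w hw.1).1, rfl⟩
  · intro w hw
    rw [Bc, mem_filter, mem_nb] at hw
    rw [Rc, mem_filter, mem_nb, e3 v w hw.1, hw.2]
    exact ⟨(e2 v w hw.1).1, rfl⟩
  · intro w h1 h2
    have h3 : w ∉ nb (symmDiff X Y) v := by
      rw [← Rc_Bc_union (symmDiff X Y) (symmDiff X (arc σ p l)) p q2 v, mem_union]
      (clear * - h1 h2; tauto)
    rw [← rd_union, mem_union] at h3
    exact (mem_Pr.1 hσ v).2.2.2 w (by (clear * - h3; tauto)) (by (clear * - h3; tauto))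

end toggles

section count

variable {V : Type*} [Fintype V] [LinearOrder V]

/-- triples: two graphs and a pairing of their difference -/
def Tri (d : V → ℕ) : Finset (Finset (Sym2 V) × Finset (Sym2 V) × (V → V → V)) :=
  univ.filter (fun t => t.1 ∈ Om d ∧ t.2.1 ∈ Om d ∧ t.2.2 ∈ Pr (rd t.1 t.2.1) (rd t.2.1 t.1))

theorem mem_Tri {d : V → ℕ} {t : Finset (Sym2 V) × Finset (Sym2 V) × (V → V → V)} :
    t ∈ Tri d ↔ t.1 ∈ Om d ∧ t.2.1 ∈ Om d ∧ t.2.2 ∈ Pr (rd t.1 t.2.1) (rd t.2.1 t.1) := by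
  simp only [Tri, mem_filter, mem_univ, true_and]

/-- weight of a triple -/
noncomputable def wt (t : Finset (Sym2 V) × Finset (Sym2 V) × (V → V → V)) : ℝ :=
  1 / (Wt (symmDiff t.1 t.2.1) : ℝ)

theorem wt_pos (t : Finset (Sym2 V) × Finset (Sym2 V) × (V → V → V)) : 0 < wt t := by
  unfold wt
  have := Wt_pos (symmDiff t.1 t.2.1)
  positivity

/-- the condition that the arc `(p, l)` leads from `(X, Y)` to `(A, B)` -/
def Cnd (p : V × V) (l : ℕ) (A B : Finset (Sym2 V))
    (t : Finset (Sym2 V) × Finset (Sym2 V) × (V → V → V)) : Prop :=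
  s(p.1, p.2) ∈ symmDiff t.1 t.2.1 ∧ l ≤ per t.2.2 p ∧ symmDiff t.1 (arc t.2.2 p l) = A ∧
    symmDiff t.2.1 (arc t.2.2 p l) = B

open Classical in
theorem count_one (d : V → ℕ) (p : V × V) (l : ℕ) (A B : Finset (Sym2 V)) :
    ∑ t ∈ Tri d, (if Cnd p l A B t then wt t else 0) ≤ (Fintype.card V : ℝ) ^ 2 := by
  rw [← sum_filter]
  have hH : ∀ t ∈ (Tri d).filter (Cnd p l A B), symmDiff t.1 t.2.1 = symmDiff A B := by
    intro t ht
    obtain ⟨_, _, _, h1, h2⟩ := mem_filter.1 ht
    rw [← h1, ← h2]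
    ext e; simp only [mem_symmDiff]; (clear * -; tauto)
  have hw : ∀ t ∈ (Tri d).filter (Cnd p l A B), wt t = 1 / (Wt (symmDiff A B) : ℝ) := by
    intro t ht
    rw [wt, hH t ht]
  rw [sum_congr rfl hw, sum_const, nsmul_eq_mul]
  have hcard : ((Tri d).filter (Cnd p l A B)).card ≤ Fintype.card V ^ 2 * Wt (symmDiff A B) := by
    have h1 : ((Tri d).filter (Cnd p l A B)).card ≤
        ((univ : Finset (V × V)).biUnion (fun q2 =>
          Pr (Rc (symmDiff A B) A p q2) (Bc (symmDiff A B) A p q2))).card := by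
      apply card_le_card_of_injOn (fun t => t.2.2)
      · intro t ht
        have ht' := mem_coe.1 ht
        obtain ⟨hT, hp, hl, h1, h2⟩ := mem_filter.1 ht'
        obtain ⟨hX, hY, hσ⟩ := mem_Tri.1 hT
        rw [mem_coe, mem_biUnion]
        refine ⟨prt t.2.2 (((nxt t.2.2)^[l]) p), mem_univ _, ?_⟩
        have := pr_toggle hσ (mem_Om.1 hX).1 (mem_Om.1 hY).1 hp hl
        rw [hH t ht', h1] at this
        exact this
      · intro t ht t' ht' h
        obtain ⟨_, _, _, h1, h2⟩ := mem_filter.1 (mem_coe.1 ht)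
        obtain ⟨_, _, _, h1', h2'⟩ := mem_filter.1 (mem_coe.1 ht')
        have h' : t.2.2 = t'.2.2 := h
        rw [← h'] at h1' h2'
        have e1 : t.1 = t'.1 := symmDiff_left_injective _ (h1.trans h1'.symm)
        have e2 : t.2.1 = t'.2.1 := symmDiff_left_injective _ (h2.trans h2'.symm)
        exact Prod.ext e1 (Prod.ext e2 h')
    refine h1.trans (card_biUnion_le.trans ?_)
    refine (sum_le_sum (fun q2 _ => card_Pr_RcBc (symmDiff A B) A p q2)).trans ?_
    rw [sum_const, smul_eq_mul, card_univ, Fintype.card_prod, sq]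
  have hWpos : (0 : ℝ) < (Wt (symmDiff A B) : ℝ) := by exact_mod_cast Wt_pos _
  rw [mul_one_div, div_le_iff₀ hWpos]
  exact_mod_cast hcard

/-- small edge sets -/
def ball (r : ℕ) : Finset (Finset (Sym2 V)) :=
  univ.filter (fun F => (symmDiff ∅ F).card ≤ r)

theorem mem_ball {r : ℕ} {F : Finset (Sym2 V)} : F ∈ ball (V := V) r ↔ F.card ≤ r := by
  have : symmDiff ∅ F = F := by ext e; simp [mem_symmDiff]
  rw [ball, mem_filter, this]; simp

open Classical in
/-- the encoding bound -/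
theorem count_good (d : V → ℕ) (Z : Finset (Sym2 V)) :
    ∑ t ∈ Tri d, (if Z ∈ GoodSet d t.1 t.2.1 t.2.2 then wt t else 0) ≤
      ((Fintype.card V : ℝ) ^ 2 + 1) ^ 17 * ((Om d).card : ℝ) := by
  set N : ℝ := (Fintype.card V : ℝ) ^ 2 + 1 with hN
  have hN0 : (Fintype.card V : ℝ) ^ 2 ≤ N := by rw [hN]; linarith only []
  have hN1 : (1 : ℝ) ≤ N := by rw [hN]; nlinarith only []
  let I : Finset ((V × V) × ℕ × Finset (Sym2 V) × Finset (Sym2 V) × Finset (Sym2 V)) :=
    univ ×ˢ (range (Fintype.card V ^ 2 + 1) ×ˢ (Om d ×ˢ (ball 7 ×ˢ ball 7)))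
  have step1 : ∀ t ∈ Tri d, (if Z ∈ GoodSet d t.1 t.2.1 t.2.2 then wt t else 0) ≤
      ∑ i ∈ I, (if Cnd i.1 i.2.1 (symmDiff Z i.2.2.2.1) (symmDiff i.2.2.1 i.2.2.2.2) t
        then wt t else 0) := by
    intro t ht
    have hnn : ∀ i ∈ I, 0 ≤ (if Cnd i.1 i.2.1 (symmDiff Z i.2.2.2.1)
        (symmDiff i.2.2.1 i.2.2.2.2) t then wt t else 0) := by
      intro i _; split_ifs
      · exact (wt_pos t).le
      · exact le_rfl
    split_ifs with hg
    · obtain ⟨_, p, hp, l, hl, L, hL, h1, h2⟩ := mem_GoodSet.1 hg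
      have hiI : ((p, l, L, symmDiff Z (symmDiff t.1 (arc t.2.2 p l)),
          symmDiff L (symmDiff t.2.1 (arc t.2.2 p l))) :
          (V × V) × ℕ × Finset (Sym2 V) × Finset (Sym2 V) × Finset (Sym2 V)) ∈ I := by
        simp only [I, mem_product, mem_univ, true_and, mem_range, mem_ball]
        have := per_le (σ := t.2.2) p
        exact ⟨by omega, hL, h1, h2⟩
      refine le_trans ?_ (single_le_sum hnn hiI)
      rw [if_pos]
      refine ⟨hp, hl, ?_, ?_⟩
      · simp only [symmDiff_symmDiff_cancel_left]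
      · simp only [symmDiff_symmDiff_cancel_left]
    · exact sum_nonneg hnn
  refine (sum_le_sum step1).trans ?_
  rw [sum_comm]
  refine (sum_le_sum (fun i _ => count_one d i.1 i.2.1 (symmDiff Z i.2.2.2.1)
    (symmDiff i.2.2.1 i.2.2.2.2))).trans ?_
  rw [sum_const, nsmul_eq_mul]
  have hball : ((ball (V := V) 7).card : ℝ) ≤ N ^ 7 := card_ball ∅ univ 7
  have hI : (I.card : ℝ) ≤ N * (N * (((Om d).card : ℝ) * (N ^ 7 * N ^ 7))) := by
    simp only [I, card_product, card_univ, Fintype.card_prod, card_range]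
    push_cast
    have hb0 : (0 : ℝ) ≤ ((ball (V := V) 7).card : ℝ) := by (clear * -; positivity)
    gcongr
    · linarith
  calc (I.card : ℝ) * (Fintype.card V : ℝ) ^ 2
      ≤ (N * (N * (((Om d).card : ℝ) * (N ^ 7 * N ^ 7)))) * N := by
        apply mul_le_mul hI hN0 (by positivity) (by (clear * -; positivity))
    _ = N ^ 17 * ((Om d).card : ℝ) := by ring

end count

end Vale.Agent.P335
end
end

section

section

namespace Vale.Agent.P335

open Finset Function

set_option linter.unusedSectionVars false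

section circuits

variable {V : Type*} [Fintype V] [DecidableEq V]

/-- closed under the pairing -/
def Cl (σ : V → V → V) (U : Finset (Sym2 V)) : Prop := ∀ v w, s(v, w) ∈ U → s(v, σ v w) ∈ U

/-- union of the circuits of the darts in `D` -/
noncomputable def UU (H : Finset (Sym2 V)) (σ : V → V → V) (D : Finset (V × V)) :
    Finset (Sym2 V) :=
  (D.filter (fun p => s(p.1, p.2) ∈ H)).biUnion (fun p => arc σ p (per σ p))

theorem arc_closed {σ : V → V → V} (hi : ∀ v w, σ v (σ v w) = w) (p : V × V) :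
    Cl σ (arc σ p (per σ p)) := by
  intro v w h
  rw [mem_arc_per σ hi] at h
  obtain ⟨i, h⟩ := h
  rw [mem_arc_per σ hi]
  have h' : we σ p (i + per σ p) = s(v, w) := by rw [we_add_per, h]
  have hpos := per_pos hi p
  obtain ⟨j, hj⟩ : ∃ j, i + per σ p = j + 1 := ⟨i + per σ p - 1, by omega⟩
  rw [hj, we_eq, Sym2.eq_iff] at h'
  rcases h' with ⟨h1, h2⟩ | ⟨h1, h2⟩
  · refine ⟨j, ?_⟩
    have e := vx_add_two (σ := σ) p j
    rw [show j + 1 + 1 = j + 2 from rfl] at h2
    rw [we_eq, ← h1, ← h2, e, hi, Sym2.eq_swap]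
  · refine ⟨j + 1 + 1, ?_⟩
    rw [we_eq, h2, ← h1]
    have e := vx_add_two (σ := σ) p (j + 1)
    rw [show j + 1 + 1 + 1 = j + 1 + 2 from rfl, e]
    rw [show j + 1 + 1 = j + 1 + 1 from rfl, h2]

theorem UU_closed {σ : V → V → V} (hi : ∀ v w, σ v (σ v w) = w) (H : Finset (Sym2 V))
    (D : Finset (V × V)) : Cl σ (UU H σ D) := by
  intro v w h
  rw [UU, mem_biUnion] at h ⊢
  obtain ⟨p, hp, h⟩ := h
  exact ⟨p, hp, arc_closed hi p v w h⟩

theorem arc_dichotomy {σ : V → V → V} (hi : ∀ v w, σ v (σ v w) = w) {U : Finset (Sym2 V)}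
    (hU : Cl σ U) (p : V × V) :
    arc σ p (per σ p) ⊆ U ∨ Disjoint (arc σ p (per σ p)) U := by
  by_cases h : ∃ i, we σ p i ∈ U
  · left
    obtain ⟨i, h⟩ := h
    have step : ∀ k, we σ p (i + k) ∈ U := by
      intro k
      induction k with
      | zero => exact h
      | succ k ih =>
        rw [we_eq, Sym2.eq_swap] at ih
        have := hU _ _ ih
        rw [← vx_add_two (σ := σ) p (i + k)] at this
        rw [show i + (k + 1) = i + k + 1 by ring, we_eq]
        exact this
    intro e he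
    rw [mem_arc_per σ hi] at he
    obtain ⟨j, rfl⟩ := he
    have hpos := per_pos hi p
    have hle : i ≤ i * per σ p := Nat.le_mul_of_pos_right i hpos
    have := step (j + i * per σ p - i)
    rwa [show i + (j + i * per σ p - i) = j + i * per σ p by omega, we_add_mul_per] at this
  · right
    rw [disjoint_left]
    intro e he hU'
    rw [mem_arc_per σ hi] at he
    obtain ⟨j, rfl⟩ := he
    exact h ⟨j, hU'⟩

variable {X Y : Finset (Sym2 V)} {σ : V → V → V}

theorem UU_subset (hσ : σ ∈ Pr (rd X Y) (rd Y X)) (D : Finset (V × V)) :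
    UU (symmDiff X Y) σ D ⊆ symmDiff X Y := by
  intro e he
  rw [UU, mem_biUnion] at he
  obtain ⟨p, hp, he⟩ := he
  exact arc_subset hσ (mem_filter.1 hp).2 _ he

theorem UU_univ (hσ : σ ∈ Pr (rd X Y) (rd Y X)) :
    UU (symmDiff X Y) σ univ = symmDiff X Y := by
  apply Subset.antisymm (UU_subset hσ _)
  intro e he
  induction e using Sym2.ind with
  | _ a b =>
    rw [UU, mem_biUnion]
    refine ⟨(a, b), mem_filter.2 ⟨mem_univ _, he⟩, ?_⟩
    rw [mem_arc_per σ (Pr_invol hσ)]
    exact ⟨0, rfl⟩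

theorem closed_iff (hi : ∀ v w, σ v (σ v w) = w) {U : Finset (Sym2 V)} (hU : Cl σ U) (v w : V) :
    s(v, σ v w) ∈ U ↔ s(v, w) ∈ U := by
  constructor
  · intro h
    have := hU _ _ h
    rwa [hi] at this
  · exact hU v w

theorem flip_Om {d : V → ℕ} (hX : X ∈ Om d) (hY : Y ∈ Om d) (hσ : σ ∈ Pr (rd X Y) (rd Y X))
    {U : Finset (Sym2 V)} (hU : Cl σ U) (hUs : U ⊆ symmDiff X Y) : symmDiff X U ∈ Om d := by
  have hi := Pr_invol hσ
  have hX1 := (mem_Om.1 hX).1
  have hY1 := (mem_Om.1 hY).1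
  rw [mem_Om]
  constructor
  · apply symmDiff_loopless hX1
    intro v h
    exact symmDiff_loopless hX1 hY1 v (hUs h)
  · intro v
    rw [← (mem_Om.1 hX).2 v]
    unfold deg
    rw [nb_symmDiff]
    have h1 : (symmDiff (nb X v) (nb U v)).card = (nb X v \ nb U v).card + (nb U v \ nb X v).card := by
      rw [symmDiff_def, sup_eq_union, card_union_of_disjoint]
      rw [disjoint_left]
      intro w h1 h2
      rw [mem_sdiff] at h1 h2
      exact h1.2 h2.1
    have h2 : (nb X v \ nb U v).card + (nb X v ∩ nb U v).card = (nb X v).card :=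
      card_sdiff_add_card_inter _ _
    have h3 : (nb X v ∩ nb U v).card = (nb U v \ nb X v).card := by
      apply card_nbij' (σ v) (σ v)
      · intro w hw
        have hw' := mem_coe.1 hw
        rw [mem_inter, mem_nb, mem_nb] at hw'
        have hY' : s(v, w) ∉ Y := by
          have := hUs hw'.2
          rw [mem_symmDiff] at this
          (clear * - hw' this; tauto)
        rw [mem_coe, mem_sdiff, mem_nb, mem_nb]
        exact ⟨hU _ _ hw'.2, (pr_XY hσ hw'.1 hY').2⟩
      · intro w hw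
        have hw' := mem_coe.1 hw
        rw [mem_sdiff, mem_nb, mem_nb] at hw'
        have hY' : s(v, w) ∈ Y := by
          have := hUs hw'.1
          rw [mem_symmDiff] at this
          (clear * - hw' this; tauto)
        rw [mem_coe, mem_inter, mem_nb, mem_nb]
        exact ⟨(pr_YX hσ hw'.2 hY').1, hU _ _ hw'.1⟩
      · intro w _; exact hi v w
      · intro w _; exact hi v w
    omega

theorem flip_Pr (hσ : σ ∈ Pr (rd X Y) (rd Y X))
    {U : Finset (Sym2 V)} (hU : Cl σ U) (hUs : U ⊆ symmDiff X Y) :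
    σ ∈ Pr (rd (symmDiff X U) (symmDiff Y U)) (rd (symmDiff Y U) (symmDiff X U)) := by
  have hi := Pr_invol hσ
  rw [mem_Pr]
  intro v
  have hc := fun w => closed_iff hi hU v w
  have hs : ∀ w, s(v, w) ∈ U → s(v, w) ∈ symmDiff X Y := fun w h => hUs h
  have hXY : ∀ w, s(v, w) ∈ X → s(v, w) ∉ Y → s(v, σ v w) ∈ Y ∧ s(v, σ v w) ∉ X :=
    fun w h1 h2 => pr_XY hσ h1 h2
  have hYX : ∀ w, s(v, w) ∉ X → s(v, w) ∈ Y → s(v, σ v w) ∈ X ∧ s(v, σ v w) ∉ Y :=
    fun w h1 h2 => pr_YX hσ h1 h2
  have hfix : ∀ w, s(v, w) ∉ symmDiff X Y → σ v w = w := by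
    intro w h
    apply (mem_Pr.1 hσ v).2.2.2 w
    · intro h'; rw [mem_rd] at h'; exact h (mem_symmDiff.2 (Or.inl h'))
    · intro h'; rw [mem_rd] at h'; exact h (mem_symmDiff.2 (Or.inr h'))
  refine ⟨?_, ?_, hi v, ?_⟩
  · intro w hw
    rw [mem_rd, mem_symmDiff, mem_symmDiff] at hw ⊢
    have h1 := hc w
    have h2 := hs w
    have h3 := hXY w
    have h4 := hYX w
    rw [mem_symmDiff] at h2
    by_cases ha : s(v, w) ∈ X <;> by_cases hb : s(v, w) ∈ Y <;> by_cases hu : s(v, w) ∈ U <;>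
      simp_all
  · intro w hw
    rw [mem_rd, mem_symmDiff, mem_symmDiff] at hw ⊢
    have h1 := hc w
    have h2 := hs w
    have h3 := hXY w
    have h4 := hYX w
    rw [mem_symmDiff] at h2
    by_cases ha : s(v, w) ∈ X <;> by_cases hb : s(v, w) ∈ Y <;> by_cases hu : s(v, w) ∈ U <;>
      simp_all
  · intro w h1 h2
    apply hfix
    rw [mem_rd, mem_symmDiff, mem_symmDiff] at h1 h2
    have h3 := hs w
    rw [mem_symmDiff] at h3 ⊢
    by_cases ha : s(v, w) ∈ X <;> by_cases hb : s(v, w) ∈ Y <;> by_cases hu : s(v, w) ∈ U <;>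
      simp_all

end circuits

section main

variable {V : Type*} [Fintype V] [LinearOrder V]

/-- type of triples -/
abbrev TT (V : Type*) : Type _ := Finset (Sym2 V) × Finset (Sym2 V) × (V → V → V)

/-- flip all circuits of the darts in `D` -/
noncomputable def GG (D : Finset (V × V)) (t : TT V) : TT V :=
  (symmDiff t.1 (UU (symmDiff t.1 t.2.1) t.2.2 D),
    symmDiff t.2.1 (UU (symmDiff t.1 t.2.1) t.2.2 D), t.2.2)

theorem GG_H (D : Finset (V × V)) (t : TT V) :
    symmDiff (GG D t).1 (GG D t).2.1 = symmDiff t.1 t.2.1 := by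
  unfold GG
  ext e; simp only [mem_symmDiff]; tauto

theorem GG_GG (D : Finset (V × V)) (t : TT V) : GG D (GG D t) = t := by
  have h := GG_H D t
  refine Prod.ext ?_ (Prod.ext ?_ rfl)
  · show symmDiff (symmDiff t.1 (UU (symmDiff t.1 t.2.1) t.2.2 D))
      (UU (symmDiff (GG D t).1 (GG D t).2.1) t.2.2 D) = t.1
    rw [h, symmDiff_symmDiff_cancel_right]
  · show symmDiff (symmDiff t.2.1 (UU (symmDiff t.1 t.2.1) t.2.2 D))
      (UU (symmDiff (GG D t).1 (GG D t).2.1) t.2.2 D) = t.2.1
    rw [h, symmDiff_symmDiff_cancel_right]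

theorem GG_mem {d : V → ℕ} (D : Finset (V × V)) {t : TT V} (ht : t ∈ Tri d) :
    GG D t ∈ Tri d := by
  obtain ⟨hX, hY, hσ⟩ := mem_Tri.1 ht
  have hc := UU_closed (Pr_invol hσ) (symmDiff t.1 t.2.1) D
  have hs := UU_subset hσ D
  have hs' : UU (symmDiff t.1 t.2.1) t.2.2 D ⊆ symmDiff t.2.1 t.1 := by
    rw [symmDiff_comm t.2.1]; exact hs
  rw [mem_Tri]
  exact ⟨flip_Om hX hY hσ hc hs, flip_Om hY hX (Pr_symm hσ) hc hs', flip_Pr hσ hc hs⟩

theorem wt_GG (D : Finset (V × V)) (t : TT V) : wt (GG D t) = wt t := by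
  unfold wt; rw [GG_H]

/-- increment of `f` along the circuit of the dart `p` -/
noncomputable def gp (f : Finset (Sym2 V) → ℝ) (p : V × V) (t : TT V) : ℝ :=
  if s(p.1, p.2) ∈ symmDiff t.1 t.2.1 then
    (f t.1 - f (symmDiff t.1 (arc t.2.2 p (per t.2.2 p)))) ^ 2 else 0

theorem gp_nonneg (f : Finset (Sym2 V) → ℝ) (p : V × V) (t : TT V) : 0 ≤ gp f p t := by
  unfold gp; split_ifs
  · positivity
  · exact le_rfl

theorem one_step {d : V → ℕ} (f : Finset (Sym2 V) → ℝ) (D : Finset (V × V)) (p : V × V)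
    {t : TT V} (ht : t ∈ Tri d) :
    (f t.1 - f (symmDiff t.1 (symmDiff (UU (symmDiff t.1 t.2.1) t.2.2 D)
      (UU (symmDiff t.1 t.2.1) t.2.2 (insert p D))))) ^ 2 ≤ gp f p t := by
  obtain ⟨hX, hY, hσ⟩ := mem_Tri.1 ht
  have hi := Pr_invol hσ
  set H := symmDiff t.1 t.2.1 with hH
  have hzero : symmDiff t.1 (symmDiff (UU H t.2.2 D) (UU H t.2.2 D)) = t.1 := by
    ext e; simp only [symmDiff_self, bot_eq_empty, mem_symmDiff, notMem_empty, not_false_eq_true, and_true, false_and, or_false]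
  by_cases hp : s(p.1, p.2) ∈ H
  · have hU : UU H t.2.2 (insert p D) = arc t.2.2 p (per t.2.2 p) ∪ UU H t.2.2 D := by
      unfold UU
      rw [filter_insert, if_pos hp, biUnion_insert]
    rcases arc_dichotomy hi (UU_closed hi H D) p with h | h
    · rw [hU, union_eq_right.2 h, hzero]
      have := gp_nonneg f p t
      simpa only [sub_self, ne_eq, OfNat.ofNat_ne_zero, not_false_eq_true, zero_pow, ge_iff_le] using this
    · have : symmDiff (UU H t.2.2 D) (UU H t.2.2 (insert p D)) = arc t.2.2 p (per t.2.2 p) := by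
        rw [hU]
        ext e
        have h' : e ∈ arc t.2.2 p (per t.2.2 p) → e ∉ UU H t.2.2 D :=
          fun hx => disjoint_left.1 h hx
        simp only [mem_symmDiff, mem_union]
        (clear * - h'; tauto)
      rw [this]
      unfold gp
      rw [if_pos (by rw [← hH]; exact hp)]
  · have hU : UU H t.2.2 (insert p D) = UU H t.2.2 D := by
      unfold UU
      rw [filter_insert, if_neg hp]
    rw [hU, hzero]
    have := gp_nonneg f p t
    simpa only [sub_self, ne_eq, OfNat.ofNat_ne_zero, not_false_eq_true, zero_pow, ge_iff_le] using this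

theorem step_sum (d : V → ℕ) (f : Finset (Sym2 V) → ℝ) (D : Finset (V × V)) (p : V × V) :
    ∑ t ∈ Tri d, wt t * (f (symmDiff t.1 (UU (symmDiff t.1 t.2.1) t.2.2 D)) -
      f (symmDiff t.1 (UU (symmDiff t.1 t.2.1) t.2.2 (insert p D)))) ^ 2 ≤
    ∑ t ∈ Tri d, wt t * gp f p t := by
  have h1 : ∑ t ∈ Tri d, wt t * (f (symmDiff t.1 (UU (symmDiff t.1 t.2.1) t.2.2 D)) -
      f (symmDiff t.1 (UU (symmDiff t.1 t.2.1) t.2.2 (insert p D)))) ^ 2 =
      ∑ t ∈ Tri d, wt t * (f t.1 - f (symmDiff t.1 (symmDiff (UU (symmDiff t.1 t.2.1) t.2.2 D)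
      (UU (symmDiff t.1 t.2.1) t.2.2 (insert p D))))) ^ 2 := by
    apply sum_nbij' (GG D) (GG D)
    · intro t ht; exact GG_mem D ht
    · intro t ht; exact GG_mem D ht
    · intro t _; exact GG_GG D t
    · intro t _; exact GG_GG D t
    · intro t _
      rw [wt_GG, GG_H]
      have e1 : (GG D t).2.2 = t.2.2 := rfl
      have e2 : (GG D t).1 = symmDiff t.1 (UU (symmDiff t.1 t.2.1) t.2.2 D) := rfl
      have e3 : symmDiff (symmDiff t.1 (UU (symmDiff t.1 t.2.1) t.2.2 D))
          (symmDiff (UU (symmDiff t.1 t.2.1) t.2.2 D)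
            (UU (symmDiff t.1 t.2.1) t.2.2 (insert p D))) =
          symmDiff t.1 (UU (symmDiff t.1 t.2.1) t.2.2 (insert p D)) := by
        rw [← symmDiff_assoc, symmDiff_symmDiff_cancel_right]
      rw [e1, e2, e3]
  rw [h1]
  apply sum_le_sum
  intro t ht
  exact mul_le_mul_of_nonneg_left (one_step f D p ht) (wt_pos t).le

theorem telescope (d : V → ℕ) (f : Finset (Sym2 V) → ℝ) :
    ∑ t ∈ Tri d, wt t * (f t.1 - f t.2.1) ^ 2 ≤
      (Fintype.card V : ℝ) ^ 2 * ∑ p : V × V, ∑ t ∈ Tri d, wt t * gp f p t := by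
  classical
  set M := Fintype.card (V × V) with hM
  let e : V × V ≃ Fin M := Fintype.equivFin (V × V)
  let D : ℕ → Finset (V × V) := fun j => univ.filter (fun p => (e p : ℕ) < j)
  have hD0 : D 0 = ∅ := by simp only [not_lt_zero, filter_false, D]
  have hDM : D M = univ := by
    simp only [D]
    rw [filter_true_of_mem]
    intro p _; exact (e p).2
  have hDs : ∀ i : Fin M, D (i + 1) = insert (e.symm i) (D i) := by
    intro i
    ext p
    simp only [D, mem_filter, mem_univ, true_and, mem_insert]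
    constructor
    · intro h
      by_cases h' : (e p : ℕ) = i
      · left
        have : e p = i := Fin.ext h'
        rw [← this]; simp
      · right; omega
    · rintro (h | h)
      · rw [h]; simp only [Equiv.apply_symm_apply, lt_add_iff_pos_right, Order.lt_one_iff]
      · omega
  have hMM : (M : ℝ) = (Fintype.card V : ℝ) ^ 2 := by
    rw [hM, Fintype.card_prod]; push_cast; ring
  have key : ∀ t ∈ Tri d, (f t.1 - f t.2.1) ^ 2 ≤ (M : ℝ) * ∑ i : Fin M,
      (f (symmDiff t.1 (UU (symmDiff t.1 t.2.1) t.2.2 (D i))) -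
        f (symmDiff t.1 (UU (symmDiff t.1 t.2.1) t.2.2 (insert (e.symm i) (D i))))) ^ 2 := by
    intro t ht
    obtain ⟨hX, hY, hσ⟩ := mem_Tri.1 ht
    let a : ℕ → ℝ := fun j => f (symmDiff t.1 (UU (symmDiff t.1 t.2.1) t.2.2 (D j)))
    have ha0 : a 0 = f t.1 := by
      simp only [a, hD0]
      congr 1
      ext x; simp only [UU, mem_symmDiff, filter_empty, biUnion_empty, notMem_empty, not_false_eq_true, and_true, false_and, or_false]
    have haM : a M = f t.2.1 := by
      simp only [a, hDM]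
      rw [UU_univ hσ]
      congr 1
      ext x; simp only [mem_symmDiff]; (clear * -; tauto)
    have htel : f t.1 - f t.2.1 = ∑ i : Fin M, (a i - a (i + 1)) := by
      rw [Fin.sum_univ_eq_sum_range (fun j => a j - a (j + 1)) M, Finset.sum_range_sub', ha0, haM]
    rw [htel]
    have h1 := sq_sum_le_card_mul_sum_sq (s := (univ : Finset (Fin M)))
      (f := fun i : Fin M => a i - a (i + 1))
    rw [card_univ, Fintype.card_fin] at h1
    refine h1.trans (le_of_eq ?_)
    congr 1
    apply sum_congr rfl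
    intro i _
    simp only [a]
    rw [hDs i]
  calc ∑ t ∈ Tri d, wt t * (f t.1 - f t.2.1) ^ 2
      ≤ ∑ t ∈ Tri d, wt t * ((M : ℝ) * ∑ i : Fin M,
      (f (symmDiff t.1 (UU (symmDiff t.1 t.2.1) t.2.2 (D i))) -
        f (symmDiff t.1 (UU (symmDiff t.1 t.2.1) t.2.2 (insert (e.symm i) (D i))))) ^ 2) := by
        apply sum_le_sum
        intro t ht
        exact mul_le_mul_of_nonneg_left (key t ht) (wt_pos t).le
    _ = (M : ℝ) * ∑ i : Fin M, ∑ t ∈ Tri d, wt t *
      (f (symmDiff t.1 (UU (symmDiff t.1 t.2.1) t.2.2 (D i))) -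
        f (symmDiff t.1 (UU (symmDiff t.1 t.2.1) t.2.2 (insert (e.symm i) (D i))))) ^ 2 := by
        rw [sum_comm, mul_sum]
        apply sum_congr rfl
        intro t _
        rw [mul_sum, mul_sum, mul_sum]
        apply sum_congr rfl
        intro i _
        ring
    _ ≤ (M : ℝ) * ∑ i : Fin M, ∑ t ∈ Tri d, wt t * gp f (e.symm i) t := by
        apply mul_le_mul_of_nonneg_left _ (by positivity)
        apply sum_le_sum
        intro i _
        exact step_sum d f (D i) (e.symm i)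
    _ = (Fintype.card V : ℝ) ^ 2 * ∑ p : V × V, ∑ t ∈ Tri d, wt t * gp f p t := by
        rw [hMM, Equiv.sum_comp e.symm (fun p => ∑ t ∈ Tri d, wt t * gp f p t)]

end main

end Vale.Agent.P335
end
end

section

section

namespace Vale.Agent.P335

open Finset Function

set_option linter.unusedSectionVars false

section main

variable {V : Type*} [Fintype V] [LinearOrder V]

/-- the number of good states -/
theorem good_card (d : V → ℕ) (t : TT V) :
    ((GoodSet d t.1 t.2.1 t.2.2).card : ℝ) ≤ ((Fintype.card V : ℝ) ^ 2 + 1) ^ 9 := by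
  classical
  let g : (V × V) × ℕ × Finset (Sym2 V) → Finset (Sym2 V) :=
    fun i => symmDiff (symmDiff t.1 (arc t.2.2 i.1 i.2.1)) i.2.2
  let I : Finset ((V × V) × ℕ × Finset (Sym2 V)) :=
    univ ×ˢ (range (Fintype.card V ^ 2 + 1) ×ˢ ball 7)
  have hsub : GoodSet d t.1 t.2.1 t.2.2 ⊆ I.image g := by
    intro Z hZ
    obtain ⟨_, p, hp, l, hl, L, hL, h1, h2⟩ := mem_GoodSet.1 hZ
    rw [mem_image]
    refine ⟨(p, l, symmDiff Z (symmDiff t.1 (arc t.2.2 p l))), ?_, ?_⟩
    · simp only [I, mem_product, mem_univ, true_and, mem_range, mem_ball]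
      have := per_le (σ := t.2.2) p
      exact ⟨by omega, h1⟩
    · simp only [g]
      ext e; simp only [mem_symmDiff]; (clear * -; tauto)
  have h1 : (GoodSet d t.1 t.2.1 t.2.2).card ≤ I.card :=
    (card_le_card hsub).trans card_image_le
  have h2 : ((GoodSet d t.1 t.2.1 t.2.2).card : ℝ) ≤ (I.card : ℝ) := by exact_mod_cast h1
  refine h2.trans ?_
  set N : ℝ := (Fintype.card V : ℝ) ^ 2 + 1 with hN
  have hball : ((ball (V := V) 7).card : ℝ) ≤ N ^ 7 := card_ball ∅ univ 7
  have hN0 : (Fintype.card V : ℝ) * (Fintype.card V : ℝ) ≤ N := by rw [hN]; nlinarith only []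
  simp only [I, card_product, card_univ, Fintype.card_prod, card_range]
  push_cast
  calc (Fintype.card V : ℝ) * (Fintype.card V : ℝ) *
        (((Fintype.card V : ℝ) ^ 2 + 1) * ((ball (V := V) 7).card : ℝ))
      ≤ N * (N * N ^ 7) := by
        apply mul_le_mul hN0 _ (by (clear * -; positivity)) (by positivity)
        exact mul_le_mul_of_nonneg_left hball (by positivity)
    _ = N ^ 9 := by ring

theorem gp_le {d : V → ℕ} (f : Finset (Sym2 V) → ℝ) (p : V × V) {t : TT V} (ht : t ∈ Tri d) :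
    gp f p t ≤ ((Fintype.card V : ℝ) ^ 2 + 1) ^ 9 *
      ∑ A ∈ Om d, ∑ B ∈ (Om d).filter (fun B => (symmDiff A B).card ≤ 12),
        (if A ∈ GoodSet d t.1 t.2.1 t.2.2 then (f A - f B) ^ 2 else 0) := by
  classical
  obtain ⟨hX, hY, hσ⟩ := mem_Tri.1 ht
  have hrhs : 0 ≤ ∑ A ∈ Om d, ∑ B ∈ (Om d).filter (fun B => (symmDiff A B).card ≤ 12),
        (if A ∈ GoodSet d t.1 t.2.1 t.2.2 then (f A - f B) ^ 2 else 0) := by
    apply sum_nonneg; intro A _; apply sum_nonneg; intro B _
    split_ifs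
    · (clear * -; positivity)
    · exact le_rfl
  unfold gp
  split_ifs with hp
  · have hc := connect d hX hY hσ hp
    have h1 := path_ineq (GoodSet d t.1 t.2.1 t.2.2) (fun A B => (symmDiff A B).card ≤ 12)
      (fun A B h => by rw [symmDiff_comm]; exact h) f hc
    refine h1.trans ?_
    have hnn : 0 ≤ ∑ A ∈ GoodSet d t.1 t.2.1 t.2.2,
        ∑ B ∈ (GoodSet d t.1 t.2.1 t.2.2).filter (fun B => (symmDiff A B).card ≤ 12),
          (f A - f B) ^ 2 :=
      sum_nonneg fun _ _ => sum_nonneg fun _ _ => sq_nonneg _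
    apply mul_le_mul (good_card d t) _ hnn (by (clear * -; positivity))
    have hGO : GoodSet d t.1 t.2.1 t.2.2 ⊆ Om d := fun Z hZ => (mem_GoodSet.1 hZ).1
    calc ∑ A ∈ GoodSet d t.1 t.2.1 t.2.2,
        ∑ B ∈ (GoodSet d t.1 t.2.1 t.2.2).filter (fun B => (symmDiff A B).card ≤ 12),
          (f A - f B) ^ 2
        ≤ ∑ A ∈ GoodSet d t.1 t.2.1 t.2.2,
          ∑ B ∈ (Om d).filter (fun B => (symmDiff A B).card ≤ 12), (f A - f B) ^ 2 := by
          apply sum_le_sum
          intro A _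
          apply sum_le_sum_of_subset_of_nonneg (filter_subset_filter _ hGO)
          intro _ _ _; exact sq_nonneg _
      _ = ∑ A ∈ (Om d).filter (fun A => A ∈ GoodSet d t.1 t.2.1 t.2.2),
          ∑ B ∈ (Om d).filter (fun B => (symmDiff A B).card ≤ 12), (f A - f B) ^ 2 := by
          apply sum_congr _ (fun _ _ => rfl)
          ext Z
          rw [mem_filter]
          exact ⟨fun h => ⟨hGO h, h⟩, fun h => h.2⟩
      _ = ∑ A ∈ Om d, ∑ B ∈ (Om d).filter (fun B => (symmDiff A B).card ≤ 12),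
        (if A ∈ GoodSet d t.1 t.2.1 t.2.2 then (f A - f B) ^ 2 else 0) := by
          rw [sum_filter]
          apply sum_congr rfl
          intro A _
          split_ifs
          · rfl
          · simp
  · exact mul_nonneg (by (clear * -; positivity)) hrhs

theorem main_bound (d : V → ℕ) (f : Finset (Sym2 V) → ℝ) (p : V × V) :
    ∑ t ∈ Tri d, wt t * gp f p t ≤ ((Fintype.card V : ℝ) ^ 2 + 1) ^ 26 * ((Om d).card : ℝ) *
      ∑ A ∈ Om d, ∑ B ∈ (Om d).filter (fun B => (symmDiff A B).card ≤ 12), (f A - f B) ^ 2 := by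
  classical
  set N : ℝ := (Fintype.card V : ℝ) ^ 2 + 1 with hN
  calc ∑ t ∈ Tri d, wt t * gp f p t
      ≤ ∑ t ∈ Tri d, wt t * (N ^ 9 *
      ∑ A ∈ Om d, ∑ B ∈ (Om d).filter (fun B => (symmDiff A B).card ≤ 12),
        (if A ∈ GoodSet d t.1 t.2.1 t.2.2 then (f A - f B) ^ 2 else 0)) := by
        apply sum_le_sum
        intro t ht
        exact mul_le_mul_of_nonneg_left (gp_le f p ht) (wt_pos t).le
    _ = N ^ 9 * ∑ A ∈ Om d, ∑ B ∈ (Om d).filter (fun B => (symmDiff A B).card ≤ 12),
          (f A - f B) ^ 2 *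
            ∑ t ∈ Tri d, (if A ∈ GoodSet d t.1 t.2.1 t.2.2 then wt t else 0) := by
        rw [mul_sum]
        simp_rw [mul_sum]
        rw [sum_comm]
        apply sum_congr rfl
        intro A _
        rw [sum_comm]
        apply sum_congr rfl
        intro B _
        apply sum_congr rfl
        intro t _
        split_ifs
        · ring
        · ring
    _ ≤ N ^ 9 * ∑ A ∈ Om d, ∑ B ∈ (Om d).filter (fun B => (symmDiff A B).card ≤ 12),
          (f A - f B) ^ 2 * (N ^ 17 * ((Om d).card : ℝ)) := by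
        apply mul_le_mul_of_nonneg_left _ (by positivity)
        apply sum_le_sum; intro A _
        apply sum_le_sum; intro B _
        apply mul_le_mul_of_nonneg_left _ (sq_nonneg _)
        exact count_good d A
    _ = _ := by
        simp_rw [← sum_mul]
        ring

/-- sums over pairs as sums over triples -/
theorem pairs_eq (d : V → ℕ) (f : Finset (Sym2 V) → ℝ) :
    ∑ t ∈ Tri d, wt t * (f t.1 - f t.2.1) ^ 2 = ∑ X ∈ Om d, ∑ Y ∈ Om d, (f X - f Y) ^ 2 := by
  classical
  unfold Tri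
  rw [sum_filter, Fintype.sum_prod_type]
  rw [← sum_subset (subset_univ (Om d))]
  · apply sum_congr rfl
    intro X hX
    rw [Fintype.sum_prod_type, ← sum_subset (subset_univ (Om d))]
    · apply sum_congr rfl
      intro Y hY
      rw [← sum_filter]
      have h1 : (univ.filter (fun σ : V → V → V => (X, Y, σ).1 ∈ Om d ∧ (X, Y, σ).2.1 ∈ Om d ∧
          (X, Y, σ).2.2 ∈ Pr (rd (X, Y, σ).1 (X, Y, σ).2.1) (rd (X, Y, σ).2.1 (X, Y, σ).1))) =
          Pr (rd X Y) (rd Y X) := by
        ext σ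
        simp only [mem_filter, mem_univ, true_and, hX, hY]
      rw [h1]
      simp only [wt]
      rw [sum_const, nsmul_eq_mul, card_Pr_rd hX hY]
      have := Wt_pos (symmDiff X Y)
      have : (0 : ℝ) < (Wt (symmDiff X Y) : ℝ) := by exact_mod_cast this
      (clear d hX hY h1 this; field_simp)
    · intro Y _ hY
      apply sum_eq_zero
      intro σ _
      rw [if_neg]
      simp only [hX, hY]
      (clear * -; tauto)
  · intro X _ hX
    apply sum_eq_zero
    intro z _
    rw [if_neg]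
    simp only [hX]
    (clear * -; tauto)

open Classical in
/-- the Poincare inequality of the switch graph -/
theorem poincare_Om (d : V → ℕ) (f : Finset (Sym2 V) → ℝ) :
    ∑ X ∈ Om d, ∑ Y ∈ Om d, (f X - f Y) ^ 2 ≤
      (((Fintype.card V : ℝ) ^ 2 + 1) ^ 88 * 2 ^ 13) * ((Om d).card : ℝ) *
        ∑ A ∈ Om d, ∑ B ∈ (Om d).filter (fun B => Sw A B), (f A - f B) ^ 2 := by
  set N : ℝ := (Fintype.card V : ℝ) ^ 2 + 1 with hN
  have hN0 : (Fintype.card V : ℝ) ^ 2 ≤ N := by rw [hN]; linarith only []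
  set E : ℝ := ∑ A ∈ Om d, ∑ B ∈ (Om d).filter (fun B => Sw A B), (f A - f B) ^ 2 with hE
  set F : ℝ := ∑ A ∈ Om d, ∑ B ∈ (Om d).filter (fun B => (symmDiff A B).card ≤ 12),
    (f A - f B) ^ 2 with hF
  have hE0 : 0 ≤ E := sum_nonneg fun _ _ => sum_nonneg fun _ _ => sq_nonneg _
  have hF0 : 0 ≤ F := sum_nonneg fun _ _ => sum_nonneg fun _ _ => sq_nonneg _
  have hcmp : F ≤ (N ^ (5 * 12) * 2 ^ (12 + 1)) * E := compare_near d 12 f
  rw [← pairs_eq]
  calc ∑ t ∈ Tri d, wt t * (f t.1 - f t.2.1) ^ 2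
      ≤ (Fintype.card V : ℝ) ^ 2 * ∑ p : V × V, ∑ t ∈ Tri d, wt t * gp f p t := telescope d f
    _ ≤ (Fintype.card V : ℝ) ^ 2 * ∑ _p : V × V, N ^ 26 * ((Om d).card : ℝ) * F := by
        apply mul_le_mul_of_nonneg_left _ (by (clear * -; positivity))
        apply sum_le_sum
        intro p _
        exact main_bound d f p
    _ = (Fintype.card V : ℝ) ^ 2 * ((Fintype.card V : ℝ) ^ 2 * (N ^ 26 * ((Om d).card : ℝ) * F)) := by
        rw [sum_const, nsmul_eq_mul, card_univ, Fintype.card_prod]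
        push_cast
        ring
    _ ≤ N * (N * (N ^ 26 * ((Om d).card : ℝ) * ((N ^ (5 * 12) * 2 ^ (12 + 1)) * E))) := by
        (clear * - hN0 hcmp; gcongr)
    _ = _ := by ring

end main

/-- the Poincare inequality for realizations -/
theorem poincare_all {n : ℕ} (d : Fin n → ℕ) :
    Poincare d (((n : ℝ) ^ 2 + 1) ^ 88 * 2 ^ 13) := by
  apply poincare_of_Om
  intro f
  have := poincare_Om d f
  rw [Fintype.card_fin] at this
  exact this

/-- polynomial mixing of the switch chain for all graphical degree sequences -/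
theorem final_all : ∃ p : Polynomial ℕ, ∀ n : ℕ, 4 ≤ n → ∀ d : Fin n → ℕ, Graphical d →
    IsLeast {t | MixedBy d t} (tmix d) ∧ tmix d ≤ p.eval n := by
  apply final_of_poincare ((Polynomial.X ^ 2 + 1) ^ 88 * 2 ^ 13)
  intro n hn d hd
  refine ⟨((n : ℝ) ^ 2 + 1) ^ 88 * 2 ^ 13, by positivity, ?_, poincare_all d⟩
  simp only [Polynomial.eval_mul, Polynomial.eval_pow, Polynomial.eval_add, Polynomial.eval_X,
    Polynomial.eval_one, Polynomial.eval_ofNat]
  push_cast
  norm_num

end Vale.Agent.P335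
end
end
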